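import Vale.Agent.P133.FinDim.Basic

/-!
Asymptotically central contractions in ideals and ordered products of functions of them.
-/

namespace Vale.Agent.P133.FinDim

open Filter Topology
open scoped ComplexOrder

noncomputable section

variable {B : Type*} [CStarAlgebra B] [PartialOrder B] [StarOrderedRing B]

theorem qc_norm_one_le : ‖(1 : B)‖ ≤ 1 := by
  rcases subsingleton_or_nontrivial B with h | h
  · simp [Subsingleton.elim (1 : B) 0]
  · rw [norm_one]

theorem qc_spectrum_Icc {u : B} (h0 : 0 ≤ u) (h1 : u ≤ 1) {t : ℝ} (ht : t ∈ spectrum ℝ u) :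
    t ∈ Set.Icc (0 : ℝ) 1 := by
  refine ⟨spectrum_nonneg_of_nonneg h0 ht, ?_⟩
  exact (le_algebraMap_iff_spectrum_le (r := (1 : ℝ)) (a := u) h0.isSelfAdjoint).mp
    (by simpa using h1) t ht

theorem qc_norm_cfc_le {u : B} (h0 : 0 ≤ u) (h1 : u ≤ 1) {f : ℝ → ℝ} {C : ℝ} (hC : 0 ≤ C)
    (hf : ∀ t ∈ Set.Icc (0 : ℝ) 1, |f t| ≤ C) : ‖cfc f u‖ ≤ C :=
  norm_cfc_le hC fun t ht => by
    simpa [Real.norm_eq_abs] using hf t (qc_spectrum_Icc h0 h1 ht)

theorem qc_norm_le_one {u : B} (h0 : 0 ≤ u) (h1 : u ≤ 1) : ‖u‖ ≤ 1 :=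
  norm_le_of_le_sc h0 zero_le_one (by simpa [sc] using h1)

theorem qc_sq_le_self {d : B} (h0 : 0 ≤ d) (h1 : d ≤ 1) : d * star d ≤ d := by
  have hd : IsSelfAdjoint d := h0.isSelfAdjoint
  rw [hd.star_eq]
  calc d * d = cfc (fun t : ℝ => t * t) d := by
        rw [cfc_mul (fun t : ℝ => t) (fun t : ℝ => t) d, cfc_id' ℝ d]
    _ ≤ cfc (fun t : ℝ => t) d := cfc_mono (fun t ht => by
        obtain ⟨a, b⟩ := qc_spectrum_Icc h0 h1 ht
        nlinarith)
    _ = d := cfc_id' ℝ d

/-- The telescoping row estimate behind `exists_quasicentral`. -/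
theorem qc_row_bound (e : ℕ → B) (h0 : ∀ k, 0 ≤ e k) (h1 : ∀ k, e k ≤ 1)
    (hm : ∀ k, e k ≤ e (k + 1)) (x : B) {η : ℝ}
    (hx : ∀ k, ‖e k * x * (1 - e (k + 1))‖ ≤ η) (m : ℕ) :
    ‖∑ k ∈ Finset.range m, e (k + 1) * x * (1 - e (k + 1))‖ ≤ m * η + √(m : ℝ) * ‖x‖ := by
  have hd0 : ∀ k, 0 ≤ e (k + 1) - e k := fun k => sub_nonneg.2 (hm k)
  have hd1 : ∀ k, e (k + 1) - e k ≤ 1 := fun k =>
    le_trans (by simpa using h0 k) (h1 (k + 1))
  have hsplit : ∀ k, e (k + 1) * x * (1 - e (k + 1)) =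
      e k * x * (1 - e (k + 1)) + (e (k + 1) - e k) * (x * (1 - e (k + 1))) := fun k => by
    simp only [sub_mul, mul_assoc]
    abel
  have hrow : ∑ k ∈ Finset.range m, (e (k + 1) - e k) * star (e (k + 1) - e k) ≤ sc (1 : ℝ) := by
    calc _ ≤ ∑ k ∈ Finset.range m, (e (k + 1) - e k) :=
          Finset.sum_le_sum fun k _ => qc_sq_le_self (hd0 k) (hd1 k)
      _ = e m - e 0 := Finset.sum_range_sub e m
      _ ≤ e m := by simpa using h0 0
      _ ≤ sc (1 : ℝ) := by simpa [sc] using h1 m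
  have hv : ∀ k, ‖star (x * (1 - e (k + 1))) * (x * (1 - e (k + 1)))‖ ≤ ‖x‖ ^ 2 := fun k => by
    rw [CStarRing.norm_star_mul_self, ← sq]
    refine pow_le_pow_left₀ (norm_nonneg _) ((norm_mul_le _ _).trans ?_) 2
    exact mul_le_of_le_one_right (norm_nonneg _)
      (qc_norm_le_one (sub_nonneg.2 (h1 _)) (by simpa using h0 _))
  have h2 : ‖∑ k ∈ Finset.range m, (e (k + 1) - e k) * (x * (1 - e (k + 1)))‖ ^ 2 ≤
      (√(m : ℝ) * ‖x‖) ^ 2 := by
    refine (norm_row_sq_le _ _ _ one_pos hrow).trans ?_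
    rw [one_mul, mul_pow, Real.sq_sqrt (Nat.cast_nonneg m)]
    refine (norm_sum_le_of_le _ (fun k _ => hv k)).trans ?_
    simp
  have h3 := (pow_le_pow_iff_left₀ (norm_nonneg _) (by positivity) two_ne_zero).1 h2
  rw [Finset.sum_congr rfl fun k _ => hsplit k, Finset.sum_add_distrib]
  refine (norm_add_le _ _).trans (add_le_add ?_ h3)
  refine (norm_sum_le_of_le _ (fun k _ => hx k)).trans ?_
  simp

/-- Quasi-central almost units. -/
theorem exists_quasicentral {J : Set B} (hJ : IsClosedIdeal J) (F : Finset B) (G : Finset B)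
    (hG : ∀ g ∈ G, g ∈ J) {τ : ℝ} (hτ : 0 < τ) :
    ∃ w ∈ J, 0 ≤ w ∧ w ≤ 1 ∧ (∀ x ∈ F, ‖w * x - x * w‖ ≤ τ) ∧
      ∀ g ∈ G, ‖w * g - g‖ ≤ τ ∧ ‖g * w - g‖ ≤ τ := by
  classical
  set M : ℝ := ∑ x ∈ F, ‖x‖ with hMdef
  obtain ⟨m, hm⟩ := exists_nat_gt ((4 * (M + 1) / τ) ^ 2)
  have hM : 0 ≤ M := Finset.sum_nonneg fun x _ => norm_nonneg x
  have hmpos : (0 : ℝ) < m := lt_of_le_of_lt (sq_nonneg _) hm
  set η : ℝ := (τ / 4) ^ 2 with hηdef
  have hη : 0 < η := by positivity
  have hsη : √η = τ / 4 := Real.sqrt_sq (by positivity)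
  let inc : B → B := fun h => ∑ x ∈ F, (star (unitOf η h * x) * (unitOf η h * x) +
    star (unitOf η h * star x) * (unitOf η h * star x))
  let h0 : B := ∑ g ∈ G, (star g * g + g * star g)
  obtain ⟨hs, hs0, hsS⟩ : ∃ hs : ℕ → B, hs 0 = h0 ∧ ∀ k, hs (k + 1) = hs k + inc (hs k) :=
    ⟨fun k => Nat.rec h0 (fun _ h => h + inc h) k, rfl, fun k => rfl⟩
  have hinc : ∀ h, 0 ≤ inc h := fun h =>
    Finset.sum_nonneg fun x _ => add_nonneg (star_mul_self_nonneg _) (star_mul_self_nonneg _)
  have hh00 : 0 ≤ h0 :=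
    Finset.sum_nonneg fun x _ => add_nonneg (star_mul_self_nonneg _) (mul_star_self_nonneg _)
  have hnn : ∀ k, 0 ≤ hs k ∧ hs k ∈ J := by
    intro k
    induction k with
    | zero =>
      rw [hs0]
      exact ⟨hh00, hJ.sum_mem _ _ fun g hg => hJ.add_mem _ (hJ.mul_left _ _ (hG g hg)) _
        (hJ.mul_right _ _ (hG g hg))⟩
    | succ k ih =>
      rw [hsS]
      have hu := unitOf_mem hJ hη ih.1 ih.2
      exact ⟨add_nonneg ih.1 (hinc _), hJ.add_mem _ ih.2 _ (hJ.sum_mem _ _ fun x _ =>
        hJ.add_mem _ (hJ.mul_left _ _ (hJ.mul_right _ _ hu)) _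
          (hJ.mul_left _ _ (hJ.mul_right _ _ hu)))⟩
  let e : ℕ → B := fun k => unitOf η (hs k)
  have he0 : ∀ k, 0 ≤ e k := fun k => unitOf_nonneg hη (hnn k).1
  have he1 : ∀ k, e k ≤ 1 := fun k => unitOf_le_one hη (hnn k).1
  have heJ : ∀ k, e k ∈ J := fun k => unitOf_mem hJ hη (hnn k).1 (hnn k).2
  have hmono : ∀ k, hs k ≤ hs (k + 1) := fun k => by
    rw [hsS]
    exact le_add_of_nonneg_right (hinc _)
  have hem : ∀ k, e k ≤ e (k + 1) := fun k => unitOf_mono hη (hnn k).1 (hmono k)
  have hesa : ∀ k, star (e k) = e k := fun k => (he0 k).isSelfAdjoint.star_eq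
  have hkill : ∀ k (y : B), star (e k * y) * (e k * y) ≤ hs (k + 1) →
      ‖e k * y * (1 - e (k + 1))‖ ≤ √η := by
    intro k y hy
    refine Real.le_sqrt_of_sq_le ?_
    have := norm_one_sub_unitOf_mul_sq hη (hnn (k + 1)).1 (x := star (e k * y))
      (by rwa [star_star])
    rw [← norm_star, star_mul, star_sub, star_one, hesa]
    exact this
  have hle : ∀ k, ∀ x ∈ F, star (e k * x) * (e k * x) ≤ hs (k + 1) ∧
      star (e k * star x) * (e k * star x) ≤ hs (k + 1) := by
    intro k x hx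
    have h2 : star (e k * x) * (e k * x) + star (e k * star x) * (e k * star x) ≤ inc (hs k) :=
      Finset.single_le_sum (f := fun z => star (unitOf η (hs k) * z) * (unitOf η (hs k) * z) +
        star (unitOf η (hs k) * star z) * (unitOf η (hs k) * star z))
        (fun z _ => add_nonneg (star_mul_self_nonneg _) (star_mul_self_nonneg _)) hx
    have h3 : inc (hs k) ≤ hs (k + 1) := by
      rw [hsS]
      exact le_add_of_nonneg_left (hnn k).1
    exact ⟨(le_add_of_nonneg_right (star_mul_self_nonneg _)).trans (h2.trans h3),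
      (le_add_of_nonneg_left (star_mul_self_nonneg _)).trans (h2.trans h3)⟩
  set T : B := ∑ k ∈ Finset.range m, e (k + 1) with hT
  have hTcard : T ≤ (m : ℝ) • (1 : B) := by
    refine (Finset.sum_le_card_nsmul _ _ 1 fun k _ => he1 _).trans ?_
    rw [Finset.card_range, Nat.cast_smul_eq_nsmul]
  refine ⟨((m : ℝ)⁻¹) • T, hJ.real_smul_mem _ (hJ.sum_mem _ _ fun k _ => heJ _),
    smul_nonneg (by positivity) (Finset.sum_nonneg fun k _ => he0 _), ?_, ?_, ?_⟩
  · refine (smul_le_smul_of_nonneg_left hTcard (by positivity)).trans ?_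
    rw [smul_smul, inv_mul_cancel₀ hmpos.ne', one_smul]
  · intro x hx
    have ha := qc_row_bound e he0 he1 hem x (fun k => hkill k x (hle k x hx).1) m
    have hb := qc_row_bound e he0 he1 hem (star x) (fun k => hkill k _ (hle k x hx).2) m
    have key : T * x - x * T = (∑ k ∈ Finset.range m, e (k + 1) * x * (1 - e (k + 1))) -
        star (∑ k ∈ Finset.range m, e (k + 1) * star x * (1 - e (k + 1))) := by
      rw [hT, Finset.sum_mul, Finset.mul_sum, star_sum, ← Finset.sum_sub_distrib,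
        ← Finset.sum_sub_distrib]
      refine Finset.sum_congr rfl fun k _ => ?_
      simp only [star_mul, star_star, star_sub, star_one, hesa, mul_sub, sub_mul, mul_one, one_mul,
        mul_assoc]
      abel
    have hT' : ‖T * x - x * T‖ ≤ 2 * (m * √η + √(m : ℝ) * ‖x‖) := by
      rw [key]
      refine (norm_sub_le _ _).trans ?_
      rw [norm_star, two_mul]
      rw [norm_star] at hb
      exact add_le_add ha hb
    have hxM : ‖x‖ ≤ M :=
      Finset.single_le_sum (f := fun z : B => ‖z‖) (fun z _ => norm_nonneg z) hx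
    have hroot : 4 * (M + 1) / τ < √(m : ℝ) := (Real.lt_sqrt (by positivity)).2 hm
    have h5 : 4 * (M + 1) < √(m : ℝ) * τ := (div_lt_iff₀ hτ).1 hroot
    have hmm : √(m : ℝ) * √(m : ℝ) = m := Real.mul_self_sqrt hmpos.le
    rw [smul_mul_assoc, mul_smul_comm, ← smul_sub, norm_smul, norm_inv, Real.norm_natCast,
      inv_mul_le_iff₀ hmpos]
    refine hT'.trans ?_
    rw [hsη]
    nlinarith [Real.sqrt_nonneg (m : ℝ)]
  · intro g hg
    have hg' : ∀ k, g * star g ≤ hs k ∧ star g * g ≤ hs k := by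
      intro k
      induction k with
      | zero =>
        rw [hs0]
        have h2 : star g * g + g * star g ≤ h0 :=
          Finset.single_le_sum (f := fun z : B => star z * z + z * star z)
            (fun z _ => add_nonneg (star_mul_self_nonneg _) (mul_star_self_nonneg _)) hg
        exact ⟨(le_add_of_nonneg_left (star_mul_self_nonneg _)).trans h2,
          (le_add_of_nonneg_right (mul_star_self_nonneg _)).trans h2⟩
      | succ k ih => exact ⟨ih.1.trans (hmono k), ih.2.trans (hmono k)⟩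
    have hl : ∀ k, ‖e k * g - g‖ ≤ τ := fun k => by
      have h2 := norm_one_sub_unitOf_mul_sq hη (hnn k).1 (hg' k).1
      rw [sub_mul, one_mul] at h2
      rw [norm_sub_rev]
      refine (Real.le_sqrt_of_sq_le h2).trans ?_
      rw [hsη]
      linarith
    have hr : ∀ k, ‖g * e k - g‖ ≤ τ := fun k => by
      have h2 := norm_one_sub_unitOf_mul_sq hη (hnn k).1 (x := star g)
        (by simpa using (hg' k).2)
      rw [sub_mul, one_mul] at h2
      rw [← norm_star, star_sub, star_mul, hesa, norm_sub_rev]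
      refine (Real.le_sqrt_of_sq_le h2).trans ?_
      rw [hsη]
      linarith
    have havg : ∀ a : ℕ → B, (∀ k, ‖a k - g‖ ≤ τ) →
        ‖(m : ℝ)⁻¹ • ∑ k ∈ Finset.range m, a (k + 1) - g‖ ≤ τ := fun a ha => by
      have hgg : g = (m : ℝ)⁻¹ • ∑ _k ∈ Finset.range m, g := by
        rw [Finset.sum_const, Finset.card_range, ← Nat.cast_smul_eq_nsmul ℝ, smul_smul,
          inv_mul_cancel₀ hmpos.ne', one_smul]
      conv_lhs => rw [hgg, ← smul_sub, ← Finset.sum_sub_distrib, norm_smul, norm_inv,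
        Real.norm_natCast]
      rw [inv_mul_le_iff₀ hmpos]
      refine (norm_sum_le_of_le _ (fun k _ => ha (k + 1))).trans ?_
      simp
    refine ⟨?_, ?_⟩
    · rw [hT, smul_mul_assoc, Finset.sum_mul]
      exact havg (fun k => e k * g) hl
    · rw [hT, mul_smul_comm, Finset.mul_sum]
      exact havg (fun k => g * e k) hr

/-- Two sequences are asymptotically equal. -/
def AEq (X Y : ℕ → B) : Prop := Tendsto (fun k => ‖X k - Y k‖) atTop (𝓝 0)

/-- A norm bounded sequence. -/
def ABdd (X : ℕ → B) : Prop := ∃ C : ℝ, ∀ k, ‖X k‖ ≤ C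

section

omit [PartialOrder B] [StarOrderedRing B]

theorem AEq.refl (X : ℕ → B) : AEq X X := by
  simp [AEq]

theorem AEq.symm {X Y : ℕ → B} (h : AEq X Y) : AEq Y X := by
  simpa [AEq, norm_sub_rev] using h

theorem AEq.trans {X Y Z : ℕ → B} (h : AEq X Y) (h' : AEq Y Z) : AEq X Z := by
  refine squeeze_zero (fun k => norm_nonneg _) (fun k => ?_) (by simpa using Tendsto.add h h')
  exact norm_sub_le_norm_sub_add_norm_sub _ _ _

theorem AEq.add {X Y X' Y' : ℕ → B} (h : AEq X Y) (h' : AEq X' Y') :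
    AEq (fun k => X k + X' k) (fun k => Y k + Y' k) := by
  refine squeeze_zero (fun k => norm_nonneg _) (fun k => ?_) (by simpa using Tendsto.add h h')
  rw [add_sub_add_comm]
  exact norm_add_le _ _

theorem AEq.sub {X Y X' Y' : ℕ → B} (h : AEq X Y) (h' : AEq X' Y') :
    AEq (fun k => X k - X' k) (fun k => Y k - Y' k) := by
  refine squeeze_zero (fun k => norm_nonneg _) (fun k => ?_) (by simpa using Tendsto.add h h')
  rw [sub_sub_sub_comm]
  exact norm_sub_le _ _

theorem AEq.sum {ι : Type*} (s : Finset ι) {X Y : ι → ℕ → B} (h : ∀ i ∈ s, AEq (X i) (Y i)) :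
    AEq (fun k => ∑ i ∈ s, X i k) (fun k => ∑ i ∈ s, Y i k) := by
  classical
  induction s using Finset.induction_on with
  | empty => simpa using AEq.refl (fun _ : ℕ => (0 : B))
  | insert a s ha ih =>
    simp only [Finset.sum_insert ha]
    exact (h a (Finset.mem_insert_self a s)).add
      (ih fun i hi => h i (Finset.mem_insert_of_mem hi))

theorem AEq.mul {X Y X' Y' : ℕ → B} (h : AEq X Y) (h' : AEq X' Y') (hY : ABdd Y)
    (hX' : ABdd X') : AEq (fun k => X k * X' k) (fun k => Y k * Y' k) := by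
  obtain ⟨C, hC⟩ := hY
  obtain ⟨C', hC'⟩ := hX'
  refine squeeze_zero (fun k => norm_nonneg _) (fun k => ?_)
    (by simpa using (h.mul_const C').add (h'.const_mul C))
  calc ‖X k * X' k - Y k * Y' k‖ = ‖(X k - Y k) * X' k + Y k * (X' k - Y' k)‖ := by
        rw [sub_mul, mul_sub]; congr 1; abel
    _ ≤ ‖X k - Y k‖ * C' + C * ‖X' k - Y' k‖ :=
        (norm_add_le _ _).trans (add_le_add
          ((norm_mul_le _ _).trans (mul_le_mul_of_nonneg_left (hC' k) (norm_nonneg _)))
          ((norm_mul_le _ _).trans (mul_le_mul_of_nonneg_right (hC k) (norm_nonneg _))))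

theorem AEq.star {X Y : ℕ → B} (h : AEq X Y) :
    AEq (fun k => Star.star (X k)) (fun k => Star.star (Y k)) := by
  simpa [AEq, ← star_sub] using h

theorem AEq.mul_left {X Y : ℕ → B} (h : AEq X Y) {Z : ℕ → B} (hZ : ABdd Z) :
    AEq (fun k => Z k * X k) (fun k => Z k * Y k) := by
  obtain ⟨C, hC⟩ := hZ
  refine squeeze_zero (fun k => norm_nonneg _) (fun k => ?_) (by simpa using h.const_mul C)
  rw [← mul_sub]
  exact (norm_mul_le _ _).trans (mul_le_mul_of_nonneg_right (hC k) (norm_nonneg _))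

theorem AEq.mul_right {X Y : ℕ → B} (h : AEq X Y) {Z : ℕ → B} (hZ : ABdd Z) :
    AEq (fun k => X k * Z k) (fun k => Y k * Z k) := by
  obtain ⟨C, hC⟩ := hZ
  refine squeeze_zero (fun k => norm_nonneg _) (fun k => ?_) (by simpa using h.mul_const C)
  rw [← sub_mul]
  exact (norm_mul_le _ _).trans (mul_le_mul_of_nonneg_left (hC k) (norm_nonneg _))

theorem AEq.eventually {X Y : ℕ → B} (h : AEq X Y) {η : ℝ} (hη : 0 < η) :
    ∀ᶠ k in atTop, ‖X k - Y k‖ ≤ η :=
  (Filter.Tendsto.eventually_lt_const hη h).mono fun _ hk => hk.le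

theorem abdd_const (X : B) : ABdd (fun _ => X) := ⟨‖X‖, fun _ => le_rfl⟩

theorem ABdd.mul {X Y : ℕ → B} (hX : ABdd X) (hY : ABdd Y) : ABdd (fun k => X k * Y k) := by
  obtain ⟨C, hC⟩ := hX
  obtain ⟨C', hC'⟩ := hY
  exact ⟨C * C', fun k => (norm_mul_le _ _).trans
    (mul_le_mul (hC k) (hC' k) (norm_nonneg _) ((norm_nonneg _).trans (hC k)))⟩

theorem ABdd.add {X Y : ℕ → B} (hX : ABdd X) (hY : ABdd Y) : ABdd (fun k => X k + Y k) := by
  obtain ⟨C, hC⟩ := hX
  obtain ⟨C', hC'⟩ := hY
  exact ⟨C + C', fun k => (norm_add_le _ _).trans (add_le_add (hC k) (hC' k))⟩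

theorem ABdd.sum {ι : Type*} (s : Finset ι) {X : ι → ℕ → B} (h : ∀ i ∈ s, ABdd (X i)) :
    ABdd (fun k => ∑ i ∈ s, X i k) := by
  classical
  induction s using Finset.induction_on with
  | empty => exact ⟨0, fun k => by simp⟩
  | insert a s ha ih =>
    simp only [Finset.sum_insert ha]
    exact (h a (Finset.mem_insert_self a s)).add
      (ih fun i hi => h i (Finset.mem_insert_of_mem hi))

theorem AEq.of_eq {X Y : ℕ → B} (h : ∀ k, X k = Y k) : AEq X Y := by
  simp [AEq, h]

theorem AEq.smul {X Y : ℕ → B} (h : AEq X Y) (r : ℝ) :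
    AEq (fun k => r • X k) (fun k => r • Y k) := by
  refine squeeze_zero (fun k => norm_nonneg _) (fun k => ?_) (by simpa using h.const_mul ‖r‖)
  rw [← smul_sub, norm_smul, Real.norm_eq_abs]

theorem AEq.of_approx {X Y : ℕ → B}
    (h : ∀ ε : ℝ, 0 < ε → ∃ X' Y' : ℕ → B, AEq X' Y' ∧
      ∀ k, ‖X k - X' k‖ ≤ ε ∧ ‖Y k - Y' k‖ ≤ ε) : AEq X Y := by
  refine Metric.tendsto_nhds.2 fun ε hε => ?_
  obtain ⟨X', Y', hXY, hk⟩ := h (ε / 4) (by positivity)
  filter_upwards [hXY.eventually (show 0 < ε / 4 by positivity)] with k hk'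
  rw [Real.dist_eq, sub_zero, abs_of_nonneg (norm_nonneg _)]
  calc ‖X k - Y k‖ = ‖(X k - X' k) + (X' k - Y' k) + (Y' k - Y k)‖ := by congr 1; abel
    _ ≤ ‖X k - X' k‖ + ‖X' k - Y' k‖ + ‖Y' k - Y k‖ := norm_add₃_le
    _ < ε := by rw [norm_sub_rev (Y' k)]; linarith [hk k]

end

theorem qc_norm_pow_le {u : B} (h0 : 0 ≤ u) (h1 : u ≤ 1) (n : ℕ) : ‖u ^ n‖ ≤ 1 := by
  induction n with
  | zero => simpa using qc_norm_one_le
  | succ n ih =>
    rw [pow_succ]
    exact (norm_mul_le _ _).trans (mul_le_one₀ ih (norm_nonneg _) (qc_norm_le_one h0 h1))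

theorem qc_exists_poly {f : ℝ → ℝ} (hf : Continuous f) {δ : ℝ} (hδ : 0 < δ) :
    ∃ p : Polynomial ℝ, (∀ t ∈ Set.Icc (0 : ℝ) 1, |p.eval t - f t| ≤ δ) ∧
      ∀ u : B, 0 ≤ u → u ≤ 1 →
        ‖cfc f u - ∑ i ∈ Finset.range (p.natDegree + 1), p.coeff i • u ^ i‖ ≤ δ := by
  obtain ⟨p, hp⟩ := exists_polynomial_near_of_continuousOn 0 1 f hf.continuousOn δ hδ
  refine ⟨p, fun t ht => (hp t ht).le, fun u h0 h1 => ?_⟩
  rw [← Polynomial.aeval_eq_sum_range, ← cfc_polynomial p u h0.isSelfAdjoint,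
    ← cfc_sub f p.eval u hf.continuousOn p.continuous.continuousOn]
  exact qc_norm_cfc_le h0 h1 hδ.le fun t ht => by
    rw [abs_sub_comm]
    exact (hp t ht).le

/-- Functions of asymptotically commuting contractions asymptotically commute. -/
theorem AEq.cfc_comm {u X : ℕ → B} (h0 : ∀ k, 0 ≤ u k) (h1 : ∀ k, u k ≤ 1) (hX : ABdd X)
    (h : AEq (fun k => u k * X k) (fun k => X k * u k)) {f : ℝ → ℝ} (hf : Continuous f) :
    AEq (fun k => cfc f (u k) * X k) (fun k => X k * cfc f (u k)) := by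
  have hu : ABdd u := ⟨1, fun k => qc_norm_le_one (h0 k) (h1 k)⟩
  have hpow : ∀ n : ℕ, AEq (fun k => u k ^ n * X k) (fun k => X k * u k ^ n) := by
    intro n
    induction n with
    | zero => exact AEq.of_eq fun k => by simp
    | succ n ih =>
      have a1 := h.mul_left (Z := fun k => u k ^ n) ⟨1, fun k => qc_norm_pow_le (h0 k) (h1 k) n⟩
      have a2 := ih.mul_right (Z := u) hu
      exact ((AEq.of_eq fun k => by simp only [pow_succ, mul_assoc]).trans a1).trans
        ((AEq.of_eq fun k => by simp only [mul_assoc]).trans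
          (a2.trans (AEq.of_eq fun k => by simp only [pow_succ, mul_assoc])))
  obtain ⟨C, hC⟩ := hX
  have hC0 : 0 ≤ C := (norm_nonneg _).trans (hC 0)
  refine AEq.of_approx fun ε hε => ?_
  obtain ⟨p, -, hp⟩ := qc_exists_poly (B := B) hf (show 0 < ε / (C + 1) by positivity)
  have hb : ε / (C + 1) * C ≤ ε := by
    rw [div_mul_eq_mul_div, div_le_iff₀ (by positivity)]
    nlinarith
  refine ⟨fun k => ∑ i ∈ Finset.range (p.natDegree + 1), p.coeff i • (u k ^ i * X k),
    fun k => ∑ i ∈ Finset.range (p.natDegree + 1), p.coeff i • (X k * u k ^ i),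
    AEq.sum _ fun i _ => (hpow i).smul _, fun k => ⟨?_, ?_⟩⟩
  · dsimp only
    rw [show (∑ i ∈ Finset.range (p.natDegree + 1), p.coeff i • (u k ^ i * X k)) =
        (∑ i ∈ Finset.range (p.natDegree + 1), p.coeff i • u k ^ i) * X k by
      simp [Finset.sum_mul], ← sub_mul]
    exact ((norm_mul_le _ _).trans
      (mul_le_mul (hp _ (h0 k) (h1 k)) (hC k) (norm_nonneg _) (by positivity))).trans hb
  · dsimp only
    rw [show (∑ i ∈ Finset.range (p.natDegree + 1), p.coeff i • (X k * u k ^ i)) =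
        X k * ∑ i ∈ Finset.range (p.natDegree + 1), p.coeff i • u k ^ i by
      simp [Finset.mul_sum], ← mul_sub]
    exact ((norm_mul_le _ _).trans
      (mul_le_mul (hC k) (hp _ (h0 k) (h1 k)) (norm_nonneg _) hC0)).trans
      ((mul_comm C _).le.trans hb)

/-- A function of `u` acts as its value at `1` where `u` acts as the unit. -/
theorem AEq.cfc_unit {u : ℕ → B} {Z : B} (h0 : ∀ k, 0 ≤ u k) (h1 : ∀ k, u k ≤ 1)
    (h : AEq (fun k => Z * u k) (fun _ => Z)) {f : ℝ → ℝ} (hf : Continuous f) :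
    AEq (fun k => Z * cfc f (u k)) (fun _ => f 1 • Z) := by
  have hu : ABdd u := ⟨1, fun k => qc_norm_le_one (h0 k) (h1 k)⟩
  have hpow : ∀ n : ℕ, AEq (fun k => Z * u k ^ n) (fun _ => Z) := by
    intro n
    induction n with
    | zero => exact AEq.of_eq fun k => by simp
    | succ n ih =>
      exact ((AEq.of_eq fun k => by simp only [pow_succ, mul_assoc]).trans
        (ih.mul_right (Z := u) hu)).trans h
  refine AEq.of_approx fun ε hε => ?_
  obtain ⟨p, hp1, hp⟩ := qc_exists_poly (B := B) hf (show 0 < ε / (‖Z‖ + 1) by positivity)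
  have hb : ε / (‖Z‖ + 1) * ‖Z‖ ≤ ε := by
    rw [div_mul_eq_mul_div, div_le_iff₀ (by positivity)]
    nlinarith [norm_nonneg Z]
  refine ⟨fun k => ∑ i ∈ Finset.range (p.natDegree + 1), p.coeff i • (Z * u k ^ i),
    fun _ => p.eval 1 • Z,
    (AEq.sum _ fun i _ => (hpow i).smul _).trans (AEq.of_eq fun k => ?_), fun k => ⟨?_, ?_⟩⟩
  · rw [Polynomial.eval_eq_sum_range, Finset.sum_smul]
    simp
  · dsimp only
    rw [show (∑ i ∈ Finset.range (p.natDegree + 1), p.coeff i • (Z * u k ^ i)) =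
        Z * ∑ i ∈ Finset.range (p.natDegree + 1), p.coeff i • u k ^ i by
      simp [Finset.mul_sum], ← mul_sub]
    exact ((norm_mul_le _ _).trans
      (mul_le_mul_of_nonneg_left (hp _ (h0 k) (h1 k)) (norm_nonneg _))).trans
      ((mul_comm ‖Z‖ _).le.trans hb)
  · rw [← sub_smul, norm_smul, Real.norm_eq_abs, abs_sub_comm]
    exact (mul_le_mul_of_nonneg_right (hp1 1 (by simp)) (norm_nonneg _)).trans hb

/-- Contractions `w i k ∈ J i` that asymptotically commute with each other and with `F`, and act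
asymptotically as a unit on `j i`. -/
structure QCSystem {ι : Type*} (J : ι → Set B) (F : Set B) (j : ι → B) where
  w : ι → ℕ → B
  mem : ∀ i k, w i k ∈ J i
  nonneg : ∀ i k, 0 ≤ w i k
  le_one : ∀ i k, w i k ≤ 1
  comm : ∀ i, ∀ X ∈ F, AEq (fun k => w i k * X) (fun k => X * w i k)
  mutual_comm : ∀ i i', AEq (fun k => w i k * w i' k) (fun k => w i' k * w i k)
  unit_left : ∀ i, AEq (fun k => w i k * j i) (fun _ => j i)
  unit_right : ∀ i, AEq (fun k => j i * w i k) (fun _ => j i)

theorem exists_qcSystem {ι : Type*} [Fintype ι] {J : ι → Set B}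
    (hJ : ∀ i, IsClosedIdeal (J i)) {F : Set B} (hF : F.Finite) (j : ι → B)
    (hj : ∀ i, j i ∈ J i) : Nonempty (QCSystem J F j) := by
  classical
  have step : ∀ k : ℕ, ∀ s : Finset ι, ∃ w : ι → B, (∀ i ∈ s, w i ∈ J i ∧ 0 ≤ w i ∧ w i ≤ 1 ∧
      (∀ X ∈ F, ‖w i * X - X * w i‖ ≤ 1 / (k + 1 : ℝ)) ∧
      ‖w i * j i - j i‖ ≤ 1 / (k + 1 : ℝ) ∧ ‖j i * w i - j i‖ ≤ 1 / (k + 1 : ℝ)) ∧
      ∀ i ∈ s, ∀ i' ∈ s, ‖w i * w i' - w i' * w i‖ ≤ 1 / (k + 1 : ℝ) := by
    intro k s
    induction s using Finset.induction_on with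
    | empty => exact ⟨0, by simp, by simp⟩
    | insert a s ha ih =>
      obtain ⟨w, hw, hww⟩ := ih
      obtain ⟨v, hvJ, hv0, hv1, hvF, hvG⟩ := exists_quasicentral (hJ a)
        (hF.toFinset ∪ s.image w) {j a} (by simp [hj a]) (τ := 1 / (k + 1 : ℝ)) (by positivity)
      have hne : ∀ i ∈ s, Function.update w a v i = w i := fun i hi =>
        Function.update_of_ne (fun h => ha (by rw [← h]; exact hi)) _ _
      refine ⟨Function.update w a v, fun i hi => ?_, fun i hi i' hi' => ?_⟩
      · rcases Finset.mem_insert.1 hi with rfl | hi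
        · rw [Function.update_self]
          refine ⟨hvJ, hv0, hv1, fun X hX => hvF X ?_, hvG (j _) (Finset.mem_singleton_self _)⟩
          exact Finset.mem_union_left _ (hF.mem_toFinset.2 hX)
        · rw [hne i hi]
          exact hw i hi
      · by_cases hia : i = a
        · by_cases hia' : i' = a
          · rw [hia, hia', sub_self, norm_zero]
            positivity
          · have hs' : i' ∈ s := (Finset.mem_insert.1 hi').resolve_left hia'
            rw [hia, Function.update_self, hne i' hs']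
            exact hvF _ (Finset.mem_union_right _ (Finset.mem_image_of_mem _ hs'))
        · have hs : i ∈ s := (Finset.mem_insert.1 hi).resolve_left hia
          by_cases hia' : i' = a
          · rw [hia', Function.update_self, hne i hs, norm_sub_rev]
            exact hvF _ (Finset.mem_union_right _ (Finset.mem_image_of_mem _ hs))
          · have hs' : i' ∈ s := (Finset.mem_insert.1 hi').resolve_left hia'
            rw [hne i hs, hne i' hs']
            exact hww i hs i' hs'
  choose w hw hww using fun k => step k Finset.univ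
  have hlim : Tendsto (fun k : ℕ => 1 / (k + 1 : ℝ)) atTop (𝓝 0) :=
    tendsto_one_div_add_atTop_nhds_zero_nat
  exact ⟨⟨fun i k => w k i, fun i k => (hw k i (by simp)).1, fun i k => (hw k i (by simp)).2.1,
    fun i k => (hw k i (by simp)).2.2.1,
    fun i X hX => squeeze_zero (fun k => norm_nonneg _)
      (fun k => (hw k i (by simp)).2.2.2.1 X hX) hlim,
    fun i i' => squeeze_zero (fun k => norm_nonneg _)
      (fun k => hww k i (by simp) i' (by simp)) hlim,
    fun i => squeeze_zero (fun k => norm_nonneg _) (fun k => (hw k i (by simp)).2.2.2.2.1) hlim,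
    fun i => squeeze_zero (fun k => norm_nonneg _) (fun k => (hw k i (by simp)).2.2.2.2.2) hlim⟩⟩

/-- The ordered product of `f i (w i)` over all `i`. -/
def wprod {ι : Type*} [Fintype ι] (w : ι → B) (f : ι → ℝ → ℝ) : B :=
  (Finset.univ.toList.map fun i => cfc (f i) (w i)).prod

/-- A continuous function mapping the unit interval into itself. -/
def Good (f : ℝ → ℝ) : Prop := Continuous f ∧ ∀ t ∈ Set.Icc (0 : ℝ) 1, f t ∈ Set.Icc (0 : ℝ) 1

namespace QCSystem

variable {ι : Type*} [Fintype ι] {J : ι → Set B} {F : Set B} {j : ι → B} (S : QCSystem J F j)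

/-- The sequence of ordered products of `f i (w i k)`. -/
def prodSeq (f : ι → ℝ → ℝ) (k : ℕ) : B := wprod (fun i => S.w i k) f

/-- The ordered product over a list of indices. -/
def listSeq (L : List ι) (f : ι → ℝ → ℝ) (k : ℕ) : B :=
  (L.map fun i => cfc (f i) (S.w i k)).prod

theorem prodSeq_eq_listSeq (f : ι → ℝ → ℝ) :
    S.prodSeq f = S.listSeq Finset.univ.toList f := rfl

theorem listSeq_nil (f : ι → ℝ → ℝ) (k : ℕ) : S.listSeq [] f k = 1 := rfl

theorem listSeq_cons (a : ι) (L : List ι) (f : ι → ℝ → ℝ) (k : ℕ) :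
    S.listSeq (a :: L) f k = cfc (f a) (S.w a k) * S.listSeq L f k := by
  simp [listSeq]

theorem listSeq_congr {L : List ι} {f g : ι → ℝ → ℝ}
    (h : ∀ i ∈ L, ∀ t ∈ Set.Icc (0 : ℝ) 1, f i t = g i t) (k : ℕ) :
    S.listSeq L f k = S.listSeq L g k := by
  unfold listSeq
  congr 1
  refine List.map_congr_left fun i hi => cfc_congr fun t ht => ?_
  exact h i hi t (qc_spectrum_Icc (S.nonneg i k) (S.le_one i k) ht)

theorem norm_factor_le {f : ι → ℝ → ℝ} (hf : ∀ i, Good (f i)) (i : ι) (k : ℕ) :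
    ‖cfc (f i) (S.w i k)‖ ≤ 1 :=
  qc_norm_cfc_le (S.nonneg i k) (S.le_one i k) zero_le_one fun t ht =>
    abs_le.2 ⟨by linarith [((hf i).2 t ht).1], ((hf i).2 t ht).2⟩

theorem abdd_factor {f : ι → ℝ → ℝ} (hf : ∀ i, Good (f i)) (i : ι) :
    ABdd (fun k => cfc (f i) (S.w i k)) := ⟨1, S.norm_factor_le hf i⟩

theorem norm_listSeq_le (L : List ι) {f : ι → ℝ → ℝ} (hf : ∀ i, Good (f i)) (k : ℕ) :
    ‖S.listSeq L f k‖ ≤ 1 := by
  induction L with
  | nil => exact qc_norm_one_le
  | cons a L ih =>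
    rw [listSeq_cons]
    exact (norm_mul_le _ _).trans (mul_le_one₀ (S.norm_factor_le hf a k) (norm_nonneg _) ih)

theorem abdd_listSeq (L : List ι) {f : ι → ℝ → ℝ} (hf : ∀ i, Good (f i)) :
    ABdd (S.listSeq L f) := ⟨1, S.norm_listSeq_le L hf⟩

theorem listSeq_comm (L : List ι) {f : ι → ℝ → ℝ} (hf : ∀ i, Good (f i)) {X : ℕ → B}
    (hX : ABdd X)
    (h : ∀ i ∈ L, AEq (fun k => cfc (f i) (S.w i k) * X k) (fun k => X k * cfc (f i) (S.w i k))) :
    AEq (fun k => S.listSeq L f k * X k) (fun k => X k * S.listSeq L f k) := by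
  induction L with
  | nil => exact AEq.of_eq fun k => by simp [listSeq_nil]
  | cons a L ih =>
    have a1 := (ih fun i hi => h i (List.mem_cons_of_mem _ hi)).mul_left (S.abdd_factor hf a)
    have a2 := (h a List.mem_cons_self).mul_right (S.abdd_listSeq L hf)
    exact ((AEq.of_eq fun k => by simp only [listSeq_cons, mul_assoc]).trans a1).trans
      ((AEq.of_eq fun k => by simp only [mul_assoc]).trans
        (a2.trans (AEq.of_eq fun k => by simp only [listSeq_cons, mul_assoc])))

theorem factor_comm {f g : ι → ℝ → ℝ} (hf : ∀ i, Good (f i)) (hg : ∀ i, Good (g i)) (i i' : ι) :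
    AEq (fun k => cfc (f i) (S.w i k) * cfc (g i') (S.w i' k))
      (fun k => cfc (g i') (S.w i' k) * cfc (f i) (S.w i k)) := by
  refine AEq.cfc_comm (S.nonneg i) (S.le_one i) (S.abdd_factor hg i') ?_ (hf i).1
  exact (AEq.cfc_comm (S.nonneg i') (S.le_one i')
    ⟨1, fun k => qc_norm_le_one (S.nonneg i k) (S.le_one i k)⟩ (S.mutual_comm i' i) (hg i').1).symm

theorem factor_comm_const {f : ι → ℝ → ℝ} (hf : ∀ i, Good (f i)) {X : B} (hX : X ∈ F) (i : ι) :
    AEq (fun k => cfc (f i) (S.w i k) * X) (fun k => X * cfc (f i) (S.w i k)) :=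
  AEq.cfc_comm (S.nonneg i) (S.le_one i) (abdd_const X) (S.comm i X hX) (hf i).1

theorem norm_prodSeq_le {f : ι → ℝ → ℝ} (hf : ∀ i, Good (f i)) (k : ℕ) :
    ‖S.prodSeq f k‖ ≤ 1 := S.norm_listSeq_le _ hf k

theorem abdd_prodSeq {f : ι → ℝ → ℝ} (hf : ∀ i, Good (f i)) : ABdd (S.prodSeq f) := S.abdd_listSeq _ hf

theorem prodSeq_mul {f g : ι → ℝ → ℝ} (hf : ∀ i, Good (f i)) (hg : ∀ i, Good (g i)) :
    AEq (fun k => S.prodSeq f k * S.prodSeq g k) (S.prodSeq fun i t => f i t * g i t) := by
  simp only [prodSeq_eq_listSeq]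
  induction Finset.univ.toList (α := ι) with
  | nil => exact AEq.of_eq fun k => by simp [listSeq_nil]
  | cons a L ih =>
    have hc := S.listSeq_comm L hf (S.abdd_factor hg a) fun i _ => S.factor_comm hf hg i a
    have a1 := (hc.mul_left (S.abdd_factor hf a)).mul_right (S.abdd_listSeq L hg)
    have a2 := ih.mul_left ((S.abdd_factor hf a).mul (S.abdd_factor hg a))
    exact ((AEq.of_eq fun k => by simp only [listSeq_cons, mul_assoc]).trans a1).trans
      ((AEq.of_eq fun k => by simp only [mul_assoc]).trans (a2.trans (AEq.of_eq fun k => by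
        simp only [listSeq_cons]
        rw [cfc_mul (f a) (g a) (S.w a k) (hf a).1.continuousOn (hg a).1.continuousOn])))

theorem prodSeq_star {f : ι → ℝ → ℝ} (hf : ∀ i, Good (f i)) :
    AEq (fun k => star (S.prodSeq f k)) (S.prodSeq f) := by
  simp only [prodSeq_eq_listSeq]
  induction Finset.univ.toList (α := ι) with
  | nil => exact AEq.of_eq fun k => by simp [listSeq_nil]
  | cons a L ih =>
    have hc := S.listSeq_comm L hf (S.abdd_factor hf a) fun i _ => S.factor_comm hf hf i a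
    exact ((AEq.of_eq fun k => by
        rw [listSeq_cons, star_mul, (cfc_predicate (f a) (S.w a k)).star_eq]).trans
      (ih.mul_right (S.abdd_factor hf a))).trans
        (hc.trans (AEq.of_eq fun k => by simp only [listSeq_cons]))

theorem prodSeq_comm {f : ι → ℝ → ℝ} (hf : ∀ i, Good (f i)) {X : B} (hX : X ∈ F) :
    AEq (fun k => S.prodSeq f k * X) (fun k => X * S.prodSeq f k) :=
  S.listSeq_comm _ hf (abdd_const X) fun i _ => S.factor_comm_const hf hX i

theorem prodSeq_eq_zero {f : ι → ℝ → ℝ} (i : ι) (hi : ∀ t ∈ Set.Icc (0 : ℝ) 1, f i t = 0)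
    (k : ℕ) : S.prodSeq f k = 0 := by
  refine List.prod_eq_zero (List.mem_map.2 ⟨i, by simp, ?_⟩)
  rw [cfc_congr (g := fun _ => (0 : ℝ)) fun t ht =>
    hi t (qc_spectrum_Icc (S.nonneg i k) (S.le_one i k) ht)]
  simp

theorem prodSeq_congr {f g : ι → ℝ → ℝ}
    (h : ∀ i, ∀ t ∈ Set.Icc (0 : ℝ) 1, f i t = g i t) (k : ℕ) :
    S.prodSeq f k = S.prodSeq g k := S.listSeq_congr (fun i _ => h i) k

theorem prodSeq_one (k : ℕ) : S.prodSeq (fun _ _ => 1) k = 1 := by
  refine List.prod_eq_one fun x hx => ?_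
  obtain ⟨i, -, rfl⟩ := List.mem_map.1 hx
  exact cfc_const_one ℝ _ (S.nonneg i k).isSelfAdjoint

theorem prodSeq_mem {f : ι → ℝ → ℝ} (hf : ∀ i, Good (f i)) (i : ι)
    (hJ : IsClosedIdeal (J i)) (hi : f i 0 = 0) (k : ℕ) : S.prodSeq f k ∈ J i := by
  have key : ∀ L : List ι, i ∈ L → S.listSeq L f k ∈ J i := by
    intro L
    induction L with
    | nil => simp
    | cons a L ih =>
      intro hmem
      rw [listSeq_cons]
      rcases List.mem_cons.1 hmem with rfl | hmem
      · exact hJ.mul_right _ _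
          (cfc_mem_of_zero hJ (S.nonneg _ k).isSelfAdjoint (S.mem _ k) (hf _).1 hi)
      · exact hJ.mul_left _ _ (ih hmem)
  exact key _ (by simp)

/-- Exact expansion over all choices. -/
theorem sum_prodSeq [DecidableEq ι] {f g : ι → ℝ → ℝ} (hf : ∀ i, Continuous (f i))
    (hg : ∀ i, Continuous (g i)) (k : ℕ) :
    ∑ A : Finset ι, S.prodSeq (fun i => if i ∈ A then f i else g i) k =
      S.prodSeq (fun i t => f i t + g i t) k := by
  have key : ∀ L : List ι, L.Nodup →
      ∑ A ∈ L.toFinset.powerset, S.listSeq L (fun i => if i ∈ A then f i else g i) k =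
        S.listSeq L (fun i t => f i t + g i t) k := by
    intro L
    induction L with
    | nil => simp [listSeq_nil]
    | cons a L ih =>
      intro hnd
      obtain ⟨ha, hL⟩ := List.nodup_cons.1 hnd
      have ha' : a ∉ L.toFinset := by simpa using ha
      rw [List.toFinset_cons, Finset.sum_powerset_insert ha', listSeq_cons,
        cfc_add _ (f a) (g a) (hf a).continuousOn (hg a).continuousOn, add_mul, ← ih hL,
        Finset.mul_sum, Finset.mul_sum, add_comm]
      congr 1
      · refine Finset.sum_congr rfl fun A hA => ?_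
        rw [listSeq_cons, if_pos (Finset.mem_insert_self a A)]
        congr 1
        refine S.listSeq_congr (fun i hi t _ => ?_) k
        have : i ≠ a := fun h => ha (by rw [← h]; exact hi)
        simp [this]
      · refine Finset.sum_congr rfl fun A hA => ?_
        rw [listSeq_cons, if_neg fun h => ha' (Finset.mem_powerset.1 hA h)]
  have := key _ (Finset.nodup_toList Finset.univ)
  rw [Finset.toList_toFinset, Finset.powerset_univ] at this
  exact this

/-- Exact telescoping of `1 - ∏ γ`: each summand has a factor `1 - γ i`. -/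
theorem exists_telescope (γ : ι → ℝ → ℝ) (hγ : ∀ i, Good (γ i)) :
    ∃ f : ι → ι → ℝ → ℝ, (∀ i i', Good (f i i')) ∧ (∀ i t, f i i t = 1 - γ i t) ∧
      ∀ k, 1 - S.prodSeq γ k = ∑ i, S.prodSeq (f i) k := by
  classical
  have key : ∀ L : List ι, L.Nodup → ∃ f : ι → ι → ℝ → ℝ, (∀ i i', Good (f i i')) ∧
      (∀ i t, f i i t = 1 - γ i t) ∧
        ∀ k, 1 - S.listSeq L γ k = ∑ i ∈ L.toFinset, S.listSeq L (f i) k := by
    intro L
    have hg1 : Good (fun _ : ℝ => (1 : ℝ)) := ⟨continuous_const, fun t _ => by simp⟩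
    have hg2 : ∀ i, Good (fun t : ℝ => 1 - γ i t) := fun i =>
      ⟨continuous_const.sub (hγ i).1, fun t ht => by
        obtain ⟨a, b⟩ := (hγ i).2 t ht
        exact ⟨by linarith, by linarith⟩⟩
    induction L with
    | nil =>
      intro _
      refine ⟨fun i i' => if i' = i then fun t => 1 - γ i t else fun _ => 1, fun i i' => ?_,
        fun i t => by simp, fun k => by simp [listSeq_nil]⟩
      dsimp only
      split
      exacts [hg2 i, hg1]
    | cons a L ih =>
      intro hnd
      obtain ⟨ha, hL⟩ := List.nodup_cons.1 hnd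
      obtain ⟨f, hf, hfd, hfs⟩ := ih hL
      refine ⟨fun i i' => if i = a then (if i' = a then fun t => 1 - γ a t else fun _ => 1)
        else (if i' = a then γ a else f i i'), fun i i' => ?_, fun i t => ?_, fun k => ?_⟩
      · dsimp only
        split <;> split
        exacts [hg2 a, hg1, hγ a, hf i i']
      · by_cases h : i = a
        · subst h; simp
        · simp [h, hfd]
      · have ha' : a ∉ L.toFinset := by simpa using ha
        rw [List.toFinset_cons, Finset.sum_insert ha', listSeq_cons, listSeq_cons]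
        have e1 : S.listSeq L (fun i' => if a = a then (if i' = a then fun t => 1 - γ a t
            else fun _ => 1) else (if i' = a then γ a else f a i')) k = 1 := by
          refine List.prod_eq_one fun x hx => ?_
          obtain ⟨i, hi, rfl⟩ := List.mem_map.1 hx
          have : i ≠ a := fun h => ha (by rw [← h]; exact hi)
          simp only [if_true, if_neg this]
          exact cfc_const_one ℝ _ (S.nonneg i k).isSelfAdjoint
        dsimp only
        rw [e1, if_pos rfl, if_pos rfl, mul_one,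
          cfc_sub (fun _ : ℝ => (1 : ℝ)) (γ a) (S.w a k) continuousOn_const
            (hγ a).1.continuousOn, cfc_const_one ℝ _ (S.nonneg a k).isSelfAdjoint]
        have e2 : ∀ i ∈ L.toFinset, S.listSeq (a :: L)
            (fun i' => if i = a then (if i' = a then fun t => 1 - γ a t else fun _ => 1)
              else (if i' = a then γ a else f i i')) k =
            cfc (γ a) (S.w a k) * S.listSeq L (f i) k := by
          intro i hi
          have hia : i ≠ a := fun h => ha' (by rw [← h]; exact hi)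
          rw [listSeq_cons, if_neg hia, if_pos rfl]
          congr 1
          refine S.listSeq_congr (fun i' hi' t _ => ?_) k
          have : i' ≠ a := fun h => ha (by rw [← h]; exact hi')
          simp [hia, this]
        rw [Finset.sum_congr rfl e2, ← Finset.mul_sum, ← hfs k, mul_sub, mul_one]
        abel
  obtain ⟨f, hf, hfd, hfs⟩ := key _ (Finset.nodup_toList Finset.univ)
  exact ⟨f, hf, hfd, fun k => by simpa [prodSeq_eq_listSeq] using hfs k⟩

theorem unit_mul_prodSeq [DecidableEq ι] {f : ι → ℝ → ℝ} (hf : ∀ i, Good (f i)) (i : ι)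
    (hjF : j i ∈ F) :
    AEq (fun k => j i * S.prodSeq f k)
      (fun k => f i 1 • (j i * S.prodSeq (fun i' => if i' = i then fun _ => 1 else f i') k)) := by
  have key : ∀ L : List ι, L.Nodup → i ∈ L →
      AEq (fun k => j i * S.listSeq L f k) (fun k => f i 1 •
        (j i * S.listSeq L (fun i' => if i' = i then fun _ => 1 else f i') k)) := by
    intro L
    have hf' : ∀ i', Good (if i' = i then fun _ => (1 : ℝ) else f i') := fun i' => by
      split
      exacts [⟨continuous_const, fun t _ => by simp⟩, hf i']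
    induction L with
    | nil => simp
    | cons a L ih =>
      intro hnd hmem
      obtain ⟨ha, hL⟩ := List.nodup_cons.1 hnd
      by_cases hai : a = i
      · subst hai
        have a1 := (AEq.cfc_unit (S.nonneg a) (S.le_one a) (S.unit_right a) (hf a).1).mul_right
          (S.abdd_listSeq L hf)
        refine ((AEq.of_eq fun k => by simp only [listSeq_cons, mul_assoc]).trans a1).trans
          (AEq.of_eq fun k => ?_)
        rw [listSeq_cons, if_pos rfl, cfc_const_one ℝ _ (S.nonneg a k).isSelfAdjoint, one_mul,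
          smul_mul_assoc]
        congr 2
        refine S.listSeq_congr (fun i' hi' t _ => ?_) k
        have : i' ≠ a := fun h => ha (by rw [← h]; exact hi')
        simp [this]
      · have hi : i ∈ L := (List.mem_cons.1 hmem).resolve_left (Ne.symm hai)
        have hc := (S.factor_comm_const hf hjF a)
        have a1 := hc.symm.mul_right (S.abdd_listSeq L hf)
        have a2 := (ih hL hi).mul_left (S.abdd_factor hf a)
        have a3 := (hc.mul_right (S.abdd_listSeq L hf')).smul (f i 1)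
        refine ((AEq.of_eq fun k => by simp only [listSeq_cons, mul_assoc]).trans a1).trans
          ((AEq.of_eq fun k => by simp only [mul_assoc]).trans (a2.trans
            ((AEq.of_eq fun k => by simp only [mul_smul_comm, mul_assoc]).trans
              (a3.trans (AEq.of_eq fun k => ?_)))))
        simp only [listSeq_cons, if_neg hai, mul_assoc]
  exact key _ (Finset.nodup_toList Finset.univ) (by simp)

end QCSystem

/-- If `ψ* g ψ` is below `c / 8` modulo `I k`, then `h (g) κ` is asymptotically in `I k` whenever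
`ψ κ = κ` asymptotically and `h` lives where `g ≥ c / 2`. -/
theorem kill {I : ℕ → Set B} (hI : ∀ k, IsClosedIdeal (I k)) {g : B} (hg : 0 ≤ g) {c : ℝ}
    (hc : 0 < c) {h : ℝ → ℝ} (hh : Continuous h) (hh1 : ∀ t, 0 ≤ t → h t ∈ Set.Icc (0 : ℝ) 1)
    (hh0 : ∀ t, t ≤ c / 2 → h t = 0) {ψ κ : ℕ → B} (hψ : ABdd ψ) (hκ : ABdd κ)
    (hψh : AEq (fun k => ψ k * cfc h g) (fun k => cfc h g * ψ k))
    (hψκ : AEq (fun k => ψ k * κ k) κ)
    (hdom : ∀ᶠ k in atTop, Dom (I k) (c / 8) (star (ψ k) * g * ψ k)) {η : ℝ} (hη : 0 < η) :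
    ∀ᶠ k in atTop, Near (I k) η (cfc h g * κ k) := by
  set H : B := cfc h g with hHdef
  have hH : star H = H := (cfc_predicate h g).star_eq
  obtain ⟨Cψ, hCψ⟩ := hψ
  set e : ℝ := c * η ^ 2 / 8 with hedef
  have he : 0 < e := by positivity
  have hHκ : AEq (fun k => H * κ k) (fun k => ψ k * (H * κ k)) :=
    (hψκ.symm.mul_left (abdd_const H)).trans
      ((AEq.of_eq fun k => by simp only [mul_assoc]).trans
        ((hψh.symm.mul_right hκ).trans (AEq.of_eq fun k => by simp only [mul_assoc])))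
  have hb1 : ABdd (fun k => H * κ k) := (abdd_const H).mul hκ
  have hb2 : ABdd (fun k => ψ k * (H * κ k)) := ABdd.mul ⟨Cψ, hCψ⟩ hb1
  have hb2' : ABdd (fun k => star (ψ k * (H * κ k))) := by
    obtain ⟨C, hC⟩ := hb2
    exact ⟨C, fun k => by rw [norm_star]; exact hC k⟩
  have hq := hHκ.star.mul (hHκ.mul_left (abdd_const g)) hb2' ((abdd_const g).mul hb1)
  filter_upwards [hdom, hq.eventually he] with k hk hk'
  obtain ⟨g1, hg1I, hg10, hg1⟩ := hk
  set Z : B := H * κ k with hZdef
  set T : B := star Z * Z with hTdef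
  have hH2 : H * H ≤ (2 / c) • (H * g * H) := by
    have hid : (cfc (fun t : ℝ => t) g : B) = g := cfc_id' ℝ g
    have hsq : H * H = cfc (fun t => h t * h t) g := (cfc_mul h h g).symm
    have hgh : H * g * H = cfc (fun t => h t * t * h t) g := by
      rw [cfc_mul (fun t => h t * t) h g, cfc_mul h (fun t => t) g, hid]
    rw [hsq, hgh, ← cfc_smul (2 / c) (fun t => h t * t * h t) g]
    refine cfc_mono fun t ht => ?_
    rw [smul_eq_mul]
    rcases le_or_gt t (c / 2) with htc | htc
    · rw [hh0 t htc]; simp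
    · have h2 : 1 ≤ 2 / c * t := by
        rw [div_mul_eq_mul_div, le_div_iff₀ hc]; linarith
      nlinarith [mul_self_nonneg (h t)]
  have hT1 : T ≤ (2 / c) • (star Z * g * Z) := by
    calc T = star (κ k) * (H * H) * κ k := by
          simp only [hTdef, hZdef, star_mul, hH, mul_assoc]
      _ ≤ star (κ k) * ((2 / c) • (H * g * H)) * κ k := star_left_conjugate_le_conjugate hH2 _
      _ = _ := by
          simp only [hZdef, star_mul, hH, mul_assoc, mul_smul_comm, smul_mul_assoc]
  have hT2 : star Z * g * Z ≤ star Z * g1 * Z + (c / 8) • T + sc e := by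
    have h1 : star Z * g * Z - star (ψ k * Z) * g * (ψ k * Z) ≤ sc e := by
      refine le_sc_of_norm_le ?_ ?_
      · exact ((star_left_conjugate_nonneg hg _).isSelfAdjoint).sub
          (star_left_conjugate_nonneg hg _).isSelfAdjoint
      · simpa only [mul_assoc] using hk'
    have h2 : star (ψ k * Z) * g * (ψ k * Z) ≤ star Z * g1 * Z + (c / 8) • T := by
      calc star (ψ k * Z) * g * (ψ k * Z) = star Z * (star (ψ k) * g * ψ k) * Z := by
            simp only [star_mul, mul_assoc]
        _ ≤ star Z * (g1 + sc (c / 8)) * Z := star_left_conjugate_le_conjugate hg1 _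
        _ = _ := by
            simp only [sc, Algebra.algebraMap_eq_smul_one, mul_add, add_mul, mul_smul_comm,
              smul_mul_assoc, mul_one, hTdef]
    calc star Z * g * Z ≤ star (ψ k * Z) * g * (ψ k * Z) + sc e := sub_le_iff_le_add'.1 h1
      _ ≤ _ := by gcongr
  have hT3 : (3 / 4 : ℝ) • T ≤ (2 / c) • (star Z * g1 * Z + sc e) := by
    have h3 := hT1.trans (smul_le_smul_of_nonneg_left hT2 (by positivity))
    have h4 : (2 / c) • (star Z * g1 * Z + (c / 8) • T + sc e) =
        (2 / c) • (star Z * g1 * Z + sc e) + (1 / 4 : ℝ) • T := by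
      simp only [smul_add, smul_smul]
      rw [show 2 / c * (c / 8) = (1 / 4 : ℝ) by field_simp; ring]
      abel
    rw [h4] at h3
    calc (3 / 4 : ℝ) • T = T - (1 / 4 : ℝ) • T := by
          rw [show (3 / 4 : ℝ) = 1 - 1 / 4 by norm_num, sub_smul, one_smul]
      _ ≤ _ := sub_le_iff_le_add.2 h3
  have hdomT : Dom (I k) (η ^ 2 / 2) T := by
    refine ⟨(8 / (3 * c)) • (star Z * g1 * Z),
      (hI k).real_smul_mem _ ((hI k).mul_right _ _ ((hI k).mul_left _ _ hg1I)),
      smul_nonneg (by positivity) (star_left_conjugate_nonneg hg10 _), ?_⟩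
    calc T = (4 / 3 : ℝ) • ((3 / 4 : ℝ) • T) := by rw [smul_smul]; norm_num
      _ ≤ (4 / 3 : ℝ) • ((2 / c) • (star Z * g1 * Z + sc e)) :=
          smul_le_smul_of_nonneg_left hT3 (by norm_num)
      _ = (8 / (3 * c)) • (star Z * g1 * Z) + sc (η ^ 2 / 3) := by
          simp only [sc, Algebra.algebraMap_eq_smul_one, smul_add, smul_smul, hedef]
          congr 2 <;> (field_simp; ring)
      _ ≤ _ := by
          gcongr
          exact algebraMap_mono B (by nlinarith [sq_nonneg η])
  have hn := hdomT.near_of_star_mul (hI k) (η := η ^ 2 / 2) (by positivity) (by positivity)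
  rwa [add_halves, Real.sqrt_sq hη.le] at hn

/-- The consequence of `kill` for elements of the ideal generated by `cut c g`. -/
theorem kill_genIdeal {I : ℕ → Set B} (hI : ∀ k, IsClosedIdeal (I k)) {g : B} (hg : 0 ≤ g)
    {c : ℝ} (hc : 0 < c) {ψ κ : ℕ → B} (hψ : ABdd ψ) (hκ : ABdd κ)
    (hψh : AEq (fun k => ψ k * cfc (fun t : ℝ => min 1 (max (2 * t / c - 1) 0)) g)
      (fun k => cfc (fun t : ℝ => min 1 (max (2 * t / c - 1) 0)) g * ψ k))
    (hψκ : AEq (fun k => ψ k * κ k) κ)
    (hdom : ∀ᶠ k in atTop, Dom (I k) (c / 8) (star (ψ k) * g * ψ k))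
    {x : B} {m : ℕ} {l r : Fin m → B} {ε : ℝ} (hx : ‖x - ∑ i, l i * cut c g * r i‖ ≤ ε)
    (hr : ∀ i, AEq (fun k => κ k * r i) (fun k => r i * κ k)) (hκ1 : ∀ k, ‖κ k‖ ≤ 1)
    {η : ℝ} (hη : 0 < η) :
    ∀ᶠ k in atTop, Near (I k) (ε + η) (x * κ k) := by
  set h : ℝ → ℝ := fun t => min 1 (max (2 * t / c - 1) 0) with hhdef
  set H : B := cfc h g with hHdef
  have hh : Continuous h := by fun_prop
  have hh1 : ∀ t, 0 ≤ t → h t ∈ Set.Icc (0 : ℝ) 1 := fun t _ =>
    ⟨le_min zero_le_one (le_max_right _ _), min_le_left _ _⟩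
  have hh0 : ∀ t, t ≤ c / 2 → h t = 0 := fun t ht => by
    have : 2 * t / c ≤ 1 := by rw [div_le_one hc]; linarith
    simp only [hhdef, max_eq_right (show 2 * t / c - 1 ≤ 0 by linarith)]
    simp
  have hcut : cut c g = cut c g * H := by
    rw [cut, hHdef, ← cfc_mul (fun t : ℝ => max (t - c) 0) h g]
    refine cfc_congr fun t ht => ?_
    rcases le_or_gt t c with htc | htc
    · simp [max_eq_right (show t - c ≤ 0 by linarith)]
    · have : 2 ≤ 2 * t / c := by rw [le_div_iff₀ hc]; linarith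
      simp only [hhdef, max_eq_left (show (0 : ℝ) ≤ 2 * t / c - 1 by linarith),
        min_eq_left (show (1 : ℝ) ≤ 2 * t / c - 1 by linarith), mul_one]
  set Csum : ℝ := ∑ i, ‖l i * cut c g‖ * ‖r i‖ with hCsum
  have hCsum0 : 0 ≤ Csum := Finset.sum_nonneg fun i _ => by positivity
  set η' : ℝ := η / (2 * (Csum + 1)) with hη'def
  have hη' : 0 < η' := by positivity
  have hkill := kill hI hg hc hh hh1 hh0 hψ hκ hψh hψκ hdom hη'
  have hswap : AEq (fun k => ∑ i, l i * cut c g * r i * κ k)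
      (fun k => ∑ i, l i * cut c g * (H * κ k) * r i) :=
    AEq.sum _ fun i _ => (AEq.of_eq fun k => by
        conv_lhs => rw [hcut]
        simp only [mul_assoc]).trans
      (((hr i).symm.mul_left (abdd_const (l i * cut c g * H))).trans
        (AEq.of_eq fun k => by simp only [mul_assoc]))
  filter_upwards [hkill, hswap.eventually (show 0 < η / 2 by positivity)] with k hk hk'
  have hnear : ∀ s : Finset (Fin m), Near (I k) (∑ i ∈ s, ‖l i * cut c g‖ * ‖r i‖ * η')
      (∑ i ∈ s, l i * cut c g * (H * κ k) * r i) := by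
    intro s
    induction s using Finset.induction_on with
    | empty => exact ⟨0, (hI k).zero_mem, by simp⟩
    | insert a s ha ih =>
      rw [Finset.sum_insert ha, Finset.sum_insert ha]
      have h5 := (((hk.mul_left (hI k) (l a * cut c g)).mul_right (hI k) (r a))).add (hI k) ih
      rwa [mul_right_comm]
  have h2 := (hnear Finset.univ).of_norm_le hk'
  have h3 : ‖x * κ k - ∑ i, l i * cut c g * r i * κ k‖ ≤ ε := by
    rw [← Finset.sum_mul, ← sub_mul]
    exact (norm_mul_le _ _).trans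
      ((mul_le_mul_of_nonneg_right hx (norm_nonneg _)).trans
        (mul_le_of_le_one_right ((norm_nonneg _).trans hx) (hκ1 k)))
  obtain ⟨Y, hY, hYle⟩ := h2.of_norm_le h3
  refine ⟨Y, hY, hYle.trans ?_⟩
  rw [← Finset.sum_mul, ← hCsum]
  have hb : Csum * η' ≤ η / 2 := by
    rw [hη'def, mul_div_assoc', div_le_iff₀ (by positivity)]
    nlinarith
  linarith

end

end Vale.Agent.P133.FinDim
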