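import Vale.Agent.P133.FinDim.Split

/-!
Passing between a C*-algebra and the ideal it forms in its unitization, and the elementary
implications between the three notions of pure infiniteness.
-/

namespace Vale.Agent.P133.FinDim

open scoped ComplexOrder

noncomputable section

variable (A : Type*) [NonUnitalCStarAlgebra A]

/-- The algebra, as a subset of its unitization. -/
def base : Set (Unitization ℂ A) := Set.range (Unitization.inr : A → Unitization ℂ A)

theorem isClosedIdeal_base : IsClosedIdeal (base A) where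
  zero_mem := ⟨0, Unitization.inr_zero ℂ⟩
  add_mem := by
    rintro _ ⟨a, rfl⟩ _ ⟨b, rfl⟩
    exact ⟨a + b, Unitization.inr_add ℂ a b⟩
  smul_mem := by
    rintro r _ ⟨a, rfl⟩
    exact ⟨r • a, Unitization.inr_smul ℂ r a⟩
  mul_left := by
    rintro x _ ⟨a, rfl⟩
    exact ⟨(x * (a : Unitization ℂ A)).snd, by ext <;> simp⟩
  mul_right := by
    rintro x _ ⟨a, rfl⟩
    exact ⟨((a : Unitization ℂ A) * x).snd, by ext <;> simp⟩
  closed := (Unitization.isometry_inr (𝕜 := ℂ) (A := A)).isClosedEmbedding.isClosed_range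

variable {A}

theorem isClosedIdeal_preimage_inr {I : Set (Unitization ℂ A)} (hI : IsClosedIdeal I) :
    IsClosedIdeal (Unitization.inr ⁻¹' I : Set A) where
  zero_mem := by simpa using hI.zero_mem
  add_mem x hx y hy := by simpa using hI.add_mem _ hx _ hy
  smul_mem r x hx := by simpa using hI.smul_mem r _ hx
  mul_left a x hx := by simpa using hI.mul_left (a : Unitization ℂ A) _ hx
  mul_right a x hx := by simpa using hI.mul_right (a : Unitization ℂ A) _ hx
  closed := hI.closed.preimage (Unitization.isometry_inr (𝕜 := ℂ) (A := A)).continuous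

theorem isClosedIdeal_image_inr {I : Set A} (hI : IsClosedIdeal I) :
    IsClosedIdeal (Unitization.inr '' I : Set (Unitization ℂ A)) where
  zero_mem := ⟨0, hI.zero_mem, Unitization.inr_zero ℂ⟩
  add_mem := by
    rintro _ ⟨a, ha, rfl⟩ _ ⟨b, hb, rfl⟩
    exact ⟨a + b, hI.add_mem _ ha _ hb, Unitization.inr_add ℂ a b⟩
  smul_mem := by
    rintro r _ ⟨a, ha, rfl⟩
    exact ⟨r • a, hI.smul_mem r _ ha, Unitization.inr_smul ℂ r a⟩
  mul_left := by
    rintro x _ ⟨a, ha, rfl⟩
    exact ⟨x.fst • a + x.snd * a,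
      hI.add_mem _ (hI.smul_mem _ _ ha) _ (hI.mul_left _ _ ha), by ext <;> simp⟩
  mul_right := by
    rintro x _ ⟨a, ha, rfl⟩
    exact ⟨x.fst • a + a * x.snd,
      hI.add_mem _ (hI.smul_mem _ _ ha) _ (hI.mul_right _ _ ha), by ext <;> simp⟩
  closed :=
    (Unitization.isometry_inr (𝕜 := ℂ) (A := A)).isClosedEmbedding.isClosedMap _ hI.closed

theorem inr_finsetSum {ι : Type*} (s : Finset ι) (f : ι → A) :
    ((∑ i ∈ s, f i : A) : Unitization ℂ A) = ∑ i ∈ s, (f i : Unitization ℂ A) :=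
  map_sum (Unitization.inrNonUnitalStarAlgHom ℂ A) f s

/-- A member of a closed sum of ideals inside `base A` comes from the closed sum of their
preimages. -/
theorem exists_preimage_closedSum {ι : Type*} [Fintype ι] {m : ℕ} {I : ι → Set (Unitization ℂ A)}
    (hI : ∀ i, IsClosedIdeal (I i) ∧ I i ⊆ base A) (e : ι ≃ Fin m) {b : Unitization ℂ A}
    (hb : b ∈ closedSum I) : ∃ b' : A, (b' : Unitization ℂ A) = b ∧
      b' ∈ closedSum fun k => (Unitization.inr ⁻¹' I (e.symm k) : Set A) := by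
  have hsub : {x | ∃ j : ι → Unitization ℂ A, (∀ i, j i ∈ I i) ∧ x = ∑ i, j i} ⊆
      Unitization.inr '' {x : A | ∃ j : Fin m → A,
        (∀ k, j k ∈ (Unitization.inr ⁻¹' I (e.symm k) : Set A)) ∧ x = ∑ k, j k} := by
    rintro x ⟨j, hj, rfl⟩
    choose a ha using fun i => (hI i).2 (hj i)
    refine ⟨∑ k, a (e.symm k), ⟨fun k => a (e.symm k), fun k => ?_, rfl⟩, ?_⟩
    · show (a (e.symm k) : Unitization ℂ A) ∈ I (e.symm k)
      rw [ha]
      exact hj _
    · rw [Equiv.sum_comp e.symm a, inr_finsetSum]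
      exact Finset.sum_congr rfl fun i _ => ha i
  obtain ⟨b', rfl⟩ : b ∈ base A :=
    closure_minimal (hsub.trans (Set.image_subset_range _ _)) (isClosedIdeal_base A).closed hb
  have hb' : b' ∈ closedSum fun k => (Unitization.inr ⁻¹' I (e.symm k) : Set A) := by
    rw [closedSum, (Unitization.isometry_inr (𝕜 := ℂ) (A := A)).isEmbedding.isInducing.closure_eq_preimage_closure_image]
    exact closure_mono hsub hb
  exact ⟨b', rfl, hb'⟩

/-- The covering dimension hypothesis passes to the unitization. -/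
theorem coverDim_base [PartialOrder A] {d : ℕ} (hd : IdealCoverDimLE A d) :
    CoverDim (base A) d := by
  intro ι _ I hI b hb ε hε
  classical
  let e := Fintype.equivFin ι
  obtain ⟨b', rfl, hb'⟩ := exists_preimage_closedSum hI e hb
  obtain ⟨J, hJ, hzero, j, hj, hbj⟩ :=
    hd _ _ (fun k => isClosedIdeal_preimage_inr (hI (e.symm k)).1) b' hb' ε hε
  refine ⟨fun i => Unitization.inr '' J (e i),
    fun i => ⟨isClosedIdeal_image_inr (hJ _).1, ?_⟩, ?_, fun i => (j (e i) : Unitization ℂ A),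
    fun i => ⟨_, hj _, rfl⟩, ?_⟩
  · rintro _ ⟨a, ha, rfl⟩
    have h := (hJ (e i)).2 ha
    simpa using h
  · intro S hS x hx
    obtain ⟨i₀, hi₀⟩ : S.Nonempty := Finset.card_pos.1 (by omega)
    obtain ⟨a, ha, rfl⟩ := hx i₀ hi₀
    have h : a = 0 := hzero (S.map e.toEmbedding) (by simpa using hS) a fun k hk => by
      obtain ⟨i, hi, rfl⟩ := Finset.mem_map.1 hk
      obtain ⟨a', ha', h'⟩ := hx i hi
      exact Unitization.inr_injective h' ▸ ha'
    rw [h, Unitization.inr_zero]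
  · rw [Equiv.sum_comp e (fun k => (j k : Unitization ℂ A))]
    calc ‖(b' : Unitization ℂ A) - ∑ k, (j k : Unitization ℂ A)‖
        = ‖(↑(b' - ∑ k, j k) : Unitization ℂ A)‖ := by
          congr 1
          rw [Unitization.inr_sub, inr_finsetSum]
      _ ≤ ε := by rw [Unitization.norm_inr]; exact hbj

variable [PartialOrder A] [StarOrderedRing A]

theorem exists_ampPI_base (h : IsWeaklyPurelyInfinite A) :
    ∃ n : ℕ, 1 ≤ n ∧ AmpPI (base A) n := by
  obtain ⟨n, hn, hA⟩ := h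
  refine ⟨n, hn, ?_⟩
  rintro _ ⟨g, rfl⟩ hg ε hε
  obtain ⟨r, hr⟩ := hA g (Unitization.inr_nonneg_iff.1 hg) ε hε
  refine ⟨fun p c => (r p c : Unitization ℂ A), fun p c => ⟨_, rfl⟩, fun c c' => ?_⟩
  refine le_trans (le_of_eq ?_) (hr c c').le
  rw [← Unitization.norm_inr (𝕜 := ℂ) (A := A), Unitization.inr_sub, inr_finsetSum]
  split_ifs <;> simp [Unitization.inr_mul, Unitization.inr_star]

theorem isPurelyInfinite_of_ampPI (h : AmpPI (base A) 1) : IsPurelyInfinite A := by
  intro g hg ε hε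
  obtain ⟨r, hr, hgr⟩ :=
    h g ⟨g, rfl⟩ (Unitization.inr_nonneg_iff.2 hg) (ε / 2) (half_pos hε)
  choose a ha using hr
  refine ⟨fun c => a 0 (0, c), fun c c' => lt_of_le_of_lt (le_of_eq ?_) (half_lt_self hε |>.trans_le'
    (hgr (0, c) (0, c')))⟩
  rw [← Unitization.norm_inr (𝕜 := ℂ) (A := A), Fin.sum_univ_one, ← ha, ← ha,
    Unitization.inr_sub, Unitization.inr_mul, Unitization.inr_mul, Unitization.inr_star]
  by_cases hc : c = c' <;> simp [hc]

theorem isWeaklyPurelyInfinite_of_isPurelyInfinite (h : IsPurelyInfinite A) :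
    IsWeaklyPurelyInfinite A := by
  refine ⟨1, le_rfl, fun g hg ε hε => ?_⟩
  obtain ⟨r, hr⟩ := h g hg ε hε
  refine ⟨fun _ c => r c.2, fun c c' => ?_⟩
  have hiff : (c = c') ↔ c.2 = c'.2 :=
    ⟨fun e => e ▸ rfl, fun e => Prod.ext (Subsingleton.elim _ _) e⟩
  simpa [Fin.sum_univ_one, hiff] using hr c.2 c'.2

theorem isPurelyInfinite_of_isStronglyPurelyInfinite (h : IsStronglyPurelyInfinite A) :
    IsPurelyInfinite A := by
  intro g hg ε hε
  obtain ⟨s, t, hs, ht, hst⟩ := h (CFC.sqrt g) (CFC.sqrt g) (CFC.sqrt_nonneg _)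
    (CFC.sqrt_nonneg _) ε hε
  have hst' : ‖star s * g * t‖ < ε := by
    rwa [mul_assoc (star s), CFC.sqrt_mul_sqrt_self g hg] at hst
  rw [CFC.sqrt_mul_sqrt_self g hg] at hs ht
  have hts : ‖star t * g * s‖ < ε := by
    have : star (star s * g * t) = star t * g * s := by
      simp [star_mul, (IsSelfAdjoint.of_nonneg hg).star_eq, mul_assoc]
    rwa [← this, norm_star]
  refine ⟨![s, t], fun c c' => ?_⟩
  fin_cases c <;> fin_cases c' <;> simp [hs, ht, hst', hts]

/-- The splitting property with one column, inside the unitization, is strong pure infiniteness. -/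
theorem isStronglyPurelyInfinite_of_split
    (H : ∀ ε : ℝ, 0 < ε → ∃ C : ℝ, 0 < C ∧ ∀ θ : ℝ, 0 < θ → ∀ x ∈ base A, ∀ y ∈ base A,
      0 ≤ x → x ≤ 1 → 0 ≤ y → y ≤ 1 →
      ∃ s t : Fin 1 → Unitization ℂ A,
        (∀ p, s p ∈ base A ∧ ‖s p‖ ≤ C) ∧ (∀ p, t p ∈ base A ∧ ‖t p‖ ≤ C) ∧
        ‖(∑ p, star (s p) * (x * x) * s p) - x * x‖ ≤ ε ∧
        ‖(∑ p, star (t p) * (y * y) * t p) - y * y‖ ≤ ε ∧
        ∀ p q, ‖star (x * s p) * (y * t q)‖ ≤ θ) :
    IsStronglyPurelyInfinite A := by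
  intro x y hx hy ε hε
  set M : ℝ := ‖x‖ + ‖y‖ + 1 with hM
  have hM0 : 0 < M := by positivity
  set m : ℝ := M⁻¹ with hm
  have hm0 : 0 < m := by positivity
  have hle : ∀ z : A, 0 ≤ z → ‖z‖ ≤ M →
      0 ≤ (↑(m • z) : Unitization ℂ A) ∧ (↑(m • z) : Unitization ℂ A) ≤ 1 := by
    intro z hz hzM
    have h0 : 0 ≤ (↑(m • z) : Unitization ℂ A) :=
      Unitization.inr_nonneg_iff.2 (smul_nonneg hm0.le hz)
    refine ⟨h0, (CStarAlgebra.norm_le_one_iff_of_nonneg _ h0).1 ?_⟩
    rw [Unitization.norm_inr, norm_smul, Real.norm_of_nonneg hm0.le, hm,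
      inv_mul_le_iff₀ hM0, mul_one]
    exact hzM
  obtain ⟨hx0, hx1⟩ := hle x hx (by linarith [norm_nonneg y])
  obtain ⟨hy0, hy1⟩ := hle y hy (by linarith [norm_nonneg x])
  have hδ : 0 < m ^ 2 * (ε / 2) := by positivity
  obtain ⟨C, -, hC⟩ := H _ hδ
  obtain ⟨s, t, hs, ht, hsx, hty, hst⟩ :=
    hC _ hδ _ ⟨_, rfl⟩ _ ⟨_, rfl⟩ hx0 hx1 hy0 hy1
  obtain ⟨s', hs'⟩ := (hs 0).1
  obtain ⟨t', ht'⟩ := (ht 0).1
  have key : ∀ z : A, ‖((m ^ 2) • z)‖ ≤ m ^ 2 * (ε / 2) → ‖z‖ < ε := by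
    intro z hz
    rw [norm_smul, Real.norm_of_nonneg (by positivity)] at hz
    have := le_of_mul_le_mul_left hz (by positivity)
    linarith
  refine ⟨s', t', key _ ?_, key _ ?_, key _ ?_⟩
  · refine le_trans (le_of_eq ?_) hsx
    rw [← Unitization.norm_inr (𝕜 := ℂ), Fin.sum_univ_one, ← hs']
    congr 1
    simp [Unitization.inr_smul, mul_smul_comm, smul_mul_assoc, smul_smul, smul_sub, pow_two]
  · refine le_trans (le_of_eq ?_) hty
    rw [← Unitization.norm_inr (𝕜 := ℂ), Fin.sum_univ_one, ← ht']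
    congr 1
    simp [Unitization.inr_smul, mul_smul_comm, smul_mul_assoc, smul_smul, smul_sub, pow_two]
  · refine le_trans (le_of_eq ?_) (hst 0 0)
    rw [← Unitization.norm_inr (𝕜 := ℂ), ← hs', ← ht']
    congr 1
    have hxs : star (x : Unitization ℂ A) = x := by
      rw [← Unitization.inr_star, (IsSelfAdjoint.of_nonneg hx).star_eq]
    simp [Unitization.inr_smul, mul_smul_comm, smul_mul_assoc, smul_smul, pow_two, star_mul,
      hxs, mul_assoc]

end

end Vale.Agent.P133.FinDim
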