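import Vale.Agent.P133.FinDim.Defs

/-!
Order calculus modulo closed ideals in a unital C*-algebra.
-/

namespace Vale.Agent.P133.FinDim

open scoped ComplexOrder

noncomputable section

variable {B : Type*} [CStarAlgebra B] [PartialOrder B] [StarOrderedRing B]

/-- The real scalar `r` in `B`. -/
abbrev sc (r : ℝ) : B := algebraMap ℝ B r

/-- `p` is below an element of `I` plus the scalar `δ`. -/
def Dom (I : Set B) (δ : ℝ) (p : B) : Prop := ∃ g ∈ I, 0 ≤ g ∧ p ≤ g + sc δ

/-- `X` is within `δ` of the set `I`. -/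
def Near (I : Set B) (δ : ℝ) (X : B) : Prop := ∃ Y ∈ I, ‖X - Y‖ ≤ δ

/-- The closed ideal generated by `f`. -/
def genIdeal (f : B) : Set B := closure (Submodule.span ℂ {x | ∃ u v : B, x = u * f * v} : Set B)

/-- `g * (g + η)⁻¹`. -/
def unitOf (η : ℝ) (g : B) : B := cfc (fun t : ℝ => t / (t + η)) g

/-- `max (t - c) 0` applied to `g`. -/
def cut (c : ℝ) (g : B) : B := cfc (fun t : ℝ => max (t - c) 0) g

section Algebra

omit [PartialOrder B] [StarOrderedRing B]

theorem IsClosedIdeal.neg_mem {I : Set B} (hI : IsClosedIdeal I) {x : B} (hx : x ∈ I) :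
    -x ∈ I := by
  have := hI.smul_mem (-1) x hx
  simpa using this

theorem IsClosedIdeal.sub_mem {I : Set B} (hI : IsClosedIdeal I) {x y : B} (hx : x ∈ I)
    (hy : y ∈ I) : x - y ∈ I := by
  rw [sub_eq_add_neg]; exact hI.add_mem x hx (-y) (hI.neg_mem hy)

theorem IsClosedIdeal.sum_mem {I : Set B} (hI : IsClosedIdeal I) {ι : Type*} (s : Finset ι)
    (f : ι → B) (hf : ∀ i ∈ s, f i ∈ I) : ∑ i ∈ s, f i ∈ I := by
  classical
  induction s using Finset.induction_on with
  | empty => simpa using hI.zero_mem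
  | insert a s ha ih =>
    rw [Finset.sum_insert ha]
    exact hI.add_mem _ (hf a (Finset.mem_insert_self _ _)) _
      (ih fun i hi => hf i (Finset.mem_insert_of_mem hi))

theorem IsClosedIdeal.real_smul_mem {I : Set B} (hI : IsClosedIdeal I) (r : ℝ) {x : B}
    (hx : x ∈ I) : r • x ∈ I := by
  have h := hI.smul_mem (r : ℂ) x hx
  have he : (r : ℂ) • x = r • x := RCLike.real_smul_eq_coe_smul (K := ℂ) r x |>.symm
  rwa [he] at h

theorem IsClosedIdeal.inter {ι : Type*} {I : ι → Set B} (hI : ∀ i, IsClosedIdeal (I i)) :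
    IsClosedIdeal (⋂ i, I i) := by
  refine ⟨?_, ?_, ?_, ?_, ?_, isClosed_iInter fun i => (hI i).closed⟩
  · simp only [Set.mem_iInter]; exact fun i => (hI i).zero_mem
  · simp only [Set.mem_iInter]; exact fun x hx y hy i => (hI i).add_mem x (hx i) y (hy i)
  · simp only [Set.mem_iInter]; exact fun r x hx i => (hI i).smul_mem r x (hx i)
  · simp only [Set.mem_iInter]; exact fun a x hx i => (hI i).mul_left a x (hx i)
  · simp only [Set.mem_iInter]; exact fun a x hx i => (hI i).mul_right a x (hx i)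

theorem IsClosedIdeal.closedSum {ι : Type*} [Fintype ι] {I : ι → Set B}
    (hI : ∀ i, IsClosedIdeal (I i)) : IsClosedIdeal (closedSum I) := by
  refine ⟨subset_closure ⟨fun _ => 0, fun i => (hI i).zero_mem, by simp⟩, ?_, ?_, ?_, ?_,
    isClosed_closure⟩
  · intro x hx y hy
    refine map_mem_closure₂ continuous_add hx hy ?_
    rintro a ⟨j, hj, rfl⟩ b ⟨k, hk, rfl⟩
    exact ⟨fun i => j i + k i, fun i => (hI i).add_mem _ (hj i) _ (hk i),
      (Finset.sum_add_distrib).symm⟩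
  · intro r x hx
    refine map_mem_closure (continuous_const_smul r) hx ?_
    rintro a ⟨j, hj, rfl⟩
    exact ⟨fun i => r • j i, fun i => (hI i).smul_mem r _ (hj i), Finset.smul_sum⟩
  · intro c x hx
    refine map_mem_closure (continuous_const_mul c) hx ?_
    rintro a ⟨j, hj, rfl⟩
    exact ⟨fun i => c * j i, fun i => (hI i).mul_left c _ (hj i), Finset.mul_sum _ _ _⟩
  · intro c x hx
    refine map_mem_closure (f := fun a => a * c) (continuous_id.mul continuous_const) hx ?_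
    rintro a ⟨j, hj, rfl⟩
    exact ⟨fun i => j i * c, fun i => (hI i).mul_right c _ (hj i), Finset.sum_mul _ _ _⟩

theorem mem_closedSum_of_mem {ι : Type*} [Fintype ι] {I : ι → Set B}
    (hI : ∀ i, IsClosedIdeal (I i)) {i : ι} {x : B} (hx : x ∈ I i) : x ∈ closedSum I := by
  classical
  refine subset_closure ⟨Pi.single i x, fun k => ?_, by simp⟩
  rcases eq_or_ne k i with rfl | hk
  · simpa using hx
  · simpa [hk] using (hI k).zero_mem

theorem mul_mem_closedSum {α β γ : Type*} [Fintype α] [Fintype β] [Fintype γ] (e : α × β ≃ γ)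
    {I : α → Set B} {J : β → Set B} (hI : ∀ i, IsClosedIdeal (I i))
    (hJ : ∀ i, IsClosedIdeal (J i)) {x y : B} (hx : x ∈ closedSum I) (hy : y ∈ closedSum J) :
    x * y ∈ closedSum (fun c => I (e.symm c).1 ∩ J (e.symm c).2) := by
  refine map_mem_closure₂ continuous_mul hx hy ?_
  rintro a ⟨j, hj, rfl⟩ b ⟨k, hk, rfl⟩
  refine ⟨fun c => j (e.symm c).1 * k (e.symm c).2, fun c =>
    ⟨(hI _).mul_right _ _ (hj _), (hJ _).mul_left _ _ (hk _)⟩, ?_⟩
  rw [Finset.sum_mul_sum, ← Fintype.sum_prod_type']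
  exact (e.symm.sum_comp fun p : α × β => j p.1 * k p.2).symm

theorem isClosedIdeal_genIdeal (f : B) : IsClosedIdeal (genIdeal f) := by
  refine ⟨subset_closure (Submodule.zero_mem _), ?_, ?_, ?_, ?_, isClosed_closure⟩
  · intro x hx y hy
    exact map_mem_closure₂ continuous_add hx hy fun a ha b hb => Submodule.add_mem _ ha hb
  · intro r x hx
    exact map_mem_closure (continuous_const_smul r) hx fun a ha => Submodule.smul_mem _ r ha
  · intro c x hx
    refine map_mem_closure (continuous_const_mul c) hx fun a ha => ?_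
    rw [SetLike.mem_coe] at ha ⊢
    induction ha using Submodule.span_induction with
    | mem w hw =>
      obtain ⟨u, v, rfl⟩ := hw
      exact Submodule.subset_span ⟨c * u, v, by simp [mul_assoc]⟩
    | zero => simp
    | add p q _ _ hp hq => rw [mul_add]; exact Submodule.add_mem _ hp hq
    | smul r p _ hp => rw [mul_smul_comm]; exact Submodule.smul_mem _ r hp
  · intro c x hx
    refine map_mem_closure (f := fun a => a * c) (continuous_id.mul continuous_const) hx fun a ha => ?_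
    change a * c ∈ _
    rw [SetLike.mem_coe] at ha ⊢
    induction ha using Submodule.span_induction with
    | mem w hw =>
      obtain ⟨u, v, rfl⟩ := hw
      exact Submodule.subset_span ⟨u, v * c, by simp [mul_assoc]⟩
    | zero => simp
    | add p q _ _ hp hq => rw [add_mul]; exact Submodule.add_mem _ hp hq
    | smul r p _ hp => rw [smul_mul_assoc]; exact Submodule.smul_mem _ r hp

theorem mem_genIdeal_self (f : B) : f ∈ genIdeal f := by
  exact subset_closure (Submodule.subset_span ⟨1, 1, by simp⟩)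

theorem genIdeal_subset {I : Set B} (hI : IsClosedIdeal I) {f : B} (hf : f ∈ I) :
    genIdeal f ⊆ I := by
  refine closure_minimal (fun a ha => ?_) hI.closed
  rw [SetLike.mem_coe] at ha
  induction ha using Submodule.span_induction with
  | mem w hw =>
    obtain ⟨u, v, rfl⟩ := hw
    exact hI.mul_right v _ (hI.mul_left u _ hf)
  | zero => exact hI.zero_mem
  | add p q _ _ hp hq => exact hI.add_mem _ hp _ hq
  | smul r p _ hp => exact hI.smul_mem r _ hp

theorem genIdeal_approx {f x : B} (hx : x ∈ genIdeal f) {ε : ℝ} (hε : 0 < ε) :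
    ∃ (m : ℕ) (l r : Fin m → B), ‖x - ∑ i, l i * f * r i‖ ≤ ε := by
  obtain ⟨a, ha, hax⟩ := Metric.mem_closure_iff.1 hx ε hε
  rw [SetLike.mem_coe, Submodule.mem_span_set'] at ha
  obtain ⟨m, co, g, rfl⟩ := ha
  choose u v huv using fun i : Fin m => (g i).2
  refine ⟨m, fun i => co i • u i, v, ?_⟩
  rw [dist_eq_norm] at hax
  refine le_trans (le_of_eq ?_) hax.le
  congr 2
  exact Finset.sum_congr rfl fun i _ => by rw [huv i, smul_mul_assoc, smul_mul_assoc]

theorem mem_of_forall_near {I : Set B} (hI : IsClosedIdeal I) {x : B}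
    (h : ∀ δ : ℝ, 0 < δ → Near I δ x) : x ∈ I := by
  rw [← hI.closed.closure_eq, Metric.mem_closure_iff]
  intro ε hε
  obtain ⟨Y, hY, hn⟩ := h (ε / 2) (half_pos hε)
  exact ⟨Y, hY, by rw [dist_eq_norm]; linarith⟩

theorem Near.mul_left {I : Set B} (hI : IsClosedIdeal I) {δ : ℝ} {X : B} (h : Near I δ X)
    (a : B) : Near I (‖a‖ * δ) (a * X) := by
  obtain ⟨Y, hY, hn⟩ := h
  refine ⟨a * Y, hI.mul_left a Y hY, ?_⟩
  rw [← mul_sub]
  exact (norm_mul_le _ _).trans (mul_le_mul_of_nonneg_left hn (norm_nonneg a))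

theorem Near.mul_right {I : Set B} (hI : IsClosedIdeal I) {δ : ℝ} {X : B} (h : Near I δ X)
    (a : B) : Near I (δ * ‖a‖) (X * a) := by
  obtain ⟨Y, hY, hn⟩ := h
  refine ⟨Y * a, hI.mul_right a Y hY, ?_⟩
  rw [← sub_mul]
  exact (norm_mul_le _ _).trans (mul_le_mul_of_nonneg_right hn (norm_nonneg a))

theorem Near.add {I : Set B} (hI : IsClosedIdeal I) {δ δ' : ℝ} {X Y : B} (h : Near I δ X)
    (h' : Near I δ' Y) : Near I (δ + δ') (X + Y) := by
  obtain ⟨U, hU, hn⟩ := h
  obtain ⟨V, hV, hn'⟩ := h'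
  refine ⟨U + V, hI.add_mem U hU V hV, ?_⟩
  rw [add_sub_add_comm]
  exact (norm_add_le _ _).trans (add_le_add hn hn')

theorem Near.of_norm_le {I : Set B} {δ η : ℝ} {X Y : B} (h : Near I δ Y) (hXY : ‖X - Y‖ ≤ η) :
    Near I (δ + η) X := by
  obtain ⟨Z, hZ, hn⟩ := h
  refine ⟨Z, hZ, (norm_sub_le_norm_sub_add_norm_sub X Y Z).trans ?_⟩
  linarith

theorem norm_mul_sum_le {ι : Type*} (s : Finset ι) (f : ι → B) (a : B) :
    ‖a * ∑ i ∈ s, f i‖ ≤ ∑ i ∈ s, ‖a * f i‖ := by
  rw [Finset.mul_sum]; exact norm_sum_le _ _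

end Algebra

section Order

theorem sc_nonneg {r : ℝ} (hr : 0 ≤ r) : 0 ≤ (sc r : B) := by
  have h : (algebraMap ℝ B r) = r • (1 : B) := Algebra.algebraMap_eq_smul_one r
  rw [sc, h]; exact smul_nonneg hr zero_le_one

theorem le_sc_of_norm_le {x : B} (hx : IsSelfAdjoint x) {r : ℝ} (h : ‖x‖ ≤ r) : x ≤ sc r := by
  exact hx.le_algebraMap_norm_self.trans (algebraMap_mono B h)

theorem norm_le_of_le_sc {x : B} (hx : 0 ≤ x) {r : ℝ} (hr : 0 ≤ r) (h : x ≤ sc r) : ‖x‖ ≤ r := by
  exact (CStarAlgebra.norm_le_iff_le_algebraMap x hr hx).2 h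

theorem conj_sc_le {r : ℝ} (hr : 0 ≤ r) (a : B) : star a * sc r * a ≤ sc (r * ‖a‖ ^ 2) := by
  have h1 : star a * sc r * a = r • (star a * a) := by
    simp [sc, Algebra.algebraMap_eq_smul_one]
  rw [h1]
  refine le_sc_of_norm_le ((IsSelfAdjoint.all r).smul (IsSelfAdjoint.star_mul_self a)) ?_
  rw [norm_smul, Real.norm_of_nonneg hr, CStarRing.norm_star_mul_self, sq]

theorem star_mul_add_le (X Y : B) {t : ℝ} (ht : 0 < t) :
    star (X + Y) * (X + Y) ≤ (1 + t) • (star X * X) + (1 + t⁻¹) • (star Y * Y) := by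
  set s := Real.sqrt t with hs
  have hs0 : 0 < s := Real.sqrt_pos.2 ht
  have h := star_mul_self_nonneg (s • X - s⁻¹ • Y)
  have he : (1 + t) • (star X * X) + (1 + t⁻¹) • (star Y * Y) - star (X + Y) * (X + Y)
      = star (s • X - s⁻¹ • Y) * (s • X - s⁻¹ • Y) := by
    have h1 : s * s = t := Real.mul_self_sqrt ht.le
    have h2 : s⁻¹ * s⁻¹ = t⁻¹ := by rw [← mul_inv, h1]
    simp only [star_sub, star_smul, star_trivial, star_add, sub_mul, mul_sub, add_mul, mul_add,
      smul_mul_assoc, mul_smul_comm, smul_sub, smul_smul, h1, h2, inv_mul_cancel₀ hs0.ne',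
      mul_inv_cancel₀ hs0.ne', add_smul, one_smul]
    abel
  rw [← sub_nonneg, he]; exact h

/-- Cauchy–Schwarz for a row of norm at most `√C`. -/
theorem row_le {ι : Type*} (s : Finset ι) (a v : ι → B) {C : ℝ} (hC : 0 < C)
    (ha : ∑ i ∈ s, a i * star (a i) ≤ sc C) :
    star (∑ i ∈ s, a i * v i) * (∑ i ∈ s, a i * v i) ≤ C • ∑ i ∈ s, star (v i) * v i := by
  obtain ⟨X, hX⟩ : ∃ X : B, X = ∑ i ∈ s, a i * v i := ⟨_, rfl⟩
  rw [← hX]
  have h := Finset.sum_nonneg (s := s) fun i _ =>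
    star_mul_self_nonneg (v i - C⁻¹ • (star (a i) * X))
  have he : ∑ i ∈ s, star (v i - C⁻¹ • (star (a i) * X)) * (v i - C⁻¹ • (star (a i) * X))
      = ∑ i ∈ s, star (v i) * v i - C⁻¹ • (star X * X) - C⁻¹ • (star X * X)
        + (C⁻¹ * C⁻¹) • (star X * (∑ i ∈ s, a i * star (a i)) * X) := by
    have e1 : ∑ i ∈ s, star (v i) * (star (a i) * X) = star X * X := by
      conv_rhs => rw [hX]
      rw [star_sum, Finset.sum_mul]
      simp [mul_assoc, hX]
    have e2 : ∑ i ∈ s, star X * a i * v i = star X * X := by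
      conv_rhs => enter [2]; rw [hX]
      rw [Finset.mul_sum]; simp [mul_assoc]
    have e3 : star X * (∑ i ∈ s, a i * star (a i)) * X
        = ∑ i ∈ s, star X * a i * (star (a i) * X) := by
      rw [Finset.mul_sum s _ (star X), Finset.sum_mul]; simp [mul_assoc]
    rw [e3]
    nth_rw 1 [← e1]
    nth_rw 1 [← e2]
    simp only [Finset.smul_sum, ← Finset.sum_sub_distrib, ← Finset.sum_add_distrib]
    refine Finset.sum_congr rfl fun i _ => ?_
    simp only [star_sub, star_smul, star_trivial, star_mul, star_star, sub_mul, mul_sub,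
      smul_mul_assoc, mul_smul_comm, smul_sub, smul_smul]
    abel
  have hb : star X * (∑ i ∈ s, a i * star (a i)) * X ≤ C • (star X * X) := by
    refine (star_left_conjugate_le_conjugate ha X).trans (le_of_eq ?_)
    simp [sc, Algebra.algebraMap_eq_smul_one]
  have hb' := smul_le_smul_of_nonneg_left hb (by positivity : 0 ≤ C⁻¹ * C⁻¹)
  rw [smul_smul, show C⁻¹ * C⁻¹ * C = C⁻¹ by field_simp] at hb'
  rw [he] at h
  have h' : C⁻¹ • (star X * X) ≤ ∑ i ∈ s, star (v i) * v i := by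
    rw [← sub_nonneg]
    refine h.trans ((add_le_add le_rfl hb').trans (le_of_eq ?_))
    abel
  have h'' := smul_le_smul_of_nonneg_left h' hC.le
  rwa [smul_smul, mul_inv_cancel₀ hC.ne', one_smul] at h'' 

theorem norm_row_sq_le {ι : Type*} (s : Finset ι) (a v : ι → B) {C : ℝ} (hC : 0 < C)
    (ha : ∑ i ∈ s, a i * star (a i) ≤ sc C) :
    ‖∑ i ∈ s, a i * v i‖ ^ 2 ≤ C * ‖∑ i ∈ s, star (v i) * v i‖ := by
  have h := CStarAlgebra.norm_le_norm_of_nonneg_of_le (star_mul_self_nonneg _) (row_le s a v hC ha)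
  rwa [CStarRing.norm_star_mul_self, ← sq, norm_smul, Real.norm_of_nonneg hC.le] at h

theorem norm_sqrt_mul_sqrt_sq_le {a b : B} (ha : 0 ≤ a) (hb : 0 ≤ b) :
    ‖CFC.sqrt a * CFC.sqrt b‖ ^ 2 ≤ ‖a * b‖ := by
  set p := CFC.sqrt a
  set q := CFC.sqrt b
  have hp : IsSelfAdjoint p := (CFC.sqrt_nonneg a).isSelfAdjoint
  have hq : IsSelfAdjoint q := (CFC.sqrt_nonneg b).isSelfAdjoint
  have hpp : p * p = a := CFC.sqrt_mul_sqrt_self a ha
  have hqq : q * q = b := CFC.sqrt_mul_sqrt_self b hb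
  have hsa : IsSelfAdjoint ((q * a) * q) := by
    have := (IsSelfAdjoint.of_nonneg ha).conjugate q
    rwa [hq.star_eq] at this
  have h1 : ‖p * q‖ ^ 2 = ‖(q * a) * q‖ := by
    rw [sq, ← CStarRing.norm_star_mul_self, star_mul, hp.star_eq, hq.star_eq, ← hpp]
    simp only [mul_assoc]
  rw [h1]
  have hsub : spectrum ℂ ((q * a) * q) \ {0} = spectrum ℂ (a * b) \ {0} := by
    rw [mul_assoc q a q, spectrum.nonzero_mul_comm, mul_assoc, hqq]
  have hr : spectralRadius ℂ ((q * a) * q) ≤ (‖a * b‖₊ : ENNReal) := by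
    refine iSup₂_le fun k hk => ?_
    rcases eq_or_ne k 0 with rfl | hk0
    · simp
    have : k ∈ spectrum ℂ (a * b) := by
      have := (Set.ext_iff.1 hsub k).1 ⟨hk, hk0⟩
      exact this.1
    rcases subsingleton_or_nontrivial B with hB | hB
    · simp [spectrum.of_subsingleton] at this
    rw [ENNReal.coe_le_coe, ← NNReal.coe_le_coe, coe_nnnorm, coe_nnnorm]
    exact spectrum.norm_le_norm_of_mem this
  rw [hsa.spectralRadius_eq_nnnorm, ENNReal.coe_le_coe] at hr
  exact hr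

theorem mul_sqrt_eq_of_mul_eq {e F : B} (hF : 0 ≤ F) (h : e * F = F) :
    e * CFC.sqrt F = CFC.sqrt F := by
  have hs : star (CFC.sqrt F) = CFC.sqrt F := (CFC.sqrt_nonneg F).isSelfAdjoint.star_eq
  have h0 : (e - 1) * F = 0 := by rw [sub_mul, h, one_mul, sub_self]
  have hz : ((e - 1) * CFC.sqrt F) * star ((e - 1) * CFC.sqrt F) = 0 := by
    rw [star_mul, hs, ← mul_assoc, mul_assoc (e - 1), CFC.sqrt_mul_sqrt_self F hF, h0, zero_mul]
  rw [CStarRing.mul_star_self_eq_zero_iff, sub_mul, one_mul, sub_eq_zero] at hz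
  exact hz

omit [PartialOrder B] [StarOrderedRing B] in
theorem cfc_mem_of_zero {I : Set B} (hI : IsClosedIdeal I) {f : ℝ → ℝ} {g : B}
    (hg : IsSelfAdjoint g) (hgI : g ∈ I) (hf : Continuous f) (h0 : f 0 = 0) : cfc f g ∈ I := by
  refine mem_of_forall_near hI fun δ hδ => ?_
  obtain ⟨r, hr, hr'⟩ := Metric.continuousAt_iff.1 (hf.continuousAt (x := 0)) δ hδ
  obtain ⟨M, hM⟩ := ((spectrum.isCompact (𝕜 := ℝ) g).image hf).isBounded.subset_closedBall 0
  set c := δ * r ^ 2 / (|M| + 1) with hc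
  have hc0 : 0 < c := by positivity
  have hh : Continuous fun t : ℝ => f t * t / (t ^ 2 + c) :=
    (hf.mul continuous_id).div (by fun_prop) fun t => by positivity
  refine ⟨g * cfc (fun t : ℝ => f t * t / (t ^ 2 + c)) g, hI.mul_right _ g hgI, ?_⟩
  have hg' : cfc (fun t : ℝ => t * (f t * t / (t ^ 2 + c))) g
      = g * cfc (fun t : ℝ => f t * t / (t ^ 2 + c)) g := by
    rw [cfc_mul (fun t : ℝ => t) _ g continuousOn_id hh.continuousOn, cfc_id' ℝ g]
  rw [← hg', ← cfc_sub f (fun t : ℝ => t * (f t * t / (t ^ 2 + c))) g hf.continuousOn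
    (continuous_id'.mul hh).continuousOn]
  refine norm_cfc_le hδ.le fun t ht => ?_
  have hden : 0 < t ^ 2 + c := by positivity
  have he : f t - t * (f t * t / (t ^ 2 + c)) = f t * (c / (t ^ 2 + c)) := by
    field_simp
    ring
  rw [he, norm_mul, Real.norm_eq_abs (c / _), abs_of_pos (div_pos hc0 hden)]
  have hle1 : c / (t ^ 2 + c) ≤ 1 := by rw [div_le_one hden]; nlinarith
  rcases lt_or_ge |t| r with htr | htr
  · have := hr' (show dist t 0 < r by simpa [Real.dist_eq] using htr)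
    rw [h0, dist_zero_right] at this
    calc ‖f t‖ * (c / (t ^ 2 + c)) ≤ ‖f t‖ * 1 := by gcongr
      _ ≤ δ := by linarith
  · have hMt : ‖f t‖ ≤ |M| + 1 := by
      have := hM (Set.mem_image_of_mem f ht)
      rw [Metric.mem_closedBall, dist_zero_right] at this
      linarith [le_abs_self M]
    have ht2 : r ^ 2 ≤ t ^ 2 := by nlinarith [sq_abs t]
    calc ‖f t‖ * (c / (t ^ 2 + c)) ≤ (|M| + 1) * (c / r ^ 2) := by
          gcongr
          nlinarith
      _ = δ := by rw [hc]; field_simp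

theorem unitOf_nonneg {η : ℝ} (hη : 0 < η) {g : B} (hg : 0 ≤ g) : 0 ≤ unitOf η g := by
  refine cfc_nonneg fun t ht => ?_
  have := spectrum_nonneg_of_nonneg hg ht
  positivity

theorem unitOf_le_one {η : ℝ} (hη : 0 < η) {g : B} (hg : 0 ≤ g) : unitOf η g ≤ 1 := by
  refine cfc_le_one _ _ fun t ht => ?_
  have := spectrum_nonneg_of_nonneg hg ht
  rw [div_le_one (by positivity)]; linarith

theorem unitOf_mem {I : Set B} (hI : IsClosedIdeal I) {η : ℝ} (hη : 0 < η) {g : B} (hg : 0 ≤ g)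
    (hgI : g ∈ I) : unitOf η g ∈ I := by
  have he : unitOf η g = cfc (fun t : ℝ => max t 0 / (max t 0 + η)) g := cfc_congr fun t ht => by
    simp [max_eq_left (spectrum_nonneg_of_nonneg hg ht)]
  rw [he]
  exact cfc_mem_of_zero hI hg.isSelfAdjoint hgI
    ((by fun_prop : Continuous fun t : ℝ => max t 0).div (by fun_prop) fun t => by positivity)
    (by simp)

theorem unitOf_mono {η : ℝ} (hη : 0 < η) {g g' : B} (hg : 0 ≤ g) (h : g ≤ g') :
    unitOf η g ≤ unitOf η g' := by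
  have key : ∀ x : B, 0 ≤ x → unitOf η x = cfc (fun t : ℝ => 1 - (1 + t)⁻¹) (η⁻¹ • x) := by
    intro x hx
    have hcont : ContinuousOn (fun t : ℝ => 1 - (1 + t)⁻¹)
        ((fun t : ℝ => η⁻¹ • t) '' spectrum ℝ x) := by
      refine ContinuousOn.sub continuousOn_const (ContinuousOn.inv₀ (by fun_prop) ?_)
      rintro _ ⟨t, ht, rfl⟩
      have := spectrum_nonneg_of_nonneg hx ht
      simp only [smul_eq_mul]
      positivity
    rw [← cfc_comp_smul η⁻¹ (fun t : ℝ => 1 - (1 + t)⁻¹) x hcont hx.isSelfAdjoint]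
    refine cfc_congr fun t ht => ?_
    have := spectrum_nonneg_of_nonneg hx ht
    simp only [smul_eq_mul]
    field_simp
    ring
  have hη' : 0 ≤ η⁻¹ := by positivity
  have hn : ∀ x : B, 0 ≤ x → cfcₙ (fun t : ℝ => 1 - (1 + t)⁻¹) (η⁻¹ • x)
      = cfc (fun t : ℝ => 1 - (1 + t)⁻¹) (η⁻¹ • x) := fun x hx => by
    refine cfcₙ_eq_cfc (continuousOn_const.sub (ContinuousOn.inv₀ (by fun_prop) fun t ht => ?_))
      (by simp)
    have := quasispectrum_nonneg_of_nonneg (η⁻¹ • x) (smul_nonneg hη' hx) t ht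
    positivity
  rw [key g hg, key g' (hg.trans h), ← hn g hg, ← hn g' (hg.trans h)]
  exact CFC.monotoneOn_one_sub_one_add_inv_real (smul_nonneg hη' hg)
    (smul_nonneg hη' (hg.trans h)) (smul_le_smul_of_nonneg_left h hη')

theorem one_sub_unitOf_conj {η : ℝ} (hη : 0 < η) {g : B} (hg : 0 ≤ g) :
    (1 - unitOf η g) * g * (1 - unitOf η g) ≤ sc η := by
  have hc : ContinuousOn (fun t : ℝ => t / (t + η)) (spectrum ℝ g) :=
    continuousOn_id.div (by fun_prop) fun t ht => by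
      have := spectrum_nonneg_of_nonneg hg ht; positivity
  have h1 : (1 - unitOf η g) = cfc (fun t : ℝ => 1 - t / (t + η)) g := by
    rw [cfc_sub (fun _ : ℝ => 1) (fun t : ℝ => t / (t + η)) g continuousOn_const hc,
      cfc_const_one ℝ g hg.isSelfAdjoint]; rfl
  have hc1 : ContinuousOn (fun t : ℝ => 1 - t / (t + η)) (spectrum ℝ g) :=
    continuousOn_const.sub hc
  rw [h1]
  nth_rw 2 [← cfc_id' ℝ g hg.isSelfAdjoint]
  rw [← cfc_mul (fun t : ℝ => 1 - t / (t + η)) (fun t : ℝ => t) g hc1 continuousOn_id, ← cfc_mul (fun t : ℝ => (1 - t / (t + η)) * t) _ g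
    (hc1.mul continuousOn_id) hc1]
  refine cfc_le_algebraMap _ _ _ fun t ht => ?_
  have := spectrum_nonneg_of_nonneg hg ht
  have h' : 1 - t / (t + η) = η / (t + η) := by field_simp; ring
  rw [h', div_mul_eq_mul_div, div_mul_div_comm, div_le_iff₀ (by positivity)]
  nlinarith [sq_nonneg (t - η), mul_nonneg this hη.le]

theorem norm_one_sub_unitOf_mul_sq {η : ℝ} (hη : 0 < η) {g x : B} (hg : 0 ≤ g)
    (h : x * star x ≤ g) : ‖(1 - unitOf η g) * x‖ ^ 2 ≤ η := by
  have hu : IsSelfAdjoint (1 - unitOf η g) :=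
    (IsSelfAdjoint.one B).sub (unitOf_nonneg hη hg).isSelfAdjoint
  rw [sq, ← CStarRing.norm_self_mul_star (x := (1 - unitOf η g) * x)]
  refine norm_le_of_le_sc (mul_star_self_nonneg _) hη.le ?_
  rw [star_mul, hu.star_eq, ← mul_assoc, mul_assoc (1 - unitOf η g) x]
  exact (hu.conjugate_le_conjugate h).trans (one_sub_unitOf_conj hη hg)

theorem cut_nonneg {c : ℝ} {g : B} : 0 ≤ cut c g := by
  exact cfc_nonneg fun t _ => le_max_right _ _

theorem le_cut_add {c : ℝ} {g : B} (hg : IsSelfAdjoint g) : g ≤ cut c g + sc c := by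
  have h : cfc (fun t : ℝ => t) g ≤ cfc (fun t : ℝ => max (t - c) 0 + c) g :=
    cfc_mono fun t _ => by linarith [le_max_left (t - c) 0]
  rw [cfc_id' ℝ g hg, cfc_add_const c _ g] at h
  exact h

theorem cut_mem {I : Set B} (hI : IsClosedIdeal I) {c : ℝ} (hc : 0 ≤ c) {g : B} (hg : 0 ≤ g)
    (hgI : g ∈ I) : cut c g ∈ I := by
  exact cfc_mem_of_zero hI hg.isSelfAdjoint hgI (by fun_prop)
    (by simp [hc])

theorem Dom.mono {I : Set B} {δ δ' : ℝ} {p q : B} (h : Dom I δ q) (hpq : p ≤ q) (hδ : δ ≤ δ') :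
    Dom I δ' p := by
  obtain ⟨g, hgI, hg, hle⟩ := h
  exact ⟨g, hgI, hg, hpq.trans (hle.trans (add_le_add le_rfl (algebraMap_mono B hδ)))⟩

theorem Dom.add {I : Set B} (hI : IsClosedIdeal I) {δ δ' : ℝ} {p q : B} (h : Dom I δ p)
    (h' : Dom I δ' q) : Dom I (δ + δ') (p + q) := by
  obtain ⟨g, hgI, hg, hle⟩ := h
  obtain ⟨k, hkI, hk, hle'⟩ := h'
  refine ⟨g + k, hI.add_mem g hgI k hkI, add_nonneg hg hk, (add_le_add hle hle').trans ?_⟩
  rw [sc, sc, sc, map_add, add_add_add_comm]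

theorem Dom.sum {I : Set B} (hI : IsClosedIdeal I) {ι : Type*} (s : Finset ι) (δ : ι → ℝ)
    (p : ι → B) (h : ∀ i ∈ s, Dom I (δ i) (p i)) : Dom I (∑ i ∈ s, δ i) (∑ i ∈ s, p i) := by
  classical
  induction s using Finset.induction_on with
  | empty => exact ⟨0, hI.zero_mem, le_rfl, by simp [sc]⟩
  | insert a s ha ih =>
    rw [Finset.sum_insert ha, Finset.sum_insert ha]
    exact (h a (Finset.mem_insert_self _ _)).add hI
      (ih fun i hi => h i (Finset.mem_insert_of_mem hi))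

theorem Dom.smul {I : Set B} (hI : IsClosedIdeal I) {δ : ℝ} {p : B} (h : Dom I δ p) {r : ℝ}
    (hr : 0 ≤ r) : Dom I (r * δ) (r • p) := by
  obtain ⟨g, hgI, hg, hle⟩ := h
  refine ⟨r • g, hI.real_smul_mem r hgI, smul_nonneg hr hg,
    (smul_le_smul_of_nonneg_left hle hr).trans (le_of_eq ?_)⟩
  simp [sc, Algebra.smul_def, mul_add]

theorem Dom.conj {I : Set B} (hI : IsClosedIdeal I) {δ : ℝ} (hδ : 0 ≤ δ) {p : B}
    (h : Dom I δ p) (a : B) : Dom I (δ * ‖a‖ ^ 2) (star a * p * a) := by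
  obtain ⟨g, hgI, hg, hle⟩ := h
  refine ⟨star a * g * a, hI.mul_right a _ (hI.mul_left (star a) g hgI),
    star_left_conjugate_nonneg hg a, (star_left_conjugate_le_conjugate hle a).trans ?_⟩
  rw [mul_add, add_mul]
  exact add_le_add le_rfl (conj_sc_le hδ a)

theorem Dom.of_norm_le {I : Set B} {δ η : ℝ} {p q : B} (h : Dom I δ q) (hp : IsSelfAdjoint p)
    (hq : IsSelfAdjoint q) (hpq : ‖p - q‖ ≤ η) : Dom I (δ + η) p := by
  obtain ⟨g, hgI, hg, hle⟩ := h
  refine ⟨g, hgI, hg, ?_⟩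
  have h1 : p - q ≤ sc η := le_sc_of_norm_le (hp.sub hq) hpq
  calc p = q + (p - q) := by abel
    _ ≤ g + sc δ + sc η := add_le_add hle h1
    _ = g + sc (δ + η) := by rw [add_assoc, sc, sc, sc, map_add]

omit [StarOrderedRing B] in
theorem dom_of_le_sc {I : Set B} (hI : IsClosedIdeal I) {δ : ℝ} {p : B} (h : p ≤ sc δ) :
    Dom I δ p := by
  exact ⟨0, hI.zero_mem, le_rfl, by simpa using h⟩

/-- Compressing a scalar by `1 - unitOf` does not increase it. -/
theorem conj_one_sub_sc_le {η : ℝ} (hη : 0 < η) {g : B} (hg : 0 ≤ g) {δ : ℝ} (hδ : 0 ≤ δ) :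
    (1 - unitOf η g) * sc δ * (1 - unitOf η g) ≤ sc δ := by
  have h0 : 0 ≤ 1 - unitOf η g := sub_nonneg.2 (unitOf_le_one hη hg)
  have h := conj_sc_le hδ (1 - unitOf η g)
  rw [h0.isSelfAdjoint.star_eq] at h
  refine h.trans (algebraMap_mono B ?_)
  have h1 : ‖(1 - unitOf η g)‖ ≤ 1 :=
    (CStarAlgebra.norm_le_one_iff_of_nonneg _ h0).2 (sub_le_self 1 (unitOf_nonneg hη hg))
  calc δ * ‖1 - unitOf η g‖ ^ 2 ≤ δ * 1 ^ 2 := by gcongr
    _ = δ := by ring

theorem Dom.near_of_star_mul {I : Set B} (hI : IsClosedIdeal I) {δ η : ℝ} (hδ : 0 ≤ δ)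
    (hη : 0 < η) {X : B} (h : Dom I δ (star X * X)) : Near I (Real.sqrt (δ + η)) X := by
  obtain ⟨g, hgI, hg, hle⟩ := h
  refine ⟨X * unitOf η g, hI.mul_left X _ (unitOf_mem hI hη hg hgI), ?_⟩
  have hsc : (1 - unitOf η g) * sc δ * (1 - unitOf η g) ≤ sc δ :=
    conj_one_sub_sc_le hη hg hδ
  have hu : IsSelfAdjoint (1 - unitOf η g) :=
    (IsSelfAdjoint.one B).sub (unitOf_nonneg hη hg).isSelfAdjoint
  rw [show X - X * unitOf η g = X * (1 - unitOf η g) by rw [mul_sub, mul_one]]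
  refine Real.le_sqrt_of_sq_le ?_
  rw [sq, ← CStarRing.norm_star_mul_self]
  refine norm_le_of_le_sc (star_mul_self_nonneg _) (by positivity) ?_
  rw [star_mul, hu.star_eq, ← mul_assoc, mul_assoc (1 - unitOf η g) (star X)]
  calc (1 - unitOf η g) * (star X * X) * (1 - unitOf η g)
      ≤ (1 - unitOf η g) * (g + sc δ) * (1 - unitOf η g) := hu.conjugate_le_conjugate hle
    _ = (1 - unitOf η g) * g * (1 - unitOf η g)
        + (1 - unitOf η g) * sc δ * (1 - unitOf η g) := by rw [mul_add, add_mul]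
    _ ≤ sc η + sc δ := add_le_add (one_sub_unitOf_conj hη hg) hsc
    _ = sc (δ + η) := by rw [sc, sc, sc, map_add, add_comm]

theorem Dom.near {I : Set B} (hI : IsClosedIdeal I) {δ η : ℝ} (hδ : 0 ≤ δ) (hη : 0 < η) {p : B}
    (hp : 0 ≤ p) (h : Dom I δ p) : Near I (Real.sqrt ((δ + η) * ‖p‖)) p := by
  have hs : IsSelfAdjoint (CFC.sqrt p) := (CFC.sqrt_nonneg p).isSelfAdjoint
  have h1 : Dom I δ (star (CFC.sqrt p) * CFC.sqrt p) := by
    rwa [hs.star_eq, CFC.sqrt_mul_sqrt_self p hp]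
  have h2 := (h1.near_of_star_mul hI hδ hη).mul_left hI (CFC.sqrt p)
  rw [CFC.sqrt_mul_sqrt_self p hp] at h2
  obtain ⟨Y, hY, hn⟩ := h2
  refine ⟨Y, hY, hn.trans (le_of_eq ?_)⟩
  rw [CFC.norm_sqrt p hp, mul_comm, ← Real.sqrt_mul (by positivity)]

theorem Dom.swap {I : Set B} (hI : IsClosedIdeal I) {δ η : ℝ} (hδ : 0 ≤ δ) (hη : 0 < η) {X : B}
    (h : Dom I δ (star X * X)) : Dom I (δ + η) (X * star X) := by
  obtain ⟨g, hgI, hg, hle⟩ := h
  set η0 := η / 4 with hη0
  have h0 : 0 < η0 := by positivity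
  set e := unitOf η0 g with he
  have hu : IsSelfAdjoint (1 - e) :=
    (IsSelfAdjoint.one B).sub (unitOf_nonneg h0 hg).isSelfAdjoint
  have hes : IsSelfAdjoint e := (unitOf_nonneg h0 hg).isSelfAdjoint
  set t := η / (4 * (δ + η)) with ht
  have ht0 : 0 < t := by positivity
  have heI : e ∈ I := unitOf_mem hI h0 hg hgI
  have key := star_mul_add_le ((1 - e) * star X) (e * star X) ht0
  have hsum : (1 - e) * star X + e * star X = star X := by rw [← add_mul, sub_add_cancel, one_mul]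
  rw [hsum, star_star] at key
  refine ⟨(1 + t⁻¹) • (star (e * star X) * (e * star X)),
    hI.real_smul_mem _ (hI.mul_left _ _ (hI.mul_right _ _ heI)),
    smul_nonneg (by positivity) (star_mul_self_nonneg _), key.trans ?_⟩
  rw [add_comm (b := sc (δ + η))]
  refine add_le_add ?_ le_rfl
  refine le_sc_of_norm_le ((IsSelfAdjoint.all (1 + t)).smul (IsSelfAdjoint.star_mul_self _)) ?_
  have h1 : ‖X * (1 - e)‖ ^ 2 ≤ δ + η0 := by
    rw [sq, ← CStarRing.norm_star_mul_self]
    refine norm_le_of_le_sc (star_mul_self_nonneg _) (by positivity) ?_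
    rw [star_mul, hu.star_eq, ← mul_assoc, mul_assoc (1 - e) (star X)]
    calc (1 - e) * (star X * X) * (1 - e) ≤ (1 - e) * (g + sc δ) * (1 - e) :=
          hu.conjugate_le_conjugate hle
      _ = (1 - e) * g * (1 - e) + (1 - e) * sc δ * (1 - e) := by rw [mul_add, add_mul]
      _ ≤ sc η0 + sc δ := add_le_add (one_sub_unitOf_conj h0 hg) (conj_one_sub_sc_le h0 hg hδ)
      _ = sc (δ + η0) := by rw [sc, sc, sc, map_add, add_comm]
  have h2 : star ((1 - e) * star X) = X * (1 - e) := by rw [star_mul, star_star, hu.star_eq]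
  rw [norm_smul, Real.norm_of_nonneg (by positivity : (0:ℝ) ≤ 1 + t), CStarRing.norm_star_mul_self,
    ← norm_star ((1 - e) * star X), h2, ← sq]
  calc (1 + t) * ‖X * (1 - e)‖ ^ 2 ≤ (1 + t) * (δ + η0) := by gcongr
    _ ≤ δ + η := by
        have : t * (δ + η0) ≤ η / 4 := by
          rw [ht, div_mul_eq_mul_div, div_le_iff₀ (by positivity)]
          nlinarith
        rw [hη0] at this ⊢
        linarith

theorem IsClosedIdeal.star_mem {I : Set B} (hI : IsClosedIdeal I) {x : B} (hx : x ∈ I) :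
    star x ∈ I := by
  refine mem_of_forall_near hI fun δ hδ => ?_
  have h0 : Dom I 0 (star x * x) :=
    ⟨star x * x, hI.mul_left _ _ hx, star_mul_self_nonneg x, by simp⟩
  have h1 := h0.swap hI le_rfl (η := δ ^ 2 / 2) (by positivity)
  have h2 : Dom I (0 + δ ^ 2 / 2) (star (star x) * star x) := by rw [star_star]; exact h1
  have h3 := h2.near_of_star_mul hI (by positivity) (η := δ ^ 2 / 2) (by positivity)
  obtain ⟨Y, hY, hn⟩ := h3
  refine ⟨Y, hY, hn.trans (le_of_eq ?_)⟩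
  rw [show 0 + δ ^ 2 / 2 + δ ^ 2 / 2 = δ ^ 2 by ring, Real.sqrt_sq hδ.le]

theorem Near.dom {I : Set B} (hI : IsClosedIdeal I) {δ η : ℝ} (hη : 0 < η) {X : B}
    (hX : IsSelfAdjoint X) (h : Near I δ X) : Dom I (δ + η) X := by
  obtain ⟨Y, hY, hn⟩ := h
  set Z := (2⁻¹ : ℝ) • (Y + star Y) with hZ
  have hZs : IsSelfAdjoint Z := (IsSelfAdjoint.all (2⁻¹ : ℝ)).smul (IsSelfAdjoint.add_star_self Y)
  have hZI : Z ∈ I := hI.real_smul_mem _ (hI.add_mem _ hY _ (hI.star_mem hY))
  have hXZ : ‖X - Z‖ ≤ δ := by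
    have he : X - Z = (2⁻¹ : ℝ) • ((X - Y) + star (X - Y)) := by
      rw [hZ, star_sub, hX.star_eq]; module
    rw [he, norm_smul, Real.norm_of_nonneg (by norm_num)]
    have := norm_add_le (X - Y) (star (X - Y))
    rw [norm_star] at this
    linarith
  refine Dom.mono ?_ le_rfl (le_add_of_nonneg_right hη.le)
  refine ⟨cfc (fun t : ℝ => |t|) Z, cfc_mem_of_zero hI hZs hZI continuous_abs abs_zero,
    cfc_nonneg fun t _ => abs_nonneg t, ?_⟩
  calc X = Z + (X - Z) := by abel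
    _ ≤ cfc (fun t : ℝ => |t|) Z + sc δ := by
        refine add_le_add ?_ (le_sc_of_norm_le (hX.sub hZs) hXZ)
        conv_lhs => rw [← cfc_id' ℝ Z hZs]
        exact cfc_mono fun t _ => le_abs_self t

theorem IsClosedIdeal.sqrt_mem {I : Set B} (hI : IsClosedIdeal I) {x : B} (hx : 0 ≤ x)
    (hxI : x ∈ I) : CFC.sqrt x ∈ I := by
  rw [CFC.sqrt_eq_real_sqrt x hx, cfcₙ_eq_cfc]
  exact cfc_mem_of_zero hI hx.isSelfAdjoint hxI Real.continuous_sqrt Real.sqrt_zero

/-- The comparison `c ≾ Y` from `c ≤ Y + δ`, with a bounded comparing element. -/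
theorem exists_conj_approx {c Y : B} (hc : 0 ≤ c) (hY : 0 ≤ Y) {δ η : ℝ} (hδ : 0 ≤ δ)
    (hη : 0 < η) (h : c ≤ Y + sc δ) :
    ∃ u : B, ‖star (u * CFC.sqrt c) * Y * (u * CFC.sqrt c) - c‖ ≤ η + δ ∧
      ‖u * CFC.sqrt c‖ ^ 2 ≤ ‖c‖ / η := by
  set r : ℝ → ℝ := fun t => (Real.sqrt (t + η))⁻¹ with hr
  set q : ℝ → ℝ := fun t => Real.sqrt (η / (t + η)) with hq
  have hsp : ∀ t ∈ spectrum ℝ Y, (0:ℝ) < t + η := fun t ht => by
    have := spectrum_nonneg_of_nonneg hY ht; linarith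
  have hrc : ContinuousOn r (spectrum ℝ Y) :=
    (Real.continuous_sqrt.comp_continuousOn (by fun_prop)).inv₀
      fun t ht => (Real.sqrt_pos.2 (hsp t ht)).ne'
  have hqc : ContinuousOn q (spectrum ℝ Y) :=
    Real.continuous_sqrt.comp_continuousOn
      (continuousOn_const.div (by fun_prop) fun t ht => (hsp t ht).ne')
  set u := cfc r Y with hu
  set S := cfc q Y with hS
  have hus : star u = u := (cfc_predicate r Y : IsSelfAdjoint u).star_eq
  have hSs : IsSelfAdjoint S := cfc_predicate q Y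
  set w := CFC.sqrt c with hw
  have hws : star w = w := (CFC.sqrt_nonneg c).isSelfAdjoint.star_eq
  have hww : w * w = c := CFC.sqrt_mul_sqrt_self c hc
  refine ⟨u, ?_, ?_⟩
  · have hid : u * Y * u = 1 - S * S := by
      rw [hu, hS]
      nth_rw 2 [← cfc_id' ℝ Y hY.isSelfAdjoint]
      rw [← cfc_mul r (fun t : ℝ => t) Y hrc continuousOn_id,
        ← cfc_mul (fun t => r t * t) r Y (hrc.mul continuousOn_id) hrc,
        ← cfc_mul q q Y hqc hqc, ← cfc_const_one ℝ Y hY.isSelfAdjoint,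
        ← cfc_sub (fun _ : ℝ => 1) (fun t => q t * q t) Y continuousOn_const (hqc.mul hqc)]
      refine cfc_congr fun t ht => ?_
      have h1 := hsp t ht
      have h2 := Real.sqrt_pos.2 h1
      simp only [hr, hq]
      rw [Real.mul_self_sqrt (by positivity)]
      field_simp
      rw [Real.sq_sqrt h1.le]
      ring
    have e1 : star (u * w) * Y * (u * w) - c = -(star (S * w) * (S * w)) := by
      rw [star_mul, star_mul, hus, hws, hSs.star_eq]
      calc w * u * Y * (u * w) - c = w * (u * Y * u) * w - w * w := by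
            rw [hww]; simp [mul_assoc]
        _ = -(w * S * (S * w)) := by rw [hid]; noncomm_ring
    rw [e1, norm_neg, CStarRing.norm_star_mul_self,
      ← CStarRing.norm_self_mul_star (x := S * w)]
    refine norm_le_of_le_sc (mul_star_self_nonneg _) (by positivity) ?_
    rw [star_mul, hws, ← mul_assoc, mul_assoc S w, hww, hSs.star_eq]
    refine (hSs.conjugate_le_conjugate h).trans ?_
    have e2 : Y + sc δ = cfc (fun t : ℝ => t + δ) Y := by
      rw [cfc_add_const δ _ Y, cfc_id' ℝ Y hY.isSelfAdjoint]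
    rw [e2, hS, ← cfc_mul q _ Y hqc (by fun_prop),
      ← cfc_mul (fun t => q t * (t + δ)) q Y (hqc.mul (by fun_prop)) hqc]
    refine cfc_le_algebraMap _ _ _ fun t ht => ?_
    have h0 := spectrum_nonneg_of_nonneg hY ht
    have h1 := hsp t ht
    simp only [hq]
    rw [mul_right_comm, Real.mul_self_sqrt (by positivity), div_mul_eq_mul_div,
      div_le_iff₀ h1]
    nlinarith [mul_nonneg hη.le hη.le, mul_nonneg hδ h0]
  · have hun : ‖u‖ ≤ (Real.sqrt η)⁻¹ := by
      refine norm_cfc_le (by positivity) fun t ht => ?_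
      have h0 := spectrum_nonneg_of_nonneg hY ht
      simp only [hr, Real.norm_eq_abs, abs_inv, abs_of_nonneg (Real.sqrt_nonneg _)]
      exact inv_anti₀ (Real.sqrt_pos.2 hη) (Real.sqrt_le_sqrt (by linarith))
    calc ‖u * w‖ ^ 2 ≤ (‖u‖ * ‖w‖) ^ 2 := by gcongr; exact norm_mul_le _ _
      _ ≤ ((Real.sqrt η)⁻¹ * ‖w‖) ^ 2 := by gcongr
      _ = ‖c‖ / η := by
          rw [mul_pow, inv_pow, Real.sq_sqrt hη.le, CFC.norm_sqrt c hc,
            Real.sq_sqrt (norm_nonneg c)]
          ring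

end Order

end

end Vale.Agent.P133.FinDim
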