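import Vale.Agent.P133.FinDim.Comparison

/-!
The cover indexed by choice functions: a power of `P` lies in a sum of intersections.
-/

namespace Vale.Agent.P133.FinDim

open scoped ComplexOrder

noncomputable section

variable {B : Type*} [CStarAlgebra B] [PartialOrder B] [StarOrderedRing B]

omit [PartialOrder B] [StarOrderedRing B] in
theorem closedSum_subset_of_equiv {γ γ' : Type*} [Fintype γ] [Fintype γ'] (e : γ ≃ γ')
    {I : γ → Set B} {J : γ' → Set B} (h : ∀ c, I c ⊆ J (e c)) : closedSum I ⊆ closedSum J := by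
  refine closure_mono ?_
  rintro x ⟨j, hj, rfl⟩
  refine ⟨fun c' => j (e.symm c'), fun c' => ?_, (e.symm.sum_comp j).symm⟩
  simpa using h (e.symm c') (hj (e.symm c'))

/-- A product of elements of sums lies in the sum over choice functions of the intersections. -/
theorem exists_prod_choices {β : Type*} [Fintype β] {Q : B} {M e : ℝ} (hQ : ‖Q‖ ≤ M) (hM : 1 ≤ M)
    (he : 0 ≤ e) :
    ∀ (k : ℕ) (J : Fin k → β → Set B), (∀ a q, IsClosedIdeal (J a q)) →
      (∀ a, ∃ G ∈ closedSum (J a), ‖G‖ ≤ M ∧ ‖G - Q‖ ≤ e) →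
      ∃ g ∈ closedSum (fun σ : Fin k → β => ⋂ a, J a (σ a)),
        ‖g‖ ≤ M ^ k ∧ M * ‖g - Q ^ k‖ ≤ k * M ^ k * e := by
  intro k
  induction k with
  | zero =>
    intro J _ _
    refine ⟨1, subset_closure ⟨fun _ => 1, fun σ => by simp, by simp⟩, ?_, by simp⟩
    rcases subsingleton_or_nontrivial B with hB | hB
    · simp [Subsingleton.elim (1 : B) 0]
    · simp
  | succ k ih =>
    intro J hJ hG
    obtain ⟨g, hg, hgn, hge⟩ := ih (fun a => J a.succ) (fun a => hJ _) (fun a => hG _)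
    obtain ⟨G, hGm, hGn, hGe⟩ := hG 0
    have h := mul_mem_closedSum (Fin.consEquiv fun _ : Fin (k + 1) => β) (hJ 0)
      (fun σ => IsClosedIdeal.inter fun a => hJ _ (σ a)) hGm hg
    refine ⟨G * g, closedSum_subset_of_equiv (Equiv.refl _) (fun c x hx => ?_) h, ?_, ?_⟩
    · rw [Set.mem_iInter]
      intro a
      induction a using Fin.cases with
      | zero => exact hx.1
      | succ a => exact Set.mem_iInter.1 hx.2 a
    · rw [pow_succ']
      exact (norm_mul_le _ _).trans (mul_le_mul hGn hgn (norm_nonneg _) (by linarith))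
    · have h1 : G * g - Q ^ (k + 1) = (G - Q) * g + Q * (g - Q ^ k) := by
        rw [pow_succ']; noncomm_ring
      rw [h1]
      have a1 : ‖(G - Q) * g‖ ≤ e * M ^ k :=
        (norm_mul_le _ _).trans (mul_le_mul hGe hgn (norm_nonneg _) he)
      have a2 : ‖Q * (g - Q ^ k)‖ ≤ M * ‖g - Q ^ k‖ :=
        (norm_mul_le _ _).trans (mul_le_mul_of_nonneg_right hQ (norm_nonneg _))
      have a3 : M * (M * ‖g - Q ^ k‖) ≤ M * (k * M ^ k * e) :=
        mul_le_mul_of_nonneg_left hge (by linarith)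
      calc M * ‖(G - Q) * g + Q * (g - Q ^ k)‖
          ≤ M * (e * M ^ k + M * ‖g - Q ^ k‖) := mul_le_mul_of_nonneg_left
            ((norm_add_le _ _).trans (add_le_add a1 a2)) (by linarith)
        _ ≤ ((k + 1 : ℕ) : ℝ) * M ^ (k + 1) * e := by push_cast; rw [pow_succ]; linarith

/-- If `P²` is below `δ` modulo each `closedSum (I a)`, then `(P²)^K` is, in norm, close to the sum
over choice functions of the intersections. -/
theorem exists_mem_closedSum_choices {κ β : Type*} [Fintype κ] [DecidableEq κ] [Fintype β]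
    (I : κ → β → Set B) (hI : ∀ a q, IsClosedIdeal (I a q)) {P : B} (hP : 0 ≤ P) {Cp : ℝ}
    (hCp : 1 ≤ Cp) (hPn : ‖P‖ ≤ Cp) {δ : ℝ} (hδ : 0 < δ) (hδ1 : δ ≤ 1)
    (hdom : ∀ a, Dom (closedSum (I a)) δ (P * P)) :
    ∃ g ∈ closedSum (fun σ : κ → β => ⋂ a, I a (σ a)),
      ‖g - (P * P) ^ Fintype.card κ‖ ≤
        (Fintype.card κ : ℝ) * (3 * Cp ^ 2) ^ Fintype.card κ * Real.sqrt δ := by
  set K := Fintype.card κ with hK
  set M := 3 * Cp ^ 2 with hMdef
  have hCp2 : Cp ≤ Cp ^ 2 := le_self_pow₀ hCp (by norm_num)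
  have hM : 1 ≤ M := by rw [hMdef]; linarith
  have hQ2 : ‖P * P‖ ≤ Cp ^ 2 := by
    rw [sq]; exact (norm_mul_le _ _).trans (mul_le_mul hPn hPn (norm_nonneg _) (by linarith))
  have hsd : Real.sqrt δ ≤ 1 := Real.sqrt_le_one.2 hδ1
  have hnear : ∀ a, ∃ G ∈ closedSum (I a), ‖G - P * P‖ ≤ 2 * Cp * Real.sqrt δ := fun a => by
    obtain ⟨G, hG, hn⟩ := (hdom a).near (IsClosedIdeal.closedSum (hI a)) hδ.le hδ
      (hP.isSelfAdjoint.mul_self_nonneg)
    refine ⟨G, hG, ?_⟩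
    rw [norm_sub_rev]
    refine hn.trans ((Real.sqrt_le_left (by positivity)).2 ?_)
    calc (δ + δ) * ‖P * P‖ ≤ (δ + δ) * Cp ^ 2 := mul_le_mul_of_nonneg_left hQ2 (by linarith)
      _ ≤ (2 * Cp * Real.sqrt δ) ^ 2 := by
          rw [mul_pow, mul_pow, Real.sq_sqrt hδ.le]
          nlinarith [mul_nonneg hδ.le (sq_nonneg Cp)]
  set e := Fintype.equivFin κ
  obtain ⟨g, hg, -, hge⟩ := exists_prod_choices (Q := P * P) (M := M) (e := 2 * Cp * Real.sqrt δ)
    (hQ2.trans (by rw [hMdef]; linarith [sq_nonneg Cp])) hM (by positivity) K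
    (fun a => I (e.symm a)) (fun a q => hI _ q) (fun a => by
      obtain ⟨G, hG, hn⟩ := hnear (e.symm a)
      refine ⟨G, hG, ?_, hn⟩
      have h2 : 2 * Cp * Real.sqrt δ ≤ 2 * Cp := mul_le_of_le_one_right (by linarith) hsd
      calc ‖G‖ = ‖P * P + (G - P * P)‖ := by rw [add_sub_cancel]
        _ ≤ ‖P * P‖ + ‖G - P * P‖ := norm_add_le _ _
        _ ≤ M := by rw [hMdef]; linarith)
  refine ⟨g, closedSum_subset_of_equiv (Equiv.arrowCongr e.symm (Equiv.refl β))
    (fun σ x hx => ?_) hg, ?_⟩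
  · rw [Set.mem_iInter] at hx ⊢
    intro a; simpa using hx (e a)
  · refine le_of_mul_le_mul_left (hge.trans ?_) (by linarith : 0 < M)
    calc (K : ℝ) * M ^ K * (2 * Cp * Real.sqrt δ)
        ≤ (K : ℝ) * M ^ K * (M * Real.sqrt δ) := by
          refine mul_le_mul_of_nonneg_left ?_ (by positivity)
          refine mul_le_mul_of_nonneg_right ?_ (Real.sqrt_nonneg δ)
          rw [hMdef]; linarith
      _ = M * (K * M ^ K * Real.sqrt δ) := by ring

/-- Back from a power: if `(P²)^K` is small modulo `I`, so is `P²`. -/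
theorem dom_of_pow {K : ℕ} (hK : 1 ≤ K) {δ : ℝ} (hδ : 0 < δ) :
    ∃ δ' : ℝ, 0 < δ' ∧ ∀ P : B, 0 ≤ P → ∀ I : Set B, IsClosedIdeal I →
      Dom I δ' ((P * P) ^ K) → Dom I δ (P * P) := by
  have hd : 0 < δ / 2 := half_pos hδ
  refine ⟨(δ / 2) ^ K, pow_pos hd K, fun P hP I hI h => ?_⟩
  obtain ⟨k, rfl⟩ : ∃ k, K = k + 1 := ⟨K - 1, by omega⟩
  have hQ : 0 ≤ P * P := hP.isSelfAdjoint.mul_self_nonneg
  set Q := P * P with hQdef
  set r := ((δ / 2) ^ k)⁻¹ with hr
  have hr0 : 0 ≤ r := by positivity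
  have hsum : Dom I δ (sc (δ / 2) + r • Q ^ (k + 1)) := by
    refine ((dom_of_le_sc hI le_rfl).add hI (h.smul hI hr0)).mono le_rfl (le_of_eq ?_)
    rw [hr, pow_succ]
    field_simp
    norm_num
  refine hsum.mono ?_ le_rfl
  have e : sc (δ / 2) + r • Q ^ (k + 1)
      = cfc (fun t : ℝ => δ / 2 + r * t ^ (k + 1)) Q := by
    rw [cfc_const_add (δ / 2) (fun t : ℝ => r * t ^ (k + 1)) Q,
      cfc_const_mul r (fun t : ℝ => t ^ (k + 1)) Q, cfc_pow_id Q (k + 1) hQ.isSelfAdjoint]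
  rw [e]
  nth_rw 1 [← cfc_id' ℝ Q hQ.isSelfAdjoint]
  refine cfc_mono fun t ht => ?_
  have ht0 := spectrum_nonneg_of_nonneg hQ ht
  rcases le_total t (δ / 2) with hle | hle
  · have : 0 ≤ r * t ^ (k + 1) := mul_nonneg hr0 (pow_nonneg ht0 _)
    linarith
  · have h2 : r * (δ / 2) ^ k ≤ r * t ^ k :=
      mul_le_mul_of_nonneg_left (pow_le_pow_left₀ hd.le hle k) hr0
    rw [hr, inv_mul_cancel₀ (pow_ne_zero _ hd.ne'), ← hr] at h2
    have h3 := mul_le_mul_of_nonneg_right h2 ht0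
    rw [one_mul, mul_assoc, ← pow_succ] at h3
    linarith

end

end Vale.Agent.P133.FinDim
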