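import Vale.Agent.P133.FinDim.Defs

/-!
Stratified covering dimension of the ideal lattice: refinements may be taken in finitely many
stages, points of high multiplicity being pushed into later stages.
-/

namespace Vale.Agent.P133.FinDim

/-- A refinement in stages of a finite cover `I` of `b`: stage `s` covers `h s` up to `δ` by the
ideals `J s i ⊆ I i` and the next ideal `K s`, which is contained in every closed ideal that
contains `h (s + 1)` up to `2δ`; stage `S` needs no next ideal; `d + 2` members with distinct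
indices meet inside `K s` for the least of their stages `s`. -/
structure StratRefinement {A : Type*} [NonUnitalNormedRing A] [Module ℂ A] {ι : Type}
    [Fintype ι] (I : ι → Set A) (b : A) (ε : ℝ) (d : ℕ) where
  S : ℕ
  K : ℕ → Set A
  h : ℕ → A
  J : ℕ → ι → Set A
  j : ℕ → ι → A
  y : ℕ → A
  δ : ℝ
  δ_pos : 0 < δ
  δ_le : δ ≤ ε
  h_zero : h 0 = b
  K_ideal : ∀ s, IsClosedIdeal (K s)
  K_last : K S = {0}
  K_below : ∀ s, s < S → ∀ L : Set A, IsClosedIdeal L → ∀ z ∈ L,
    ‖h (s + 1) - z‖ ≤ 2 * δ → K s ⊆ L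
  J_ideal : ∀ s i, IsClosedIdeal (J s i) ∧ J s i ⊆ I i
  j_mem : ∀ s i, j s i ∈ J s i
  y_mem : ∀ s, y s ∈ K s
  cover : ∀ s, s ≤ S → ‖h s - ((∑ i, j s i) + y s)‖ ≤ δ
  mult : ∀ T : Finset ι, T.card = d + 2 → ∀ σ : ι → ℕ, (∀ i ∈ T, σ i ≤ S) →
    ∀ i₀ ∈ T, (∀ i ∈ T, σ i₀ ≤ σ i) → ∀ x : A, (∀ i ∈ T, x ∈ J (σ i) i) → x ∈ K (σ i₀)

/-- Covering dimension at most `d` in the stratified sense. -/
def StratCoverDimLE (A : Type*) [NonUnitalCStarAlgebra A] (d : ℕ) : Prop :=
  ∀ (R : ℕ) (I : Fin R → Set A), (∀ i, IsClosedIdeal (I i)) →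
    ∀ b ∈ closedSum I, ∀ ε : ℝ, 0 < ε → Nonempty (StratRefinement I b ε d)

/-- The stratified hypothesis inside an ideal `A₀` of a larger algebra. -/
def StratCover {B : Type*} [NonUnitalNormedRing B] [Module ℂ B] (A₀ : Set B) (d : ℕ) : Prop :=
  ∀ (ι : Type) [Fintype ι] (I : ι → Set B), (∀ i, IsClosedIdeal (I i) ∧ I i ⊆ A₀) →
    ∀ b ∈ closedSum I, ∀ ε : ℝ, 0 < ε → Nonempty (StratRefinement I b ε d)

/-- The one-stage case: a refinement without high intersections is a stratified refinement. -/
theorem stratCoverDimLE_of_idealCoverDimLE {A : Type*} [NonUnitalCStarAlgebra A] [PartialOrder A]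
    {d : ℕ} (hd : IdealCoverDimLE A d) : StratCoverDimLE A d := by
  intro R I hI b hb ε hε
  obtain ⟨J, hJ, hzero, j, hj, hbj⟩ := hd R I hI b hb ε hε
  have h0 : IsClosedIdeal ({0} : Set A) :=
    { zero_mem := rfl
      add_mem := fun x hx y hy => by
        simp only [Set.mem_singleton_iff] at *
        rw [hx, hy, add_zero]
      smul_mem := fun r x hx => by
        simp only [Set.mem_singleton_iff] at *
        rw [hx, smul_zero]
      mul_left := fun a x hx => by
        simp only [Set.mem_singleton_iff] at *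
        rw [hx, mul_zero]
      mul_right := fun a x hx => by
        simp only [Set.mem_singleton_iff] at *
        rw [hx, zero_mul]
      closed := isClosed_singleton }
  refine ⟨{
    S := 0
    K := fun _ => {0}
    h := fun _ => b
    J := fun _ => J
    j := fun _ => j
    y := fun _ => 0
    δ := ε
    δ_pos := hε
    δ_le := le_rfl
    h_zero := rfl
    K_ideal := fun _ => h0
    K_last := rfl
    K_below := fun s hs => absurd hs (Nat.not_lt_zero s)
    J_ideal := fun _ => hJ
    j_mem := fun _ => hj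
    y_mem := fun _ => rfl
    cover := fun s _ => by simpa using hbj
    mult := fun T hT σ _ i₀ _ _ x hx => hzero T hT x hx }⟩

end Vale.Agent.P133.FinDim
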