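import Vale.Agent.P133.FinDim.Weights
import Vale.Agent.P133.FinDim.StratDefs

/-!
The asymptotically central system of a refinement in stages.
-/

namespace Vale.Agent.P133.FinDim

open Filter Topology
open scoped ComplexOrder

noncomputable section

variable {B : Type*} [CStarAlgebra B] [PartialOrder B] [StarOrderedRing B]

/-- Multiplicity at most `d + 1`: products over `d + 2` indices vanish asymptotically. -/
def MultLE {ι : Type*} [Fintype ι] {J : ι → Set B} {F : Set B} {j : ι → B}
    (S : QCSystem J F j) (d : ℕ) : Prop :=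
  ∀ T : Finset ι, T.card = d + 2 → ∀ f : ι → ℝ → ℝ, (∀ i, Good (f i)) →
    (∀ i ∈ T, f i 0 = 0) → AEq (S.prodSeq f) (fun _ => (0 : B))

/-- Asymptotic commutation. -/
def AComm (X Y : ℕ → B) : Prop := AEq (fun k => X k * Y k) (fun k => Y k * X k)

/-- `X` is asymptotically in the sets `L`. -/
def ENear (L : ℕ → Set B) (X : ℕ → B) : Prop :=
  ∀ η : ℝ, 0 < η → ∀ᶠ k in atTop, Near (L k) η (X k)

/-- The ordered product of sequences over a list. -/
def seqProd {α : Type*} (L : List α) (X : α → ℕ → B) (k : ℕ) : B :=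
  (L.map fun a => X a k).prod

section SeqAlgebra

omit [PartialOrder B] [StarOrderedRing B]

theorem seqProd_nil {α : Type*} (X : α → ℕ → B) (k : ℕ) : seqProd [] X k = 1 := rfl

theorem seqProd_cons {α : Type*} (a : α) (L : List α) (X : α → ℕ → B) (k : ℕ) :
    seqProd (a :: L) X k = X a k * seqProd L X k := by
  simp [seqProd]

theorem seqProd_congr {α : Type*} {L : List α} {X Y : α → ℕ → B} (h : ∀ a ∈ L, X a = Y a) (k : ℕ) :
    seqProd L X k = seqProd L Y k := by
  unfold seqProd
  congr 1
  exact List.map_congr_left fun a ha => congrFun (h a ha) k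

theorem seqProd_mem {α : Type*} {I : Set B} (hI : IsClosedIdeal I) {L : List α} {X : α → ℕ → B}
    (k : ℕ) {a : α} (ha : a ∈ L) (h : X a k ∈ I) : seqProd L X k ∈ I := by
  induction L with
  | nil => simp at ha
  | cons b L ih =>
    rw [seqProd_cons]
    rcases List.mem_cons.1 ha with rfl | ha
    · exact hI.mul_right _ _ h
    · exact hI.mul_left _ _ (ih ha)

theorem AEq.abdd {X Y : ℕ → B} (h : AEq X Y) (hY : ABdd Y) : ABdd X := by
  obtain ⟨C, hC⟩ := hY
  obtain ⟨M, hM⟩ := h.bddAbove_range
  refine ⟨C + M, fun k => ?_⟩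
  calc ‖X k‖ = ‖Y k + (X k - Y k)‖ := by rw [add_sub_cancel]
    _ ≤ C + M := (norm_add_le _ _).trans (add_le_add (hC k) (hM ⟨k, rfl⟩))

theorem ABdd.sub {X Y : ℕ → B} (hX : ABdd X) (hY : ABdd Y) : ABdd (fun k => X k - Y k) := by
  obtain ⟨C, hC⟩ := hX
  obtain ⟨C', hC'⟩ := hY
  exact ⟨C + C', fun k => (norm_sub_le _ _).trans (add_le_add (hC k) (hC' k))⟩

theorem abdd_seqProd {α : Type*} (L : List α) {X : α → ℕ → B} (h : ∀ a ∈ L, ABdd (X a)) :
    ABdd (seqProd L X) := by
  induction L with
  | nil => exact abdd_const 1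
  | cons a L ih =>
    have := (h a List.mem_cons_self).mul (ih fun b hb => h b (List.mem_cons_of_mem _ hb))
    obtain ⟨C, hC⟩ := this
    exact ⟨C, fun k => by rw [seqProd_cons]; exact hC k⟩

theorem AComm.symm {X Y : ℕ → B} (h : AComm X Y) : AComm Y X := AEq.symm h

theorem AComm.one (Z : ℕ → B) : AComm (fun _ => (1 : B)) Z := AEq.of_eq fun k => by simp

theorem AComm.mul {X Y Z : ℕ → B} (h : AComm X Z) (h' : AComm Y Z) (hX : ABdd X) (hY : ABdd Y) :
    AComm (fun k => X k * Y k) Z :=
  ((AEq.of_eq fun k => by simp only [mul_assoc]).trans (h'.mul_left hX)).trans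
    ((AEq.of_eq fun k => by simp only [mul_assoc]).trans
      ((h.mul_right hY).trans (AEq.of_eq fun k => by simp only [mul_assoc])))

theorem AComm.add {X Y Z : ℕ → B} (h : AComm X Z) (h' : AComm Y Z) :
    AComm (fun k => X k + Y k) Z :=
  (AEq.of_eq fun k => by simp only [add_mul]).trans
    ((AEq.add h h').trans (AEq.of_eq fun k => by simp only [mul_add]))

theorem AComm.sub {X Y Z : ℕ → B} (h : AComm X Z) (h' : AComm Y Z) :
    AComm (fun k => X k - Y k) Z :=
  (AEq.of_eq fun k => by simp only [sub_mul]).trans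
    ((AEq.sub h h').trans (AEq.of_eq fun k => by simp only [mul_sub]))

theorem AComm.congr {X Y Z : ℕ → B} (h : AComm Y Z) (e : AEq X Y) (hZ : ABdd Z) : AComm X Z :=
  (e.mul_right hZ).trans (AEq.trans h (e.symm.mul_left hZ))

theorem AComm.seqProd {α : Type*} (L : List α) {X : α → ℕ → B} {Z : ℕ → B}
    (hX : ∀ a ∈ L, ABdd (X a)) (h : ∀ a ∈ L, AComm (X a) Z) : AComm (seqProd L X) Z := by
  induction L with
  | nil => exact AComm.one Z
  | cons a L ih =>
    have h1 := AComm.mul (h a List.mem_cons_self)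
      (ih (fun b hb => hX b (List.mem_cons_of_mem _ hb)) fun b hb => h b (List.mem_cons_of_mem _ hb))
      (hX a List.mem_cons_self) (abdd_seqProd L fun b hb => hX b (List.mem_cons_of_mem _ hb))
    exact (AEq.of_eq fun k => by rw [seqProd_cons]).trans
      (h1.trans (AEq.of_eq fun k => by rw [seqProd_cons]))

/-- The sequences obtained from the generators by the algebra operations. -/
inductive Gen {κ : Type*} (G : κ → ℕ → B) : (ℕ → B) → Prop
  | of (a : κ) : Gen G (G a)
  | one : Gen G (fun _ => (1 : B))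
  | mul {X Y : ℕ → B} : Gen G X → Gen G Y → Gen G (fun k => X k * Y k)
  | add {X Y : ℕ → B} : Gen G X → Gen G Y → Gen G (fun k => X k + Y k)
  | sub {X Y : ℕ → B} : Gen G X → Gen G Y → Gen G (fun k => X k - Y k)

theorem Gen.abdd {κ : Type*} {G : κ → ℕ → B} (hG : ∀ a, ABdd (G a)) {X : ℕ → B}
    (h : Gen G X) : ABdd X := by
  induction h with
  | of a => exact hG a
  | one => exact abdd_const 1
  | mul _ _ ih ih' => exact ih.mul ih'
  | add _ _ ih ih' => exact ih.add ih'
  | sub _ _ ih ih' => exact ih.sub ih'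

theorem Gen.acomm {κ : Type*} {G : κ → ℕ → B} (hG : ∀ a, ABdd (G a)) {X Z : ℕ → B}
    (h : Gen G X) (hZ : ∀ a, AComm (G a) Z) : AComm X Z := by
  induction h with
  | of a => exact hZ a
  | one => exact AComm.one Z
  | mul h h' ih ih' => exact ih.mul ih' (h.abdd hG) (h'.abdd hG)
  | add _ _ ih ih' => exact ih.add ih'
  | sub _ _ ih ih' => exact ih.sub ih'

theorem Gen.acomm_gen {κ : Type*} {G : κ → ℕ → B} (hG : ∀ a, ABdd (G a))
    (hc : ∀ a a', AComm (G a) (G a')) {X Y : ℕ → B} (h : Gen G X) (h' : Gen G Y) : AComm X Y :=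
  h.acomm hG fun a => (h'.acomm hG fun a' => hc a' a).symm

theorem Gen.seqProd {κ α : Type*} {G : κ → ℕ → B} (L : List α) {X : α → ℕ → B}
    (h : ∀ a ∈ L, Gen G (X a)) : Gen G (seqProd L X) := by
  induction L with
  | nil => exact Gen.one
  | cons a L ih =>
    have h1 := Gen.mul (h a List.mem_cons_self) (ih fun b hb => h b (List.mem_cons_of_mem _ hb))
    have e : FinDim.seqProd (a :: L) X = fun k => X a k * FinDim.seqProd L X k :=
      funext fun k => seqProd_cons a L X k
    rw [e]
    exact h1

theorem ENear.of_mem {L : ℕ → Set B} {X : ℕ → B} (h : ∀ k, X k ∈ L k) : ENear L X :=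
  fun η hη => Eventually.of_forall fun k => ⟨X k, h k, by simp [hη.le]⟩

theorem ENear.congr {L : ℕ → Set B} {X Y : ℕ → B} (h : ENear L Y) (e : AEq X Y) : ENear L X := by
  intro η hη
  filter_upwards [h (η / 2) (half_pos hη), e.eventually (half_pos hη)] with k hk hk'
  simpa using hk.of_norm_le hk'

theorem ENear.add {L : ℕ → Set B} (hL : ∀ k, IsClosedIdeal (L k)) {X Y : ℕ → B} (h : ENear L X)
    (h' : ENear L Y) : ENear L (fun k => X k + Y k) := by
  intro η hη
  filter_upwards [h (η / 2) (half_pos hη), h' (η / 2) (half_pos hη)] with k hk hk'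
  simpa using hk.add (hL k) hk'

theorem ENear.mul_left {L : ℕ → Set B} (hL : ∀ k, IsClosedIdeal (L k)) {X Z : ℕ → B}
    (h : ENear L X) (hZ : ABdd Z) : ENear L (fun k => Z k * X k) := by
  intro η hη
  obtain ⟨C, hC⟩ := hZ
  have hC0 : 0 ≤ C := (norm_nonneg _).trans (hC 0)
  filter_upwards [h (η / (C + 1)) (by positivity)] with k hk
  obtain ⟨Y, hY, hle⟩ := hk.mul_left (hL k) (Z k)
  refine ⟨Y, hY, hle.trans ?_⟩
  rw [mul_div_assoc', div_le_iff₀ (by positivity)]
  nlinarith [hC k]

theorem ENear.mul_right {L : ℕ → Set B} (hL : ∀ k, IsClosedIdeal (L k)) {X Z : ℕ → B}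
    (h : ENear L X) (hZ : ABdd Z) : ENear L (fun k => X k * Z k) := by
  intro η hη
  obtain ⟨C, hC⟩ := hZ
  have hC0 : 0 ≤ C := (norm_nonneg _).trans (hC 0)
  filter_upwards [h (η / (C + 1)) (by positivity)] with k hk
  obtain ⟨Y, hY, hle⟩ := hk.mul_right (hL k) (Z k)
  refine ⟨Y, hY, hle.trans ?_⟩
  rw [div_mul_eq_mul_div, div_le_iff₀ (by positivity)]
  nlinarith [hC k]

theorem ENear.neg {L : ℕ → Set B} (hL : ∀ k, IsClosedIdeal (L k)) {X : ℕ → B} (h : ENear L X) :
    ENear L (fun k => -X k) :=
  (h.mul_left hL (abdd_const (-1 : B))).congr (AEq.of_eq fun k => by simp)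

theorem ENear.sum {L : ℕ → Set B} (hL : ∀ k, IsClosedIdeal (L k)) {α : Type*} (s : Finset α)
    {X : α → ℕ → B} (h : ∀ a ∈ s, ENear L (X a)) : ENear L (fun k => ∑ a ∈ s, X a k) := by
  classical
  induction s using Finset.induction_on with
  | empty => exact ENear.of_mem fun k => by simpa using (hL k).zero_mem
  | insert a s ha ih =>
    simp only [Finset.sum_insert ha]
    exact (h a (Finset.mem_insert_self a s)).add hL
      (ih fun b hb => h b (Finset.mem_insert_of_mem hb))

end SeqAlgebra

/-- Several almost units, each asymptotically central for the others. -/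
theorem exists_qc_family {α : Type*} [Fintype α] {J : α → Set B} (hJ : ∀ a, IsClosedIdeal (J a))
    (F : Finset B) (G : α → Finset B) (hG : ∀ a, ∀ g ∈ G a, g ∈ J a) {τ : ℝ} (hτ : 0 < τ) :
    ∃ w : α → B, (∀ a, w a ∈ J a ∧ 0 ≤ w a ∧ w a ≤ 1 ∧ (∀ x ∈ F, ‖w a * x - x * w a‖ ≤ τ) ∧
      ∀ g ∈ G a, ‖w a * g - g‖ ≤ τ ∧ ‖g * w a - g‖ ≤ τ) ∧
      ∀ a a', ‖w a * w a' - w a' * w a‖ ≤ τ := by
  classical
  have step : ∀ s : Finset α, ∃ w : α → B, (∀ a ∈ s, w a ∈ J a ∧ 0 ≤ w a ∧ w a ≤ 1 ∧
      (∀ x ∈ F, ‖w a * x - x * w a‖ ≤ τ) ∧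
      ∀ g ∈ G a, ‖w a * g - g‖ ≤ τ ∧ ‖g * w a - g‖ ≤ τ) ∧
      ∀ a ∈ s, ∀ a' ∈ s, ‖w a * w a' - w a' * w a‖ ≤ τ := by
    intro s
    induction s using Finset.induction_on with
    | empty => exact ⟨0, by simp, by simp⟩
    | insert b s hb ih =>
      obtain ⟨w, hw, hww⟩ := ih
      obtain ⟨v, hvJ, hv0, hv1, hvF, hvG⟩ :=
        exists_quasicentral (hJ b) (F ∪ s.image w) (G b) (hG b) hτ
      have hne : ∀ a ∈ s, Function.update w b v a = w a := fun a ha =>
        Function.update_of_ne (fun h => hb (by rw [← h]; exact ha)) _ _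
      refine ⟨Function.update w b v, fun a ha => ?_, fun a ha a' ha' => ?_⟩
      · by_cases hab : a = b
        · subst hab
          rw [Function.update_self]
          exact ⟨hvJ, hv0, hv1, fun x hx => hvF x (Finset.mem_union_left _ hx), hvG⟩
        · have hs : a ∈ s := (Finset.mem_insert.1 ha).resolve_left hab
          rw [hne a hs]
          exact hw a hs
      · by_cases hab : a = b
        · by_cases hab' : a' = b
          · rw [hab, hab', sub_self, norm_zero]
            exact hτ.le
          · have hs' : a' ∈ s := (Finset.mem_insert.1 ha').resolve_left hab'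
            rw [hab, Function.update_self, hne a' hs']
            exact hvF _ (Finset.mem_union_right _ (Finset.mem_image_of_mem _ hs'))
        · have hs : a ∈ s := (Finset.mem_insert.1 ha).resolve_left hab
          by_cases hab' : a' = b
          · rw [hab', Function.update_self, hne a hs, norm_sub_rev]
            exact hvF _ (Finset.mem_union_right _ (Finset.mem_image_of_mem _ hs))
          · have hs' : a' ∈ s := (Finset.mem_insert.1 ha').resolve_left hab'
            rw [hne a hs, hne a' hs']
            exact hww a hs a' hs'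
  obtain ⟨w, hw, hww⟩ := step Finset.univ
  exact ⟨w, fun a => hw a (Finset.mem_univ a),
    fun a a' => hww a (Finset.mem_univ a) a' (Finset.mem_univ a')⟩

/-- A function vanishing at zero kills what `u` kills. -/
theorem AEq.cfc_zero {u Y : ℕ → B} (h0 : ∀ k, 0 ≤ u k) (h1 : ∀ k, u k ≤ 1) (hY : ABdd Y)
    (h : AEq (fun k => Y k * u k) (fun _ => (0 : B))) {f : ℝ → ℝ} (hf : Continuous f)
    (hf0 : f 0 = 0) : AEq (fun k => Y k * cfc f (u k)) (fun _ => (0 : B)) := by
  have hu : ABdd u := ⟨1, fun k => qc_norm_le_one (h0 k) (h1 k)⟩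
  have hpow : ∀ n : ℕ, AEq (fun k => Y k * u k ^ (n + 1)) (fun _ => (0 : B)) := by
    intro n
    induction n with
    | zero => exact (AEq.of_eq fun k => by simp).trans h
    | succ n ih =>
      exact ((AEq.of_eq fun k => by simp only [pow_succ _ (n + 1), mul_assoc]).trans
        (ih.mul_right (Z := u) hu)).trans (AEq.of_eq fun k => by simp)
  obtain ⟨C, hC⟩ := hY
  have hC0 : 0 ≤ C := (norm_nonneg _).trans (hC 0)
  refine AEq.of_approx fun ε hε => ?_
  set δ : ℝ := ε / (2 * (C + 1)) with hδdef
  have hδ : 0 < δ := by positivity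
  obtain ⟨p, hp1, hp⟩ := qc_exists_poly (B := B) hf hδ
  refine ⟨fun k => ∑ i ∈ Finset.range p.natDegree, p.coeff (i + 1) • (Y k * u k ^ (i + 1)),
    fun _ => 0, (AEq.sum _ fun i _ => (hpow i).smul _).trans (AEq.of_eq fun k => by simp),
    fun k => ⟨?_, by simp [hε.le]⟩⟩
  dsimp only
  have e : (∑ i ∈ Finset.range p.natDegree, p.coeff (i + 1) • (Y k * u k ^ (i + 1))) =
      Y k * (∑ i ∈ Finset.range (p.natDegree + 1), p.coeff i • u k ^ i) - p.coeff 0 • Y k := by
    rw [Finset.sum_range_succ', mul_add, Finset.mul_sum]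
    simp [mul_smul_comm]
  have hc0 : |p.coeff 0| ≤ δ := by
    have := hp1 0 (by simp)
    rw [hf0, sub_zero, ← Polynomial.coeff_zero_eq_eval_zero] at this
    exact this
  rw [e, ← sub_add, ← mul_sub]
  refine (norm_add_le _ _).trans ?_
  have a1 : ‖Y k * (cfc f (u k) - ∑ i ∈ Finset.range (p.natDegree + 1), p.coeff i • u k ^ i)‖
      ≤ C * δ :=
    (norm_mul_le _ _).trans (mul_le_mul (hC k) (hp _ (h0 k) (h1 k)) (norm_nonneg _) hC0)
  have a2 : ‖p.coeff 0 • Y k‖ ≤ δ * C := by
    rw [norm_smul, Real.norm_eq_abs]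
    exact mul_le_mul hc0 (hC k) (norm_nonneg _) hδ.le
  have a3 : 2 * (C + 1) * δ = ε := by
    rw [hδdef]; field_simp
  nlinarith

/-- A function of `u` acts as its value at `1` modulo `L` where `u` acts as the unit. -/
theorem enear_cfc_unit {u : ℕ → B} {x : B} (h0 : ∀ k, 0 ≤ u k) (h1 : ∀ k, u k ≤ 1)
    {L : ℕ → Set B} (hL : ∀ k, IsClosedIdeal (L k))
    (h : ENear L (fun k => x - x * u k)) {f : ℝ → ℝ} (hf : Continuous f) :
    ENear L (fun k => x * cfc f (u k) - f 1 • x) := by
  have hu : ABdd u := ⟨1, fun k => qc_norm_le_one (h0 k) (h1 k)⟩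
  have hxu : ENear L (fun k => x * u k - x) := (h.neg hL).congr (AEq.of_eq fun k => by simp)
  have hpow : ∀ n : ℕ, ENear L (fun k => x * u k ^ n - x) := by
    intro n
    induction n with
    | zero => exact ENear.of_mem fun k => by simpa using (hL k).zero_mem
    | succ n ih =>
      exact ((ih.mul_right hL hu).add hL hxu).congr (AEq.of_eq fun k => by
        simp only [pow_succ, sub_mul, mul_assoc]; abel)
  intro η hη
  set δ : ℝ := η / (4 * (‖x‖ + 1)) with hδdef
  have hδ : 0 < δ := by positivity
  obtain ⟨p, hp1, hp⟩ := qc_exists_poly (B := B) hf hδ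
  have hpoly : ENear L (fun k => ∑ i ∈ Finset.range (p.natDegree + 1),
      sc (p.coeff i) * (x * u k ^ i - x)) :=
    ENear.sum hL _ fun i _ => (hpow i).mul_left hL (abdd_const (sc (p.coeff i)))
  filter_upwards [hpoly (η / 2) (half_pos hη)] with k hk
  have e : (∑ i ∈ Finset.range (p.natDegree + 1), sc (p.coeff i) * (x * u k ^ i - x)) =
      x * (∑ i ∈ Finset.range (p.natDegree + 1), p.coeff i • u k ^ i) - p.eval 1 • x := by
    rw [Polynomial.eval_eq_sum_range, Finset.sum_smul, Finset.mul_sum, ← Finset.sum_sub_distrib]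
    refine Finset.sum_congr rfl fun i _ => ?_
    simp [sc, ← Algebra.smul_def, smul_sub, mul_smul_comm]
  rw [e] at hk
  set q : B := ∑ i ∈ Finset.range (p.natDegree + 1), p.coeff i • u k ^ i with hq
  have hb : ‖(x * cfc f (u k) - f 1 • x) - (x * q - p.eval 1 • x)‖ ≤ η / 2 := by
    have e2 : (x * cfc f (u k) - f 1 • x) - (x * q - p.eval 1 • x) =
        x * (cfc f (u k) - q) + (p.eval 1 - f 1) • x := by
      rw [mul_sub, sub_smul]; abel
    rw [e2]
    refine (norm_add_le _ _).trans ?_
    have a1 : ‖x * (cfc f (u k) - q)‖ ≤ ‖x‖ * δ :=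
      (norm_mul_le _ _).trans (mul_le_mul_of_nonneg_left (hp _ (h0 k) (h1 k)) (norm_nonneg _))
    have a2 : ‖(p.eval 1 - f 1) • x‖ ≤ δ * ‖x‖ := by
      rw [norm_smul, Real.norm_eq_abs]
      exact mul_le_mul_of_nonneg_right (hp1 1 (by simp)) (norm_nonneg _)
    have a3 : 4 * (‖x‖ + 1) * δ = η := by
      rw [hδdef]; field_simp
    nlinarith
  simpa using hk.of_norm_le hb

/-- Multiplicity follows from vanishing of the plain products. -/
theorem multLE_of_prod {ι : Type*} [Fintype ι] {J : ι → Set B} {F : Set B} {j : ι → B}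
    (S : QCSystem J F j) (d : ℕ)
    (h : ∀ T : Finset ι, T.card = d + 2 → AEq (seqProd T.toList S.w) (fun _ => (0 : B))) :
    MultLE S d := by
  classical
  intro T hT f hf hf0
  have hperm : ∀ L L' : List ι, L.Perm L' → AEq (S.listSeq L f) (S.listSeq L' f) := by
    intro L L' hp
    induction hp with
    | nil => exact AEq.refl _
    | cons a _ ih =>
      exact ((AEq.of_eq fun k => S.listSeq_cons a _ f k).trans
        (ih.mul_left (S.abdd_factor hf a))).trans (AEq.of_eq fun k => (S.listSeq_cons a _ f k).symm)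
    | swap a b L =>
      exact ((AEq.of_eq fun k => by simp only [QCSystem.listSeq_cons, mul_assoc]).trans
        ((S.factor_comm hf hf b a).mul_right (S.abdd_listSeq L hf))).trans
          (AEq.of_eq fun k => by simp only [QCSystem.listSeq_cons, mul_assoc])
    | trans _ _ ih ih' => exact ih.trans ih'
  have hw : ∀ i, ABdd (S.w i) := fun i =>
    ⟨1, fun k => qc_norm_le_one (S.nonneg i k) (S.le_one i k)⟩
  have hfw : ∀ a i, AComm (fun k => cfc (f a) (S.w a k)) (S.w i) := fun a i =>
    AEq.cfc_comm (S.nonneg a) (S.le_one a) (hw i) (S.mutual_comm a i) (hf a).1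
  have key : ∀ L : List ι, (∀ i ∈ L, f i 0 = 0) → ∀ Z : ℕ → B, ABdd Z →
      AEq (fun k => Z k * seqProd L S.w k) (fun _ => (0 : B)) →
      AEq (fun k => Z k * S.listSeq L f k) (fun _ => (0 : B)) := by
    intro L
    induction L with
    | nil => intro _ Z _ hz; exact hz
    | cons a L ih =>
      intro h0 Z hZ hz
      have hP : ABdd (seqProd L S.w) := abdd_seqProd L fun i _ => hw i
      have c1 : AComm (seqProd L S.w) (S.w a) :=
        AComm.seqProd L (fun i _ => hw i) fun i _ => S.mutual_comm i a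
      have hY : AEq (fun k => (Z k * seqProd L S.w k) * S.w a k) (fun _ => (0 : B)) :=
        ((AEq.of_eq fun k => by simp only [mul_assoc]).trans (AEq.mul_left c1 hZ)).trans
          ((AEq.of_eq fun k => by simp only [seqProd_cons]).trans hz)
      have hY' := AEq.cfc_zero (S.nonneg a) (S.le_one a) (hZ.mul hP) hY (hf a).1
        (h0 a List.mem_cons_self)
      have c2 : AComm (seqProd L S.w) (fun k => cfc (f a) (S.w a k)) :=
        AComm.seqProd L (fun i _ => hw i) fun i _ => (hfw a i).symm
      have h2 : AEq (fun k => Z k * cfc (f a) (S.w a k) * seqProd L S.w k)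
          (fun _ => (0 : B)) :=
        ((AEq.of_eq fun k => by simp only [mul_assoc]).trans (AEq.mul_left c2.symm hZ)).trans
          ((AEq.of_eq fun k => by simp only [mul_assoc]).trans hY')
      exact (AEq.of_eq fun k => by simp only [QCSystem.listSeq_cons, mul_assoc]).trans
        (ih (fun i hi => h0 i (List.mem_cons_of_mem _ hi)) _ (hZ.mul (S.abdd_factor hf a)) h2)
  have hT0 : AEq (S.listSeq T.toList f) (fun _ => (0 : B)) := by
    have h2 := key T.toList (fun i hi => hf0 i (Finset.mem_toList.1 hi)) (fun _ => 1)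
      (abdd_const 1) ((AEq.of_eq fun k => by simp).trans (h T hT))
    exact (AEq.of_eq fun k => by simp).trans h2
  have hp : (Finset.univ : Finset ι).toList.Perm (T.toList ++ (Tᶜ).toList) := by
    refine (List.perm_ext_iff_of_nodup (Finset.nodup_toList _) ?_).2 fun i => ?_
    · refine List.nodup_append.2 ⟨Finset.nodup_toList _, Finset.nodup_toList _, fun a ha b hb => ?_⟩
      rintro rfl
      exact Finset.mem_compl.1 (Finset.mem_toList.1 hb) (Finset.mem_toList.1 ha)
    · simp [em]
  rw [S.prodSeq_eq_listSeq]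
  exact ((hperm _ _ hp).trans (AEq.of_eq fun k => by
      simp [QCSystem.listSeq, List.map_append, List.prod_append])).trans
    ((hT0.mul_right (S.abdd_listSeq (Tᶜ).toList hf)).trans (AEq.of_eq fun k => by simp))

/-- Exact vanishing of intersections gives multiplicity at most `d + 1`. -/
theorem multLE_of_inter {ι : Type*} [Fintype ι] {J : ι → Set B} {F : Set B} {j : ι → B}
    (S : QCSystem J F j) (d : ℕ) (hJ : ∀ i, IsClosedIdeal (J i))
    (hJzero : ∀ T : Finset ι, T.card = d + 2 → ∀ x : B, (∀ i ∈ T, x ∈ J i) → x = 0) :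
    MultLE S d := by
  intro T hT f hf hf0
  exact AEq.of_eq fun k => hJzero T hT _ fun i hi =>
    S.prodSeq_mem hf i (hJ i) (hf0 i hi) k

/-- The system of a refinement in stages: `w i` lies in `I i`, has multiplicity at most `d + 1`,
and acts as a unit on `j s i` modulo `K s`. -/
theorem exists_stratSystem {ι : Type} [Fintype ι] {I : ι → Set B} (hI : ∀ i, IsClosedIdeal (I i))
    {b : B} {ε : ℝ} {d : ℕ} (D : StratRefinement I b ε d) {F : Set B} (hF : F.Finite) :
    ∃ S : QCSystem I F (fun _ => (0 : B)), MultLE S d ∧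
      ∀ s, s ≤ D.S → ∀ i, ∀ η : ℝ, 0 < η → ∀ᶠ k in atTop,
        Near (D.K s) η (D.j s i - D.j s i * S.w i k) := by
  classical
  set G₀ : Finset B := hF.toFinset ∪
    Finset.univ.image (fun q : Fin (D.S + 1) × ι => D.j q.1 q.2) with hG₀
  choose W hW hWW using fun k : ℕ =>
    exists_qc_family (J := fun q : Fin (D.S + 1) × ι => D.J q.1 q.2)
      (fun q => (D.J_ideal q.1 q.2).1) G₀ (fun q => {D.j q.1 q.2}) (fun q g hg => by
        rw [Finset.mem_singleton.1 hg]
        exact D.j_mem q.1 q.2) (τ := 1 / (k + 1 : ℝ)) (by positivity)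
  let g : ℕ → Fin (D.S + 1) → Finset B := fun k s =>
    ((Finset.univ : Finset (Finset ι × (ι → Fin (D.S + 1)))).filter fun q =>
      q.1.card = d + 2 ∧ ∃ i₀ ∈ q.1, q.2 i₀ = s ∧ ∀ i ∈ q.1, s ≤ q.2 i).image
      fun q => seqProd q.1.toList (fun i (k' : ℕ) => W k' (q.2 i, i)) k
  have hg : ∀ k s, ∀ x ∈ g k s, x ∈ D.K s := by
    intro k s x hx
    obtain ⟨⟨T, σ⟩, hq, rfl⟩ := Finset.mem_image.1 hx
    obtain ⟨hT, i₀, hi₀, rfl, hmin⟩ := (Finset.mem_filter.1 hq).2
    refine D.mult T hT (fun i => (σ i : ℕ)) (fun i _ => Fin.is_le _) i₀ hi₀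
      (fun i hi => hmin i hi) _ fun i hi => ?_
    exact seqProd_mem (D.J_ideal _ i).1 k (Finset.mem_toList.2 hi) (hW k (σ i, i)).1
  choose E hE hEE using fun k : ℕ =>
    exists_qc_family (J := fun s : Fin (D.S + 1) => D.K s) (fun s => D.K_ideal s)
      (G₀ ∪ Finset.univ.image (W k)) (g k) (hg k) (τ := 1 / (k + 1 : ℝ)) (by positivity)
  have hlim : Tendsto (fun k : ℕ => 1 / (k + 1 : ℝ)) atTop (𝓝 0) :=
    tendsto_one_div_add_atTop_nhds_zero_nat
  have mkAEq : ∀ {X Y : ℕ → B}, (∀ k, ‖X k - Y k‖ ≤ 1 / (k + 1 : ℝ)) → AEq X Y :=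
    fun {X Y} h => squeeze_zero (fun k => norm_nonneg _) h hlim
  let Γ : (Fin (D.S + 1) × ι) ⊕ Fin (D.S + 1) → ℕ → B :=
    Sum.elim (fun q k => W k q) (fun s k => E k s)
  have hΓ : ∀ a, ABdd (Γ a) := by
    rintro (q | s)
    · exact ⟨1, fun k => qc_norm_le_one (hW k q).2.1 (hW k q).2.2.1⟩
    · exact ⟨1, fun k => qc_norm_le_one (hE k s).2.1 (hE k s).2.2.1⟩
  have hΓc : ∀ a a', AComm (Γ a) (Γ a') := by
    rintro (q | s) (q' | s')
    · exact mkAEq fun k => hWW k q q'
    · exact (mkAEq fun k => (hE k s').2.2.2.1 (W k q)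
        (Finset.mem_union_right _ (Finset.mem_image_of_mem _ (Finset.mem_univ _)))).symm
    · exact mkAEq fun k => (hE k s).2.2.2.1 (W k q')
        (Finset.mem_union_right _ (Finset.mem_image_of_mem _ (Finset.mem_univ _)))
    · exact mkAEq fun k => hEE k s s'
  have hΓx : ∀ x ∈ G₀, ∀ a, AComm (Γ a) (fun _ => x) := by
    rintro x hx (q | s)
    · exact mkAEq fun k => (hW k q).2.2.2.1 x hx
    · exact mkAEq fun k => (hE k s).2.2.2.1 x (Finset.mem_union_left _ hx)
  have gcomm : ∀ {X Y : ℕ → B}, Gen Γ X → Gen Γ Y → AComm X Y := fun {X Y} hX hY =>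
    hX.acomm_gen hΓ hΓc hY
  let A : Fin (D.S + 1) → ℕ → B := fun s k => 1 - E k s
  have hA : ∀ s, Gen Γ (A s) := fun s => Gen.sub Gen.one (Gen.of (Sum.inr s))
  have hA0 : ∀ s k, 0 ≤ A s k ∧ A s k ≤ 1 := fun s k =>
    ⟨sub_nonneg.2 (hE k s).2.2.1, sub_le_self _ (hE k s).2.1⟩
  let V : Fin (D.S + 1) → ι → ℕ → B := fun s i k => A s k * W k (s, i) * A s k
  have hV : ∀ s i, Gen Γ (V s i) := fun s i =>
    Gen.mul (Gen.mul (hA s) (Gen.of (Sum.inl (s, i)))) (hA s)
  have hV0 : ∀ s i k, 0 ≤ V s i k ∧ V s i k ≤ 1 := by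
    intro s i k
    have hsa : star (A s k) = A s k := (hA0 s k).1.isSelfAdjoint.star_eq
    have h2 : A s k * W k (s, i) * A s k ≤ A s k * 1 * A s k := by
      have := star_left_conjugate_le_conjugate (hW k (s, i)).2.2.1 (A s k)
      rwa [hsa] at this
    refine ⟨?_, h2.trans ?_⟩
    · have := star_left_conjugate_nonneg (hW k (s, i)).2.1 (A s k)
      rwa [hsa] at this
    · have := qc_sq_le_self (hA0 s k).1 (hA0 s k).2
      rw [hsa] at this
      rw [mul_one]
      exact this.trans (hA0 s k).2
  let U : ι → Fin (D.S + 1) → ℕ → B := fun i s k => 1 - V s i k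
  have hU : ∀ i s, Gen Γ (U i s) := fun i s => Gen.sub Gen.one (hV s i)
  let P : ι → ℕ → B := fun i => seqProd (List.finRange (D.S + 1)) (U i)
  have hP : ∀ i, Gen Γ (P i) := fun i => Gen.seqProd _ fun s _ => hU i s
  have hU0 : ∀ i s k, 0 ≤ U i s k ∧ U i s k ≤ 1 := fun i s k =>
    ⟨sub_nonneg.2 (hV0 s i k).2, sub_le_self _ (hV0 s i k).1⟩
  have hPnorm : ∀ i k, ‖P i k‖ ≤ 1 := by
    intro i k
    show ‖seqProd (List.finRange (D.S + 1)) (U i) k‖ ≤ 1
    induction List.finRange (D.S + 1) with
    | nil => exact qc_norm_one_le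
    | cons s L ih =>
      rw [seqProd_cons]
      exact (norm_mul_le _ _).trans
        (mul_le_one₀ (qc_norm_le_one (hU0 i s k).1 (hU0 i s k).2) (norm_nonneg _) ih)
  have hPstar : ∀ i, AEq (fun k => star (P i k)) (P i) := by
    intro i
    show AEq (fun k => star (seqProd (List.finRange (D.S + 1)) (U i) k))
      (seqProd (List.finRange (D.S + 1)) (U i))
    induction List.finRange (D.S + 1) with
    | nil => exact AEq.of_eq fun k => by simp [seqProd_nil]
    | cons s L ih =>
      exact ((AEq.of_eq fun k => by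
          rw [seqProd_cons, star_mul, (hU0 i s k).1.isSelfAdjoint.star_eq]).trans
        (ih.mul_right ((hU i s).abdd hΓ))).trans
          ((gcomm (Gen.seqProd L fun t _ => hU i t) (hU i s)).trans
            (AEq.of_eq fun k => by rw [seqProd_cons]))
  let w : ι → ℕ → B := fun i k => 1 - star (P i k) * P i k
  let w' : ι → ℕ → B := fun i k => 1 - P i k * P i k
  have hw' : ∀ i, Gen Γ (w' i) := fun i => Gen.sub Gen.one (Gen.mul (hP i) (hP i))
  have hww' : ∀ i, AEq (w i) (w' i) := fun i =>
    (AEq.refl (fun _ => (1 : B))).sub ((hPstar i).mul_right ((hP i).abdd hΓ))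
  have hwb : ∀ i, ABdd (w i) := fun i => (hww' i).abdd ((hw' i).abdd hΓ)
  have hwgen : ∀ i {X : ℕ → B}, Gen Γ X → AComm (w i) X := fun i {X} hX =>
    (gcomm (hw' i) hX).congr (hww' i) (hX.abdd hΓ)
  have hwc : ∀ i i', AComm (w i) (w i') := fun i i' =>
    ((hwgen i' (hw' i)).symm).congr (hww' i) (hwb i')
  have hwx : ∀ i, ∀ x ∈ G₀, AComm (w i) (fun _ => x) := fun i x hx =>
    ((hw' i).acomm hΓ (hΓx x hx)).congr (hww' i) (abdd_const x)
  have h1P : ∀ i k, 1 - P i k ∈ I i := by
    intro i k
    show 1 - seqProd (List.finRange (D.S + 1)) (U i) k ∈ I i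
    induction List.finRange (D.S + 1) with
    | nil => simpa [seqProd_nil] using (hI i).zero_mem
    | cons s L ih =>
      have e : 1 - seqProd (s :: L) (U i) k =
          (1 - seqProd L (U i) k) + V s i k * seqProd L (U i) k := by
        rw [seqProd_cons]; simp only [U, sub_mul, one_mul]; abel
      rw [e]
      refine (hI i).add_mem _ ih _ ((hI i).mul_right _ _ ?_)
      exact (hI i).mul_right _ _ ((hI i).mul_left _ _ ((D.J_ideal s i).2 (hW k (s, i)).1))
  let S : QCSystem I F (fun _ => (0 : B)) :=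
    { w := w
      mem := fun i k => by
        have e : w i k = (1 - star (P i k)) + star (P i k) * (1 - P i k) := by
          simp only [w, mul_sub, mul_one]; abel
        rw [e]
        refine (hI i).add_mem _ ?_ _ ((hI i).mul_left _ _ (h1P i k))
        simpa using (hI i).star_mem (h1P i k)
      nonneg := fun i k => by
        refine sub_nonneg.2 ?_
        have := le_sc_of_norm_le (IsSelfAdjoint.star_mul_self (P i k)) (r := 1) (by
          rw [CStarRing.norm_star_mul_self]
          exact mul_le_one₀ (hPnorm i k) (norm_nonneg _) (hPnorm i k))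
        simpa [sc] using this
      le_one := fun i k => sub_le_self _ (star_mul_self_nonneg _)
      comm := fun i X hX => hwx i X (Finset.mem_union_left _ (hF.mem_toFinset.2 hX))
      mutual_comm := hwc
      unit_left := fun i => AEq.of_eq fun k => by simp
      unit_right := fun i => AEq.of_eq fun k => by simp }
  refine ⟨S, multLE_of_prod S d fun T hT => ?_, fun s hs i => ?_⟩
  · -- multiplicity
    have hdec : ∀ i, ∃ C : Fin (D.S + 1) → ℕ → B, (∀ s, Gen Γ (C s)) ∧
        AEq (w i) (fun k => ∑ s, V s i k * C s k) := by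
      intro i
      have hL : ∀ L : List (Fin (D.S + 1)), L.Nodup → ∃ C : Fin (D.S + 1) → ℕ → B,
          (∀ s, Gen Γ (C s)) ∧ ∀ k, 1 - seqProd L (U i) k = ∑ s ∈ L.toFinset, V s i k * C s k := by
        intro L
        induction L with
        | nil => exact fun _ => ⟨fun _ _ => 1, fun _ => Gen.one, fun k => by simp [seqProd_nil]⟩
        | cons s L ih =>
          intro hnd
          obtain ⟨hs', hnd'⟩ := List.nodup_cons.1 hnd
          obtain ⟨C, hC, hsum⟩ := ih hnd'
          refine ⟨Function.update C s (seqProd L (U i)), fun t => ?_, fun k => ?_⟩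
          · by_cases ht : t = s
            · subst ht
              rw [Function.update_self]
              exact Gen.seqProd L fun u _ => hU i u
            · rw [Function.update_of_ne ht]
              exact hC t
          · rw [List.toFinset_cons, Finset.sum_insert (by simpa using hs'), Function.update_self,
              seqProd_cons]
            have e2 : ∀ t ∈ L.toFinset, V t i k * Function.update C s (seqProd L (U i)) t k =
                V t i k * C t k := fun t ht => by
              rw [Function.update_of_ne]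
              rintro rfl
              exact hs' (by simpa using ht)
            rw [Finset.sum_congr rfl e2, ← hsum k]
            simp only [U, sub_mul, one_mul]
            abel
      obtain ⟨C, hC, hsum⟩ := hL _ (List.nodup_finRange _)
      refine ⟨fun s k => C s k * (1 + P i k), fun s => Gen.mul (hC s) (Gen.add Gen.one (hP i)),
        (hww' i).trans (AEq.of_eq fun k => ?_)⟩
      have h2 : 1 - P i k = ∑ s, V s i k * C s k := by
        have := hsum k
        rwa [Finset.eq_univ_of_forall fun t => List.mem_toFinset.2 (List.mem_finRange t)] at this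
      rw [show (∑ s, V s i k * (C s k * (1 + P i k))) = (∑ s, V s i k * C s k) * (1 + P i k) by
        simp only [Finset.sum_mul, mul_assoc], ← h2]
      simp only [w', mul_add, sub_mul, mul_one, one_mul]
      abel
    have key : ∀ L : List ι, L.Nodup → ∀ Z : ℕ → B, ABdd Z →
        (∀ σ : ι → Fin (D.S + 1),
          AEq (fun k => Z k * seqProd L (fun i => V (σ i) i) k) (fun _ => (0 : B))) →
        AEq (fun k => Z k * seqProd L w k) (fun _ => (0 : B)) := by
      intro L
      induction L with
      | nil => exact fun _ Z _ h => h (fun _ => 0)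
      | cons i L ih =>
        intro hnd Z hZ h
        obtain ⟨hi', hnd'⟩ := List.nodup_cons.1 hnd
        obtain ⟨C, hC, hCs⟩ := hdec i
        have hPw : ABdd (seqProd L w) := abdd_seqProd L fun t _ => hwb t
        have hstep : ∀ s, AEq (fun k => Z k * (V s i k * C s k) * seqProd L w k)
            (fun _ => (0 : B)) := by
          intro s
          have hcomm : AComm (seqProd L w) (C s) :=
            AComm.seqProd L (fun t _ => hwb t) fun t _ => hwgen t (hC s)
          have hrec := ih hnd' (fun k => Z k * V s i k) (hZ.mul ((hV s i).abdd hΓ)) fun σ => by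
            refine (AEq.of_eq fun k => ?_).trans (h (Function.update σ i s))
            rw [seqProd_cons, Function.update_self, mul_assoc]
            congr 2
            refine seqProd_congr (fun t ht => ?_) k
            rw [Function.update_of_ne]
            rintro rfl
            exact hi' ht
          exact ((AEq.of_eq fun k => by simp only [mul_assoc]).trans
            (AEq.mul_left hcomm.symm (hZ.mul ((hV s i).abdd hΓ)))).trans
              ((AEq.of_eq fun k => by simp only [mul_assoc]).trans
                ((hrec.mul_right ((hC s).abdd hΓ)).trans (AEq.of_eq fun k => by simp)))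
        exact ((AEq.of_eq fun k => by rw [seqProd_cons]).trans
          ((hCs.mul_right hPw).mul_left hZ)).trans
            ((AEq.of_eq fun k => by simp only [Finset.mul_sum, Finset.sum_mul, mul_assoc]).trans
              ((AEq.sum Finset.univ fun s _ => hstep s).trans (AEq.of_eq fun k => by simp)))
    have hTne : T.Nonempty := Finset.card_pos.1 (by omega)
    have hVkill : ∀ σ : ι → Fin (D.S + 1),
        AEq (seqProd T.toList (fun i => V (σ i) i)) (fun _ => (0 : B)) := by
      intro σ
      obtain ⟨i₀, hi₀, hmin⟩ := Finset.exists_min_image T σ hTne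
      let Wσ : ι → ℕ → B := fun i k => W k (σ i, i)
      have hWσ : ∀ i, Gen Γ (Wσ i) := fun i => Gen.of (Sum.inl (σ i, i))
      have hLk : ∀ L : List ι, ∃ C : ℕ → B, Gen Γ C ∧
          AEq (seqProd L (fun i => V (σ i) i)) (fun k => C k * seqProd L Wσ k) ∧
          (i₀ ∈ L → ∃ C' : ℕ → B, Gen Γ C' ∧ AEq C (fun k => C' k * A (σ i₀) k)) := by
        intro L
        induction L with
        | nil => exact ⟨fun _ => 1, Gen.one, AEq.of_eq fun k => by simp [seqProd_nil], by simp⟩
        | cons i L ih =>
          obtain ⟨C, hC, hCL, hC'⟩ := ih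
          refine ⟨fun k => A (σ i) k * A (σ i) k * C k, Gen.mul (Gen.mul (hA _) (hA _)) hC,
            ?_, ?_⟩
          · have c : AComm (Wσ i) (fun k => A (σ i) k * C k) :=
              gcomm (hWσ i) (Gen.mul (hA _) hC)
            have hWL : ABdd (seqProd L Wσ) := (Gen.seqProd L fun t _ => hWσ t).abdd hΓ
            have c' : AEq (fun k => A (σ i) k * (Wσ i k * (A (σ i) k * C k) * seqProd L Wσ k))
                (fun k => A (σ i) k * ((A (σ i) k * C k) * Wσ i k * seqProd L Wσ k)) :=
              (AEq.mul_right c hWL).mul_left ((hA (σ i)).abdd hΓ)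
            refine (((AEq.of_eq fun k => by rw [seqProd_cons]).trans
              (hCL.mul_left ((hV (σ i) i).abdd hΓ))).trans (AEq.of_eq fun k => ?_)).trans
              (c'.trans (AEq.of_eq fun k => ?_))
            · simp only [V, Wσ, mul_assoc]
            · simp only [Wσ, seqProd_cons, mul_assoc]
          · intro hmem
            by_cases hi : i₀ = i
            · subst hi
              refine ⟨fun k => A (σ i₀) k * C k, Gen.mul (hA _) hC, ?_⟩
              exact (AEq.of_eq fun k => by simp only [mul_assoc]).trans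
                (((gcomm (hA (σ i₀)) hC).mul_left ((hA (σ i₀)).abdd hΓ)).trans
                  (AEq.of_eq fun k => by simp only [mul_assoc]))
            · obtain ⟨C', hC'g, hCe⟩ := hC' ((List.mem_cons.1 hmem).resolve_left hi)
              exact ⟨fun k => A (σ i) k * A (σ i) k * C' k, Gen.mul (Gen.mul (hA _) (hA _)) hC'g,
                (hCe.mul_left (((hA _).abdd hΓ).mul ((hA _).abdd hΓ))).trans
                  (AEq.of_eq fun k => by simp only [mul_assoc])⟩
      obtain ⟨C, hC, hCL, hC'⟩ := hLk T.toList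
      obtain ⟨C', hC'g, hCe⟩ := hC' (Finset.mem_toList.2 hi₀)
      have hAW : AEq (fun k => A (σ i₀) k * seqProd T.toList Wσ k) (fun _ => (0 : B)) := by
        refine mkAEq fun k => ?_
        rw [sub_zero, sub_mul, one_mul, norm_sub_rev]
        refine ((hE k (σ i₀)).2.2.2.2 _ (Finset.mem_image.2 ⟨(T, σ), ?_, rfl⟩)).1
        exact Finset.mem_filter.2 ⟨Finset.mem_univ _, hT, i₀, hi₀, rfl, hmin⟩
      exact ((hCL.trans (hCe.mul_right ((Gen.seqProd _ fun t _ => hWσ t).abdd hΓ))).trans
        (AEq.of_eq fun k => by simp only [mul_assoc])).trans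
          ((hAW.mul_left (hC'g.abdd hΓ)).trans (AEq.of_eq fun k => by simp))
    exact (AEq.of_eq fun k => by simp [S]).trans
      (key T.toList (Finset.nodup_toList T) (fun _ => 1) (abdd_const 1) fun σ =>
        (AEq.of_eq fun k => by simp).trans (hVkill σ))
  · -- unit
    let t : Fin (D.S + 1) := ⟨s, by omega⟩
    let x : B := D.j t i
    show ENear (fun _ => D.K t) (fun k => x - x * w i k)
    have hK : ∀ _k : ℕ, IsClosedIdeal (D.K t) := fun _ => D.K_ideal t
    have hxG : x ∈ G₀ :=
      Finset.mem_union_right _ (Finset.mem_image.2 ⟨(t, i), Finset.mem_univ _, rfl⟩)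
    have hxg : ∀ {X : ℕ → B}, Gen Γ X → AComm X (fun _ => x) := fun {X} hX =>
      hX.acomm hΓ (hΓx x hxG)
    have hxW : AEq (fun k => x * W k (t, i)) (fun _ => x) :=
      mkAEq fun k => ((hW k (t, i)).2.2.2.2 x (Finset.mem_singleton_self _)).2
    have hxV : AEq (fun k => x * V t i k) (fun k => A t k * A t k * x) := by
      have h1 := (gcomm (Gen.mul (hA t) (Gen.of (Sum.inl (t, i)))) (hA t)).mul_left (abdd_const x)
      have h2 := (hxg (Gen.mul (hA t) (hA t))).symm.mul_right (hΓ (Sum.inl (t, i)))
      have h3 := hxW.mul_left (((hA t).abdd hΓ).mul ((hA t).abdd hΓ))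
      exact ((AEq.of_eq fun k => by simp [V, Γ]).trans h1).trans
        ((AEq.of_eq fun k => by simp [Γ, mul_assoc]).trans
          (h2.trans ((AEq.of_eq fun k => by simp [Γ, mul_assoc]).trans h3)))
    have hxU : ENear (fun _ => D.K t) (fun k => x * U i t k) := by
      refine (ENear.of_mem (X := fun k => (E k t + E k t - E k t * E k t) * x) fun k => ?_).congr
        ((AEq.of_eq fun k => by simp only [U, mul_sub, mul_one]).trans
          (((AEq.refl (fun _ => x)).sub hxV).trans (AEq.of_eq fun k => ?_)))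
      · exact (D.K_ideal t).mul_right _ _ ((D.K_ideal t).sub_mem
          ((D.K_ideal t).add_mem _ (hE k t).1 _ (hE k t).1)
          ((D.K_ideal t).mul_left _ _ (hE k t).1))
      · simp only [A, sub_mul, mul_sub, one_mul, mul_one, add_mul]
        abel
    have hxP : ENear (fun _ => D.K t) (fun k => x * P i k) := by
      have hrec : ∀ L : List (Fin (D.S + 1)), t ∈ L →
          ENear (fun _ => D.K t) (fun k => x * seqProd L (U i) k) := by
        intro L
        induction L with
        | nil => simp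
        | cons u L ih =>
          intro hmem
          by_cases hu : t = u
          · subst hu
            exact (hxU.mul_right hK ((Gen.seqProd L fun v _ => hU i v).abdd hΓ)).congr
              (AEq.of_eq fun k => by rw [seqProd_cons, mul_assoc])
          · exact ((ih ((List.mem_cons.1 hmem).resolve_left hu)).mul_left hK
              ((hU i u).abdd hΓ)).congr
              (((AEq.of_eq fun k => by rw [seqProd_cons, mul_assoc]).trans
                ((hxg (hU i u)).symm.mul_right ((Gen.seqProd L fun v _ => hU i v).abdd hΓ))).trans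
                (AEq.of_eq fun k => by simp only [mul_assoc]))
      exact hrec _ (List.mem_finRange t)
    refine (hxP.mul_right hK ((hP i).abdd hΓ)).congr ?_
    exact ((AEq.refl (fun _ => x)).sub ((hww' i).mul_left (abdd_const x))).trans
      (AEq.of_eq fun k => by simp only [w', mul_sub, mul_one, mul_assoc]; abel)

/-- Moving the factor at `i` out of `x * prodSeq f` when `w i` is a unit on `x` modulo `L`. -/
theorem near_mul_prodSeq {ι : Type*} [Fintype ι] [DecidableEq ι] {J : ι → Set B} {F : Set B}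
    {j : ι → B} (S : QCSystem J F j) {L : ℕ → Set B} (hL : ∀ k, IsClosedIdeal (L k)) {x : B}
    (hxF : x ∈ F) (i : ι)
    (hx : ∀ η : ℝ, 0 < η → ∀ᶠ k in atTop, Near (L k) η (x - x * S.w i k))
    {f : ι → ℝ → ℝ} (hf : ∀ i, Good (f i)) {η : ℝ} (hη : 0 < η) :
    ∀ᶠ k in atTop, Near (L k) η (x * S.prodSeq f k -
      f i 1 • (x * S.prodSeq (fun i' => if i' = i then fun _ => 1 else f i') k)) := by
  have hg1 : Good (fun _ : ℝ => (1 : ℝ)) := ⟨continuous_const, fun t _ => by simp⟩
  have hf' : ∀ i', Good (if i' = i then fun _ => (1 : ℝ) else f i') := fun i' => by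
    split
    exacts [hg1, hf i']
  have key : ∀ M : List ι, M.Nodup → i ∈ M → ENear L (fun k => x * S.listSeq M f k -
      f i 1 • (x * S.listSeq M (fun i' => if i' = i then fun _ => 1 else f i') k)) := by
    intro M
    induction M with
    | nil => simp
    | cons a M ih =>
      intro hnd hmem
      obtain ⟨ha, hM⟩ := List.nodup_cons.1 hnd
      by_cases hai : a = i
      · subst hai
        refine ((enear_cfc_unit (S.nonneg a) (S.le_one a) hL hx (hf a).1).mul_right hL
          (S.abdd_listSeq M hf)).congr (AEq.of_eq fun k => ?_)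
        have e : S.listSeq M (fun i' => if i' = a then fun _ => 1 else f i') k =
            S.listSeq M f k := by
          refine S.listSeq_congr (fun i' hi' t _ => ?_) k
          have : i' ≠ a := fun h => ha (by rw [← h]; exact hi')
          simp [this]
        rw [QCSystem.listSeq_cons, QCSystem.listSeq_cons, if_pos rfl, e,
          cfc_const_one ℝ _ (S.nonneg a k).isSelfAdjoint, one_mul, sub_mul, smul_mul_assoc,
          mul_assoc]
      · have hi : i ∈ M := (List.mem_cons.1 hmem).resolve_left (Ne.symm hai)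
        have hc := S.factor_comm_const hf hxF a
        refine ((ih hM hi).mul_left hL (S.abdd_factor hf a)).congr ?_
        have b1 := hc.symm.mul_right (S.abdd_listSeq M hf)
        have b2 := (hc.symm.mul_right (S.abdd_listSeq M hf')).smul (f i 1)
        exact ((AEq.of_eq fun k => by
            simp only [QCSystem.listSeq_cons, if_neg hai, mul_assoc]).trans
          (b1.sub b2)).trans (AEq.of_eq fun k => by
            simp only [mul_sub, mul_smul_comm, mul_assoc])
  exact key _ (Finset.nodup_toList Finset.univ) (by simp) η hη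

end

end Vale.Agent.P133.FinDim

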