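import Vale.Agent.P133.FinDim.SplitAux
import Vale.Agent.P133.FinDim.StratBase

/-!
Windows: `d + 2` disjoint transition intervals inside the unit interval.
-/

namespace Vale.Agent.P133.FinDim

open Filter Topology
open scoped ComplexOrder

noncomputable section

variable {B : Type*} [CStarAlgebra B] [PartialOrder B] [StarOrderedRing B]

/-- The unit of length. -/
def winUnit (d : ℕ) : ℝ := 1 / (6 * (d + 2) + 1)

/-- Square root of the `m`-th ramp, or of its complement. -/
def winPick {ι : Type*} [DecidableEq ι] (d : ℕ) (m : Fin (d + 2)) (A : Finset ι) (i : ι) :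
    ℝ → ℝ :=
  if i ∈ A then fun t => Real.sqrt (ramp ((6 * m.val + 2) * winUnit d) (2 * winUnit d) t)
  else fun t => Real.sqrt (1 - ramp ((6 * m.val + 2) * winUnit d) (2 * winUnit d) t)

/-- Zero on the transition interval. -/
def winGap (d : ℕ) (m : Fin (d + 2)) : ℝ → ℝ := fun t =>
  1 - ramp ((6 * m.val + 1) * winUnit d) (winUnit d) t *
    (1 - ramp ((6 * m.val + 4) * winUnit d) (winUnit d) t)

/-- Zero on a larger interval; the complements for distinct `m` are disjointly supported. -/
def winGap' (d : ℕ) (m : Fin (d + 2)) : ℝ → ℝ := fun t =>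
  1 - ramp ((6 * m.val) * winUnit d) (winUnit d) t *
    (1 - ramp ((6 * m.val + 5) * winUnit d) (winUnit d) t)

variable {ι : Type*} [Fintype ι] [DecidableEq ι] {J : ι → Set B} {F : Set B} {j : ι → B}
  (S : QCSystem J F j) (d : ℕ)

section Fun

omit [PartialOrder B] [StarOrderedRing B]

theorem winUnit_pos : 0 < winUnit d := by unfold winUnit; positivity

theorem good_winPick {ι : Type*} [DecidableEq ι] (m : Fin (d + 2)) (A : Finset ι) (i : ι) :
    Good (winPick d m A i) :=
  good_ite (good_sqrt_ramp _ _) (good_sqrt_one_sub_ramp _ _)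

theorem good_winGap (m : Fin (d + 2)) : Good (winGap d m) :=
  ((good_ramp _ _).mul (good_ramp _ _).one_sub).one_sub

theorem good_winGap' (m : Fin (d + 2)) : Good (winGap' d m) :=
  ((good_ramp _ _).mul (good_ramp _ _).one_sub).one_sub

theorem winGap_eq_zero (m : Fin (d + 2)) {t : ℝ} (h1 : (6 * m.val + 2) * winUnit d ≤ t)
    (h2 : t ≤ (6 * m.val + 4) * winUnit d) : winGap d m t = 0 := by
  have hu := winUnit_pos d
  simp only [winGap]
  rw [ramp_of_ge hu (show (6 * (m.val : ℝ) + 1) * winUnit d + winUnit d ≤ t by linarith),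
    ramp_of_le hu h2]
  ring

theorem winGap'_eq_zero (m : Fin (d + 2)) {t : ℝ} (h1 : (6 * m.val + 1) * winUnit d ≤ t)
    (h2 : t ≤ (6 * m.val + 5) * winUnit d) : winGap' d m t = 0 := by
  have hu := winUnit_pos d
  simp only [winGap']
  rw [ramp_of_ge hu (show (6 * (m.val : ℝ)) * winUnit d + winUnit d ≤ t by linarith),
    ramp_of_le hu h2]
  ring

theorem winGap'_eq_one (m : Fin (d + 2)) {t : ℝ}
    (h : t ≤ (6 * m.val) * winUnit d ∨ (6 * m.val + 6) * winUnit d ≤ t) : winGap' d m t = 1 := by
  have hu := winUnit_pos d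
  simp only [winGap']
  rcases h with h | h
  · rw [ramp_of_le hu h]; ring
  · rw [ramp_of_ge hu (show (6 * (m.val : ℝ) + 5) * winUnit d + winUnit d ≤ t by linarith)]
    ring

theorem winGap'_zero (m : Fin (d + 2)) : winGap' d m 0 = 1 :=
  winGap'_eq_one d m (Or.inl (by have := winUnit_pos d; positivity))

theorem winGap_mul_winGap' (m : Fin (d + 2)) (t : ℝ) :
    winGap d m t * winGap' d m t = winGap' d m t := by
  have hu := winUnit_pos d
  rcases le_total t ((6 * m.val + 1) * winUnit d) with h | h
  · rw [show winGap d m t = 1 by simp only [winGap]; rw [ramp_of_le hu h]; ring, one_mul]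
  rcases le_total t ((6 * m.val + 5) * winUnit d) with h' | h'
  · rw [winGap'_eq_zero d m h h', mul_zero]
  · rw [show winGap d m t = 1 by
      simp only [winGap]
      rw [ramp_of_ge hu
        (show (6 * (m.val : ℝ) + 4) * winUnit d + winUnit d ≤ t by linarith)]
      ring, one_mul]

/-- Where the gap is nonzero the window ramp is `0` or `1`. -/
theorem winRamp_cases (m : Fin (d + 2)) (t : ℝ) :
    winGap d m t = 0 ∨ ramp ((6 * m.val + 2) * winUnit d) (2 * winUnit d) t = 0 ∨
      ramp ((6 * m.val + 2) * winUnit d) (2 * winUnit d) t = 1 := by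
  have hu := winUnit_pos d
  rcases le_total t ((6 * m.val + 2) * winUnit d) with h | h
  · exact Or.inr (Or.inl (ramp_of_le (by positivity) h))
  rcases le_total t ((6 * m.val + 4) * winUnit d) with h' | h'
  · exact Or.inl (winGap_eq_zero d m h h')
  · exact Or.inr (Or.inr (ramp_of_ge (by positivity) (by linarith)))

theorem winPick_sq_mul_gap {ι : Type*} [DecidableEq ι] (m : Fin (d + 2)) (A : Finset ι) (i : ι)
    (t : ℝ) : winPick d m A i t * winPick d m A i t * winGap d m t =
      winPick d m A i t * winGap d m t := by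
  rcases winRamp_cases d m t with h | h | h
  · simp [h]
  all_goals
    by_cases hi : i ∈ A <;> simp [winPick, hi, h]

theorem winPick_mul_ne {ι : Type*} [DecidableEq ι] (m : Fin (d + 2)) {A A' : Finset ι} {i : ι}
    (hi : ¬ (i ∈ A' ↔ i ∈ A)) (t : ℝ) :
    winPick d m A' i t * winPick d m A i t * winGap d m t = 0 := by
  rcases winRamp_cases d m t with h | h | h
  · simp [h]
  all_goals
    by_cases h1 : i ∈ A <;> by_cases h2 : i ∈ A'
    all_goals first
      | exact absurd (iff_of_true h2 h1) hi
      | exact absurd (iff_of_false h2 h1) hi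
      | simp [winPick, h1, h2, h]

theorem winPick_add_mul_gap' (m : Fin (d + 2)) (t : ℝ) :
    Real.sqrt (ramp ((6 * m.val + 2) * winUnit d) (2 * winUnit d) t) * winGap' d m t +
      Real.sqrt (1 - ramp ((6 * m.val + 2) * winUnit d) (2 * winUnit d) t) * winGap' d m t =
      winGap' d m t := by
  rcases winRamp_cases d m t with h | h | h
  · have h0 : winGap' d m t = 0 := by rw [← winGap_mul_winGap' d m t, h, zero_mul]
    simp [h0]
  all_goals simp [h]

theorem winGap'_disjoint {m m' : Fin (d + 2)} (h : m ≠ m') (t : ℝ) :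
    (1 - winGap' d m t) * (1 - winGap' d m' t) = 0 := by
  wlog hlt : m < m' generalizing m m'
  · rw [mul_comm]; exact this h.symm (lt_of_le_of_ne (not_lt.1 hlt) h.symm)
  have hu := winUnit_pos d
  have hv : (m.val : ℝ) + 1 ≤ m'.val := by exact_mod_cast (Fin.lt_def.1 hlt)
  rcases le_total t ((6 * m'.val) * winUnit d) with h1 | h1
  · simp [winGap'_eq_one d m' (Or.inl h1)]
  · have : (6 * (m.val : ℝ) + 6) * winUnit d ≤ t := by nlinarith
    simp [winGap'_eq_one d m (Or.inr this)]

theorem winPick_one_notMem {ι : Type*} [DecidableEq ι] (m : Fin (d + 2)) {A : Finset ι} {i : ι}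
    (hi : i ∉ A) : winPick d m A i 1 = 0 := by
  have hu := winUnit_pos d
  have hv : (m.val : ℝ) ≤ d + 1 := by exact_mod_cast Nat.lt_succ_iff.1 m.isLt
  have hone : (6 * ((d : ℝ) + 2) + 1) * winUnit d = 1 := by unfold winUnit; field_simp
  simp only [winPick, if_neg hi]
  rw [ramp_of_ge (by positivity) (by nlinarith)]
  simp

theorem abdd_list_prod {κ : Type*} (L : List κ) {X : κ → ℕ → B} (h : ∀ a ∈ L, ABdd (X a)) :
    ABdd (fun k => (L.map fun a => X a k).prod) := by
  induction L with
  | nil => simpa using abdd_const (1 : B)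
  | cons a L ih =>
    simpa using (h a List.mem_cons_self).mul (ih fun b hb => h b (List.mem_cons_of_mem _ hb))

end Fun

/-- The atom of `A` in the window `m`. -/
def winAtom (m : Fin (d + 2)) (A : Finset ι) (k : ℕ) : B := S.prodSeq (winPick d m A) k

/-- The atom restricted to the gap. -/
def winPsi (m : Fin (d + 2)) (A : Finset ι) (k : ℕ) : B :=
  S.prodSeq (fun i t => winPick d m A i t * winGap d m t) k

/-- The atom restricted to the smaller gap. -/
def winKap (m : Fin (d + 2)) (A : Finset ι) (k : ℕ) : B :=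
  S.prodSeq (fun i t => winPick d m A i t * winGap' d m t) k

theorem abdd_winAtom (m : Fin (d + 2)) (A : Finset ι) : ABdd (winAtom S d m A) := by
  exact S.abdd_prodSeq (good_winPick d m A)

theorem abdd_winPsi (m : Fin (d + 2)) (A : Finset ι) : ABdd (winPsi S d m A) := by
  exact S.abdd_prodSeq (fun i => (good_winPick d m A i).mul (good_winGap d m))

theorem abdd_winKap (m : Fin (d + 2)) (A : Finset ι) : ABdd (winKap S d m A) := by
  exact S.abdd_prodSeq (fun i => (good_winPick d m A i).mul (good_winGap' d m))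

theorem norm_winAtom_le (m : Fin (d + 2)) (A : Finset ι) (k : ℕ) :
    ‖winAtom S d m A k‖ ≤ 1 := by
  exact S.norm_prodSeq_le (good_winPick d m A) k

theorem norm_winPsi_le (m : Fin (d + 2)) (A : Finset ι) (k : ℕ) :
    ‖winPsi S d m A k‖ ≤ 1 := by
  exact S.norm_prodSeq_le (fun i => (good_winPick d m A i).mul (good_winGap d m)) k

theorem norm_winKap_le (m : Fin (d + 2)) (A : Finset ι) (k : ℕ) :
    ‖winKap S d m A k‖ ≤ 1 := by
  exact S.norm_prodSeq_le (fun i => (good_winPick d m A i).mul (good_winGap' d m)) k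

theorem winAtom_comm (m : Fin (d + 2)) (A : Finset ι) {X : B} (hX : X ∈ F) :
    AEq (fun k => winAtom S d m A k * X) (fun k => X * winAtom S d m A k) := by
  exact S.prodSeq_comm (good_winPick d m A) hX

theorem winPsi_comm (m : Fin (d + 2)) (A : Finset ι) {X : B} (hX : X ∈ F) :
    AEq (fun k => winPsi S d m A k * X) (fun k => X * winPsi S d m A k) := by
  exact S.prodSeq_comm (fun i => (good_winPick d m A i).mul (good_winGap d m)) hX

theorem winKap_comm (m : Fin (d + 2)) (A : Finset ι) {X : B} (hX : X ∈ F) :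
    AEq (fun k => winKap S d m A k * X) (fun k => X * winKap S d m A k) := by
  exact S.prodSeq_comm (fun i => (good_winPick d m A i).mul (good_winGap' d m)) hX

theorem winAtom_mul_psi_self (m : Fin (d + 2)) (A : Finset ι) :
    AEq (fun k => winAtom S d m A k * winPsi S d m A k) (winPsi S d m A) := by
  refine (S.prodSeq_mul (good_winPick d m A) (fun i => (good_winPick d m A i).mul (good_winGap d m))).trans
    (AEq.of_eq fun k => S.prodSeq_congr (fun i t _ => ?_) k)
  rw [← mul_assoc]
  exact winPick_sq_mul_gap d m A i t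

theorem winAtom_mul_psi_ne (m : Fin (d + 2)) {A A' : Finset ι} (h : A' ≠ A) :
    AEq (fun k => winAtom S d m A' k * winPsi S d m A k) (fun _ => (0 : B)) := by
  obtain ⟨i, hi⟩ : ∃ i, ¬ (i ∈ A' ↔ i ∈ A) := by
    by_contra hc
    push Not at hc
    exact h (Finset.ext hc)
  refine (S.prodSeq_mul (good_winPick d m A') (fun i => (good_winPick d m A i).mul (good_winGap d m))).trans
    (AEq.of_eq fun k => S.prodSeq_eq_zero i (fun t _ => ?_) k)
  rw [← mul_assoc]
  exact winPick_mul_ne d m hi t

theorem winPsi_mul_kap (m : Fin (d + 2)) (A : Finset ι) :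
    AEq (fun k => winPsi S d m A k * winKap S d m A k) (winKap S d m A) := by
  refine (S.prodSeq_mul (fun i => (good_winPick d m A i).mul (good_winGap d m))
    (fun i => (good_winPick d m A i).mul (good_winGap' d m))).trans
    (AEq.of_eq fun k => S.prodSeq_congr (fun i t _ => ?_) k)
  calc _ = winPick d m A i t * winPick d m A i t * winGap d m t * winGap' d m t := by ring
    _ = winPick d m A i t * (winGap d m t * winGap' d m t) := by
        rw [winPick_sq_mul_gap]; ring
    _ = _ := by rw [winGap_mul_winGap']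

theorem winKap_aeq_zero (hM : MultLE S d) (m : Fin (d + 2)) {A : Finset ι}
    (hA : ¬ A.card ≤ d + 1) : AEq (winKap S d m A) (fun _ => (0 : B)) := by
  obtain ⟨T, hTA, hT⟩ := Finset.exists_subset_card_eq (show d + 2 ≤ A.card by omega)
  refine hM T hT _ (fun i => (good_winPick d m A i).mul (good_winGap' d m)) fun i hi => ?_
  simp [winPick, hTA hi, ramp_of_le (show (0 : ℝ) < 2 * winUnit d by
    have := winUnit_pos d; positivity) (show (0 : ℝ) ≤ (6 * m.val + 2) * winUnit d by
    have := winUnit_pos d; positivity)]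

theorem sum_winKap (m : Fin (d + 2)) (k : ℕ) :
    ∑ A : Finset ι, winKap S d m A k = S.prodSeq (fun _ => winGap' d m) k := by
  have hc := (good_winGap' d m).1
  have h := S.sum_prodSeq
    (f := fun _ t => Real.sqrt (ramp ((6 * m.val + 2) * winUnit d) (2 * winUnit d) t) *
      winGap' d m t)
    (g := fun _ t => Real.sqrt (1 - ramp ((6 * m.val + 2) * winUnit d) (2 * winUnit d) t) *
      winGap' d m t)
    (fun _ => (good_sqrt_ramp _ _).1.mul hc) (fun _ => (good_sqrt_one_sub_ramp _ _).1.mul hc) k
  simp only [winPick_add_mul_gap'] at h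
  rw [← h]
  refine Finset.sum_congr rfl fun A _ => S.prodSeq_congr (fun i t _ => ?_) k
  by_cases hi : i ∈ A <;> simp [winPick, hi]

theorem near_mul_winKap_notMem {L : ℕ → Set B} (hL : ∀ k, IsClosedIdeal (L k)) {x : B}
    (hxF : x ∈ F) (m : Fin (d + 2)) {A : Finset ι} {i : ι} (hi : i ∉ A)
    (hx : ∀ η : ℝ, 0 < η → ∀ᶠ k in atTop, Near (L k) η (x - x * S.w i k)) {η : ℝ} (hη : 0 < η) :
    ∀ᶠ k in atTop, Near (L k) η (x * winKap S d m A k) := by
  have h := near_mul_prodSeq S hL hxF i hx
    (fun i => (good_winPick d m A i).mul (good_winGap' d m)) hη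
  simpa only [winPick_one_notMem d m hi, zero_mul, zero_smul, sub_zero, winKap] using h

/-- The pigeonhole principle: some window avoids all `w i`. -/
theorem prod_one_sub_gap (hM : MultLE S d) :
    AEq (fun k => ((List.finRange (d + 2)).map fun m =>
      1 - S.prodSeq (fun _ => winGap' d m) k).prod) (fun _ => (0 : B)) := by
  classical
  let R : List (Fin (d + 2)) → ℕ → B := fun L k =>
    (L.map fun m => 1 - S.prodSeq (fun _ => winGap' d m) k).prod
  have hRb : ∀ L, ABdd (R L) := fun L => abdd_list_prod L fun m _ => by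
    obtain ⟨C, hC⟩ := S.abdd_prodSeq (fun _ : ι => good_winGap' d m)
    exact ⟨‖(1 : B)‖ + C, fun k => (norm_sub_le _ _).trans (add_le_add le_rfl (hC k))⟩
  have key : ∀ L : List (Fin (d + 2)), L.Nodup → ∀ T : Finset ι, T.card + L.length = d + 2 →
      ∀ h : ι → ℝ → ℝ, (∀ i, Good (h i)) → (∀ i ∈ T, h i 0 = 0) →
      (∀ i ∈ T, ∀ m ∈ L, ∀ t, h i t * (1 - winGap' d m t) = 0) →
      AEq (fun k => S.prodSeq h k * R L k) (fun _ => (0 : B)) := by
    intro L
    induction L with
    | nil =>
      intro _ T hT h hh h0 _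
      simpa only [zero_mul] using (hM T (by simpa using hT) _ hh h0).mul_right (hRb [])
    | cons m L ih =>
      intro hnd T hT h hh h0 hsupp
      obtain ⟨hm, hL⟩ := List.nodup_cons.1 hnd
      obtain ⟨f, hf, hfd, hfs⟩ := S.exists_telescope (fun _ => winGap' d m)
        fun _ => good_winGap' d m
      have e1 : ∀ k, S.prodSeq h k * R (m :: L) k =
          ∑ i, S.prodSeq h k * S.prodSeq (f i) k * R L k := fun k => by
        simp only [R, List.map_cons, List.prod_cons]
        rw [hfs k, Finset.sum_mul, Finset.mul_sum]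
        simp only [mul_assoc]
      refine (AEq.of_eq e1).trans ((AEq.sum Finset.univ fun i _ => ?_).trans
        (AEq.of_eq (Y := fun _ => (0 : B)) fun k =>
          (Finset.sum_eq_zero fun i _ => rfl : ∑ _i : ι, (0 : B) = 0)))
      have hg : ∀ i', Good (fun t => h i' t * f i i' t) := fun i' => (hh i').mul (hf i i')
      refine ((S.prodSeq_mul hh (hf i)).mul_right (hRb L)).trans ?_
      by_cases hi : i ∈ T
      · refine AEq.of_eq fun k => ?_
        rw [S.prodSeq_eq_zero i (fun t _ => ?_) k, zero_mul]
        rw [hfd]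
        exact hsupp i hi m List.mem_cons_self t
      · refine ih hL (insert i T) ?_ _ hg (fun i' hi' => ?_) (fun i' hi' m' hm' t => ?_)
        · rw [Finset.card_insert_of_notMem hi]
          simp only [List.length_cons] at hT
          omega
        · rcases Finset.mem_insert.1 hi' with rfl | hi'
          · simp [hfd, winGap'_zero]
          · simp [h0 i' hi']
        · rcases Finset.mem_insert.1 hi' with rfl | hi'
          · rw [hfd, mul_assoc, winGap'_disjoint d (fun e : m = m' => hm (e ▸ hm')) t, mul_zero]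
          · rw [mul_right_comm, hsupp i' hi' m' (List.mem_cons_of_mem _ hm') t, zero_mul]
  have := key _ (List.nodup_finRange _) ∅ (by simp) (fun _ _ => 1) (fun _ => good_one)
    (by simp) (by simp)
  simpa [R, S.prodSeq_one] using this

/-- If `b` times each gap is eventually small modulo `I k`, so is `b`. -/
theorem near_of_gaps (hM : MultLE S d)
    {I : ℕ → Set B} (hI : ∀ k, IsClosedIdeal (I k)) {b : B} {ε : ℝ} (hε : 0 ≤ ε)
    (h : ∀ m, ∀ η : ℝ, 0 < η → ∀ᶠ k in atTop,
      Near (I k) (ε + η) (b * S.prodSeq (fun _ => winGap' d m) k))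
    {η : ℝ} (hη : 0 < η) :
    ∀ᶠ k in atTop, Near (I k) (2 ^ (d + 3) * ε + η) b := by
  let R : List (Fin (d + 2)) → ℕ → B := fun L k =>
    (L.map fun m => 1 - S.prodSeq (fun _ => winGap' d m) k).prod
  have hRn : ∀ L k, ‖R L k‖ ≤ 2 ^ L.length := by
    intro L k
    induction L with
    | nil => simpa [R] using qc_norm_one_le (B := B)
    | cons m L ih =>
      simp only [R, List.map_cons, List.prod_cons, List.length_cons, pow_succ']
      refine (norm_mul_le _ _).trans (mul_le_mul ?_ ih (norm_nonneg _) zero_le_two)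
      refine (norm_sub_le _ _).trans ?_
      linarith [qc_norm_one_le (B := B), S.norm_prodSeq_le (fun _ : ι => good_winGap' d m) k]
  have key : ∀ L : List (Fin (d + 2)), ∀ η : ℝ, 0 < η → ∀ᶠ k in atTop,
      Near (I k) (2 ^ L.length * ε + η) (b - b * R L k) := by
    intro L
    induction L with
    | nil =>
      intro η hη
      refine Eventually.of_forall fun k => ⟨0, (hI k).zero_mem, ?_⟩
      have h0 : b - b * R [] k - 0 = 0 := by simp [R]
      rw [h0, norm_zero]
      positivity
    | cons m L ih =>
      intro η hη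
      filter_upwards [h m (η / (2 * 2 ^ L.length)) (by positivity),
        ih (η / 2) (by positivity)] with k h1 h2
      have e : b - b * R (m :: L) k =
          b * S.prodSeq (fun _ => winGap' d m) k * R L k + (b - b * R L k) := by
        simp only [R, List.map_cons, List.prod_cons, sub_mul, mul_sub, one_mul, mul_assoc]
        abel
      rw [e]
      obtain ⟨Y, hY, hn⟩ := (h1.mul_right (hI k) (R L k)).add (hI k) h2
      refine ⟨Y, hY, hn.trans ?_⟩
      have h3 := mul_le_mul_of_nonneg_left (hRn L k)
        (show 0 ≤ ε + η / (2 * 2 ^ L.length) by positivity)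
      have h4 : η / (2 * 2 ^ L.length) * 2 ^ L.length = η / 2 := by field_simp
      rw [List.length_cons, pow_succ]
      nlinarith
  have hz := ((prod_one_sub_gap S d hM).mul_left (abdd_const b)).eventually
    (show (0 : ℝ) < η / 2 by positivity)
  filter_upwards [key (List.finRange (d + 2)) (η / 2) (by positivity), hz] with k h1 h2
  simp only [mul_zero, sub_zero] at h2
  obtain ⟨Y, hY, hn⟩ := h1.of_norm_le (X := b) (η := η / 2) (by
    rw [sub_sub_cancel]; exact h2)
  refine ⟨Y, hY, hn.trans ?_⟩
  rw [List.length_finRange]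
  have : (2 : ℝ) ^ (d + 2) * ε ≤ 2 ^ (d + 3) * ε :=
    mul_le_mul_of_nonneg_right (pow_le_pow_right₀ one_le_two (by omega)) hε
  linarith

end

end Vale.Agent.P133.FinDim
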