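import Vale.Agent.P133.FinDim.Pieces
import Vale.Agent.P133.FinDim.Windows
import Vale.Agent.P133.FinDim.ColourCover

/-!
The colour lemma: one element inside a group of pieces, full for a given element.
-/

namespace Vale.Agent.P133.FinDim

open Filter Topology
open scoped ComplexOrder

noncomputable section

variable {B : Type*} [CStarAlgebra B] [PartialOrder B] [StarOrderedRing B]

/-- The multiplier of slot `l`: the element attached to the `l`-th member of `A`, if any. -/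
def slotCoef {ι : Type*} {d : ℕ} (u : ι → B) (A : Finset ι) (l : Fin (d + 1)) : B :=
  if h : l.val < A.toList.length then u (A.toList[l.val]) else 0

/-- The Gram expansion of a sum with almost orthogonal summands. -/
theorem sum_star_mul_le {κ : Type*} [Fintype κ] [DecidableEq κ] (Y : κ → B) {M : ℝ}
    (hY : ∀ a b, a ≠ b → ‖star (Y a) * Y b‖ ≤ M) (hM : 0 ≤ M) :
    ∑ a, star (Y a) * Y a ≤
      star (∑ a, Y a) * (∑ a, Y a) + sc ((Fintype.card κ : ℝ) ^ 2 * M) := by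
  have h1 : star (∑ a, Y a) * (∑ a, Y a) - ∑ a, star (Y a) * Y a =
      ∑ a, ∑ b, (if a = b then 0 else star (Y a) * Y b) := by
    rw [star_sum, Finset.sum_mul, ← Finset.sum_sub_distrib]
    refine Finset.sum_congr rfl fun a _ => ?_
    rw [Finset.mul_sum, ← Finset.add_sum_erase _ _ (Finset.mem_univ a), add_sub_cancel_left,
      ← Finset.add_sum_erase (s := Finset.univ) _ (Finset.mem_univ a), if_pos rfl, zero_add]
    exact Finset.sum_congr rfl fun b hb => by rw [if_neg (Finset.ne_of_mem_erase hb).symm]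
  have h2 : ‖(∑ a, star (Y a) * Y a) - star (∑ a, Y a) * (∑ a, Y a)‖ ≤
      (Fintype.card κ : ℝ) ^ 2 * M := by
    rw [norm_sub_rev, h1]
    calc _ ≤ ∑ _a : κ, ∑ _b : κ, M := by
          refine (norm_sum_le _ _).trans (Finset.sum_le_sum fun a _ => ?_)
          refine (norm_sum_le _ _).trans (Finset.sum_le_sum fun b _ => ?_)
          split_ifs with h
          · simpa using hM
          · exact hY a b h
      _ = _ := by simp; ring
  have hsa : IsSelfAdjoint ((∑ a, star (Y a) * Y a) - star (∑ a, Y a) * (∑ a, Y a)) :=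
    (IsSelfAdjoint.of_nonneg (Finset.sum_nonneg fun a _ => star_mul_self_nonneg (Y a))).sub
      (IsSelfAdjoint.star_mul_self _)
  exact sub_le_iff_le_add'.mp (le_sc_of_norm_le hsa h2)

/-- Multiplying the slot combination by `ψ` of the atom `A` picks out one coefficient. -/
theorem coef_mul_psi {ι : Type*} [Fintype ι] [DecidableEq ι] {J : ι → Set B} {Fs : Set B}
    {j : ι → B} (S : QCSystem J Fs j) (d : ℕ) (m : Fin (d + 2)) (l : Fin (d + 1)) (u : ι → B)
    (P : B) (hPF : P ∈ Fs) {A : Finset ι} (hA : A.card ≤ d + 1) :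
    AEq (fun k => (∑ A' : {A' : Finset ι // A'.card ≤ d + 1},
          slotCoef u A'.1 l * winAtom S d m A'.1 k) * P * winPsi S d m A k)
      (fun k => slotCoef u A l * P * winPsi S d m A k) := by
  simp only [Finset.sum_mul]
  have h : ∀ A' : {A' : Finset ι // A'.card ≤ d + 1},
      AEq (fun k => slotCoef u A'.1 l * winAtom S d m A'.1 k * P * winPsi S d m A k)
        (fun k => if A'.1 = A then slotCoef u A l * P * winPsi S d m A k else 0) := by
    intro A'
    have c1 := ((winAtom_comm S d m A'.1 hPF).mul_left (abdd_const (slotCoef u A'.1 l))).mul_right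
      (abdd_winPsi S d m A)
    by_cases hAA : A'.1 = A
    · simp only [hAA, if_true] at c1 ⊢
      have c2 := (winAtom_mul_psi_self S d m A).mul_left (abdd_const (slotCoef u A l * P))
      simp only [← mul_assoc] at c1 c2 ⊢
      exact c1.trans c2
    · simp only [hAA, if_false]
      have c2 := (winAtom_mul_psi_ne S d m hAA).mul_left (abdd_const (slotCoef u A'.1 l * P))
      simp only [mul_zero] at c2
      simp only [← mul_assoc] at c1 c2 ⊢
      exact c1.trans c2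
  have h' := AEq.sum Finset.univ (fun A' _ => h A')
  have e : ∀ k, (∑ A' : {A' : Finset ι // A'.card ≤ d + 1},
      if A'.1 = A then slotCoef u A l * P * winPsi S d m A k else 0) =
      slotCoef u A l * P * winPsi S d m A k := by
    intro k
    rw [Finset.sum_eq_single ⟨A, hA⟩]
    · simp
    · intro A' _ hne
      rw [if_neg fun h => hne (Subtype.ext h)]
    · simp
  simpa only [e] using h'

/-- One atom: modulo the ideal, `j σ` times `κ` of the atom is small. -/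
theorem near_mul_kap {ι : Type*} [Fintype ι] [DecidableEq ι] {J : ι → Set B} {Fs : Set B}
    {j : ι → B} (S : QCSystem J Fs j) (d : ℕ) {I : ℕ → Set B} (hI : ∀ k, IsClosedIdeal (I k))
    (m : Fin (d + 2)) (l : Fin (d + 1)) (u : ι → B) (P rF : B) (hPF : P ∈ Fs) {A : Finset ι}
    (hA : A.card ≤ d + 1) {σ : ι} (hσ : slotCoef u A l = u σ) {Cc : ℝ}
    (hu : ∀ i, ‖u i‖ ≤ Cc) {g : B} (hg : g = star (rF * (u σ * P)) * (rF * (u σ * P)))
    {c : ℝ} (hc : 0 < c) (hc' : c ≤ 1)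
    (hHF : cfc (fun t : ℝ => min 1 (max (2 * t / c - 1) 0)) g ∈ Fs)
    (hdom : ∀ᶠ k in atTop, Dom (I k) (c / 16)
      (star (rF * ((∑ A' : {A' : Finset ι // A'.card ≤ d + 1},
          slotCoef u A'.1 l * winAtom S d m A'.1 k) * P)) *
        (rF * ((∑ A' : {A' : Finset ι // A'.card ≤ d + 1},
          slotCoef u A'.1 l * winAtom S d m A'.1 k) * P))))
    {x : B} {n : ℕ} {lc rc : Fin n → B} {ε : ℝ} (hx : ‖x - ∑ q, lc q * cut c g * rc q‖ ≤ ε)
    (hrF : ∀ q, rc q ∈ Fs) {η : ℝ} (hη : 0 < η) :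
    ∀ᶠ k in atTop, Near (I k) (ε + η) (x * winKap S d m A k) := by
  have hg0 : 0 ≤ g := hg ▸ star_mul_self_nonneg _
  refine kill_genIdeal hI hg0 hc (abdd_winPsi S d m A) (abdd_winKap S d m A)
    (winPsi_comm S d m A hHF) (winPsi_mul_kap S d m A) ?_ hx
    (fun q => winKap_comm S d m A (hrF q)) (norm_winKap_le S d m A) hη
  set Y : ℕ → B := fun k => rF * ((∑ A' : {A' : Finset ι // A'.card ≤ d + 1},
      slotCoef u A'.1 l * winAtom S d m A'.1 k) * P) with hY
  have h0 : AEq (fun k => Y k * winPsi S d m A k)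
      (fun k => rF * (u σ * P) * winPsi S d m A k) := by
    have := (coef_mul_psi S d m l u P hPF hA).mul_left (abdd_const rF)
    simp only [hσ] at this
    simpa only [hY, mul_assoc] using! this
  have hbY : ABdd (fun k => Y k * winPsi S d m A k) := by
    refine ABdd.mul (ABdd.mul (abdd_const rF) (ABdd.mul (ABdd.sum _ fun A' _ => ?_)
      (abdd_const P))) (abdd_winPsi S d m A)
    exact (abdd_const (slotCoef u A'.1 l)).mul (abdd_winAtom S d m A'.1)
  have hbZ : ABdd (fun k => star (rF * (u σ * P) * winPsi S d m A k)) := by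
    obtain ⟨C, hC⟩ := (abdd_const (rF * (u σ * P))).mul (abdd_winPsi S d m A)
    exact ⟨C, fun k => by simpa only [norm_star] using hC k⟩
  have h1 := h0.star.mul h0 hbZ hbY
  filter_upwards [h1.eventually (show (0 : ℝ) < c / 16 by positivity), hdom] with k hk hdk
  have d1 := hdk.conj (hI k) (by positivity) (winPsi S d m A k)
  have hn1 : ‖winPsi S d m A k‖ ^ 2 ≤ 1 :=
    pow_le_one₀ (norm_nonneg _) (norm_winPsi_le S d m A k)
  rw [← star_mul_mul_star] at d1
  have d2 := d1.of_norm_le (p := star (rF * (u σ * P) * winPsi S d m A k) *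
    (rF * (u σ * P) * winPsi S d m A k)) (IsSelfAdjoint.star_mul_self _)
    (IsSelfAdjoint.star_mul_self _) ((norm_sub_rev _ _).trans_le hk)
  refine d2.mono (le_of_eq ?_) (by nlinarith)
  rw [hg, ← star_mul_mul_star]

/-- One colour covers `P²`. -/
theorem dom_cover_one {n : ℕ} {F h P : B} (hF0 : 0 ≤ F) (u : Fin n → B)
    (hFu : ‖(∑ q, star (u q) * F * u q) - h‖ ≤ 1 / 8) (hP0 : 0 ≤ P) (hh : IsSelfAdjoint h)
    (hhP : h * P = P) (c : ℝ) :
    Dom (closedSum fun q => genIdeal (cut c (star (CFC.sqrt F * (u q * P)) *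
      (CFC.sqrt F * (u q * P))))) (2 * n * c) (P * P) := by
  have hPs := IsSelfAdjoint.of_nonneg hP0
  set g := fun q => star (CFC.sqrt F * (u q * P)) * (CFC.sqrt F * (u q * P)) with hg
  have hI : ∀ q, IsClosedIdeal (genIdeal (cut c (g q))) := fun q => isClosedIdeal_genIdeal _
  have hS := IsClosedIdeal.closedSum hI
  have e1 : ∑ q, g q = star P * (∑ q, star (u q) * F * u q) * P := by
    rw [Finset.mul_sum, Finset.sum_mul]
    refine Finset.sum_congr rfl fun q _ => ?_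
    conv_rhs => rw [← CFC.sqrt_mul_sqrt_self F hF0]
    simp only [hg, star_mul, (IsSelfAdjoint.of_nonneg (CFC.sqrt_nonneg F)).star_eq, mul_assoc]
  have hU0 : 0 ≤ ∑ q, star (u q) * F * u q :=
    Finset.sum_nonneg fun q _ => star_left_conjugate_nonneg hF0 _
  have h1 : h ≤ (∑ q, star (u q) * F * u q) + sc (1 / 8) := by
    refine sub_le_iff_le_add'.mp (le_sc_of_norm_le (hh.sub (IsSelfAdjoint.of_nonneg hU0)) ?_)
    rw [norm_sub_rev]
    exact hFu
  have h2 : P * P ≤ (∑ q, g q) + (1 / 8 : ℝ) • (P * P) := by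
    have h3 := star_left_conjugate_le_conjugate h1 P
    rw [mul_add, add_mul, ← e1, mul_assoc (star P) h P, hhP, hPs.star_eq] at h3
    refine h3.trans (add_le_add le_rfl (le_of_eq ?_))
    simp [sc, Algebra.algebraMap_eq_smul_one]
  have h5 : (7 / 8 : ℝ) • (P * P) ≤ ∑ q, g q := by
    refine le_trans (le_of_eq ?_) (sub_le_iff_le_add.mpr h2)
    rw [show (7 / 8 : ℝ) = 1 - 1 / 8 by norm_num, sub_smul, one_smul]
  have h4 : P * P ≤ (2 : ℝ) • ∑ q, g q := by
    refine le_trans ?_ (smul_le_smul_of_nonneg_left h5 (show (0 : ℝ) ≤ 2 by norm_num))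
    rw [smul_smul]
    exact le_smul_of_one_le_left hPs.mul_self_nonneg (by norm_num)
  have hD1 : ∀ q, Dom (closedSum fun q => genIdeal (cut c (g q))) c (g q) := fun q =>
    ⟨_, mem_closedSum_of_mem hI (mem_genIdeal_self _), cut_nonneg,
      le_cut_add (IsSelfAdjoint.star_mul_self _)⟩
  refine ((Dom.sum hS Finset.univ _ _ fun q _ => hD1 q).smul hS zero_le_two).mono h4 (le_of_eq ?_)
  simp
  ring

/-- The combination with coefficients attached to atoms. -/
def slotSum {ι : Type*} [Fintype ι] [DecidableEq ι] {J : ι → Set B} {Fs : Set B} {j : ι → B}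
    (S : QCSystem J Fs j) (d : ℕ) (u : Fin (d + 2) × Fin (d + 1) → ι → B) (k : ℕ)
    (a : Fin (d + 2) × Fin (d + 1)) : B :=
  ∑ A : {A : Finset ι // A.card ≤ d + 1}, slotCoef (u a) A.1 a.2 * winAtom S d a.1 A.1 k

theorem slotSum_mem {ι : Type*} [Fintype ι] [DecidableEq ι] {J : ι → Set B} {Fs : Set B}
    {j : ι → B} (S : QCSystem J Fs j) (d : ℕ) {A₀ : Set B} (hA₀ : IsClosedIdeal A₀)
    (u : Fin (d + 2) × Fin (d + 1) → ι → B) (hu : ∀ a i, u a i ∈ A₀) (k : ℕ)
    (a : Fin (d + 2) × Fin (d + 1)) : slotSum S d u k a ∈ A₀ :=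
  hA₀.sum_mem _ _ fun A _ => hA₀.mul_right _ _ (by
    unfold slotCoef
    split_ifs
    · exact hu _ _
    · exact hA₀.zero_mem)

theorem norm_slotSum_le {ι : Type*} [Fintype ι] [DecidableEq ι] {J : ι → Set B} {Fs : Set B}
    {j : ι → B} (S : QCSystem J Fs j) (d : ℕ)
    (u : Fin (d + 2) × Fin (d + 1) → ι → B) {C : ℝ} (hC : 0 ≤ C) (hu : ∀ a i, ‖u a i‖ ≤ C)
    (k : ℕ) (a : Fin (d + 2) × Fin (d + 1)) :
    ‖slotSum S d u k a‖ ≤ (2 : ℝ) ^ Fintype.card ι * C := by
  calc _ ≤ ∑ _A : {A : Finset ι // A.card ≤ d + 1}, C := by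
        refine (norm_sum_le _ _).trans (Finset.sum_le_sum fun A _ => ?_)
        refine (norm_mul_le _ _).trans ?_
        calc _ ≤ C * 1 := by
              refine mul_le_mul ?_ (norm_winAtom_le S d _ _ k) (norm_nonneg _) hC
              unfold slotCoef
              split_ifs
              · exact hu _ _
              · simpa using hC
          _ = C := mul_one C
    _ ≤ _ := by
      simp only [Finset.sum_const, Finset.card_univ, nsmul_eq_mul]
      refine mul_le_mul_of_nonneg_right ?_ hC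
      have h1 := Fintype.card_subtype_le (fun A : Finset ι => A.card ≤ d + 1)
      rw [Fintype.card_finset] at h1
      exact_mod_cast h1

/-- If every slot is small modulo the ideals, so is `∑ σ, j σ`. -/
theorem near_of_slots {ι : Type*} [Fintype ι] [DecidableEq ι] [Nonempty ι] {J : ι → Set B}
    {Fs : Set B} {j₀ : ι → B} (S : QCSystem J Fs j₀) (d : ℕ) (hM : MultLE S d) (j : ι → B)
    (u : Fin (d + 2) × Fin (d + 1) → ι → B) {C : ℝ} (hu : ∀ a i, ‖u a i‖ ≤ C)
    (rF : Fin (d + 2) × Fin (d + 1) → B) (P : B) (hPF : P ∈ Fs) (hjF : ∀ i, j i ∈ Fs)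
    (g : Fin (d + 2) × Fin (d + 1) → ι → B)
    (hg : ∀ a i, g a i = star (rF a * (u a i * P)) * (rF a * (u a i * P)))
    {c : ℝ} (hc : 0 < c) (hc1 : c ≤ 1)
    (hHF : ∀ a i, cfc (fun t : ℝ => min 1 (max (2 * t / c - 1) 0)) (g a i) ∈ Fs)
    {Iseq : ℕ → Set B} (hIs : ∀ k, IsClosedIdeal (Iseq k))
    (hunit : ∀ i, ∀ η : ℝ, 0 < η → ∀ᶠ k in atTop, Near (Iseq k) η (j i - j i * S.w i k))
    (hdomY : ∀ a k, Dom (Iseq k) (c / 16)
      (star (rF a * (slotSum S d u k a * P)) * (rF a * (slotSum S d u k a * P))))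
    (mm : ι → Fin (d + 2) × Fin (d + 1) → ℕ)
    (lc rc : ∀ i a, Fin (mm i a) → B) {e1 : ℝ} (he1 : 0 < e1)
    (hlr : ∀ i a, ‖j i - ∑ q, lc i a q * cut c (g a i) * rc i a q‖ ≤ e1)
    (hrcF : ∀ i a q, rc i a q ∈ Fs) {η : ℝ} (hη : 0 < η) :
    ∀ᶠ k in atTop, Near (Iseq k)
      (2 ^ (d + 3) * ((2 : ℝ) ^ Fintype.card ι * ((2 : ℝ) ^ Fintype.card ι * e1)) + η)
      (∑ i, j i) := by
  set Ns := (2 : ℝ) ^ Fintype.card ι with hNs
  have hNs0 : 0 < Ns := by positivity
  have hgap : ∀ (m : Fin (d + 2)) i, ∀ η : ℝ, 0 < η → ∀ᶠ k in atTop,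
      Near (Iseq k) (Ns * e1 + η) (j i * S.prodSeq (fun _ => winGap' d m) k) := by
    intro m i η hη
    have hterm : ∀ A : Finset ι, ∀ᶠ k in atTop,
        Near (Iseq k) (e1 + η / Ns) (j i * winKap S d m A k) := by
      intro A
      by_cases hA : A.card ≤ d + 1
      · by_cases hiA : i ∈ A
        · have hex : ∃ l : Fin (d + 1), ∀ v : ι → B, slotCoef v A l = v i := by
            obtain ⟨l, hl, hli⟩ := List.getElem_of_mem (Finset.mem_toList.mpr hiA)
            have hlA : l < d + 1 := by rw [Finset.length_toList] at hl; omega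
            refine ⟨⟨l, hlA⟩, fun v => ?_⟩
            rw [slotCoef, dif_pos hl, hli]
          obtain ⟨l, hl⟩ := hex
          exact near_mul_kap S d hIs m l (u (m, l)) P (rF (m, l)) hPF hA
            (hl _) (hu (m, l)) (hg (m, l) i) hc hc1 (hHF (m, l) i)
            (Eventually.of_forall fun k => hdomY (m, l) k) (hlr i (m, l))
            (fun q => hrcF i (m, l) q) (by positivity)
        · exact near_mul_winKap_notMem S d hIs (hjF i) m hiA (hunit i)
            (show (0 : ℝ) < e1 + η / Ns by positivity)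
      · have hz := (winKap_aeq_zero S d hM m hA).mul_left (abdd_const (j i))
        filter_upwards [hz.eventually (show (0 : ℝ) < e1 + η / Ns by positivity)] with k hk
        simp only [mul_zero] at hk
        exact ⟨0, (hIs k).zero_mem, hk⟩
    filter_upwards [eventually_all.mpr hterm] with k hk
    choose Y hY hYn using hk
    refine ⟨∑ A, Y A, (hIs k).sum_mem _ _ fun A _ => hY A, ?_⟩
    rw [← sum_winKap S d m k, Finset.mul_sum, ← Finset.sum_sub_distrib]
    refine (norm_sum_le _ _).trans ((Finset.sum_le_sum fun A _ => hYn A).trans (le_of_eq ?_))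
    simp only [Finset.sum_const, Finset.card_univ, Fintype.card_finset, nsmul_eq_mul]
    push_cast
    rw [← hNs]
    field_simp
  refine near_of_gaps S d hM hIs (by positivity) (fun m η hη => ?_) hη
  filter_upwards [eventually_all.mpr fun i => hgap m i (η / Ns) (by positivity)] with k hk
  choose Y hY hYn using hk
  refine ⟨∑ i, Y i, (hIs k).sum_mem _ _ fun i _ => hY i, ?_⟩
  rw [Finset.sum_mul, ← Finset.sum_sub_distrib]
  refine (norm_sum_le _ _).trans ((Finset.sum_le_sum fun i _ => hYn i).trans ?_)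
  simp only [Finset.sum_const, Finset.card_univ, nsmul_eq_mul]
  calc _ ≤ Ns * (Ns * e1 + η / Ns) := by
        refine mul_le_mul_of_nonneg_right ?_ (by positivity)
        rw [hNs]
        exact_mod_cast Nat.lt_two_pow_self.le
    _ = _ := by field_simp

/-- Orthogonality of distinct slots turns fullness of the sum into fullness of each slot. -/
theorem dom_slot {κ : Type*} [Fintype κ] [DecidableEq κ] [Nonempty κ] {I : Set B}
    (hI : IsClosedIdeal I) (r b : κ → B) (hr : ∀ a, IsSelfAdjoint (r a)) (P : B) {Q c : ℝ}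
    (hQ : 0 < Q) (hc : 0 < c) (hb : ∀ a, ‖b a * P‖ ≤ Q)
    (hcross : ∀ a a', a ≠ a' → ‖r a * r a'‖ ≤ c / (32 * ((Fintype.card κ : ℝ) ^ 2 * Q ^ 2)))
    (hD : Dom I (c / 32) (star ((∑ a, r a * b a) * P) * ((∑ a, r a * b a) * P))) (a : κ) :
    Dom I (c / 16) (star (r a * (b a * P)) * (r a * (b a * P))) := by
  set K := (Fintype.card κ : ℝ) with hK
  have hK0 : 0 < K := by rw [hK]; exact_mod_cast Fintype.card_pos
  have e0 : (∑ a, r a * b a) * P = ∑ a, r a * (b a * P) := by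
    simp only [Finset.sum_mul, mul_assoc]
  rw [e0] at hD
  have hc' : ∀ a a', a ≠ a' → ‖star (r a * (b a * P)) * (r a' * (b a' * P))‖ ≤
      c / (32 * K ^ 2) := by
    intro a a' haa
    have h0 : star (r a * (b a * P)) * (r a' * (b a' * P)) =
        star (b a * P) * (r a * r a') * (b a' * P) := by
      rw [star_mul (r a), (hr a).star_eq]
      noncomm_ring
    rw [h0]
    calc _ ≤ ‖star (b a * P)‖ * ‖r a * r a'‖ * ‖b a' * P‖ :=
          (norm_mul_le _ _).trans (mul_le_mul_of_nonneg_right (norm_mul_le _ _) (norm_nonneg _))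
      _ ≤ Q * (c / (32 * (K ^ 2 * Q ^ 2))) * Q := by
          rw [norm_star]
          exact mul_le_mul (mul_le_mul (hb a) (hcross a a' haa) (norm_nonneg _) hQ.le)
            (hb a') (norm_nonneg _) (by positivity)
      _ = c / (32 * K ^ 2) := by field_simp
  have h1 : star (r a * (b a * P)) * (r a * (b a * P)) ≤
      star (∑ a, r a * (b a * P)) * (∑ a, r a * (b a * P)) + sc (K ^ 2 * (c / (32 * K ^ 2))) :=
    (Finset.single_le_sum (f := fun a => star (r a * (b a * P)) * (r a * (b a * P)))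
      (fun a _ => star_mul_self_nonneg _) (Finset.mem_univ a)).trans
      (sum_star_mul_le _ hc' (by positivity))
  refine (hD.add hI (dom_of_le_sc hI le_rfl)).mono h1 (le_of_eq ?_)
  field_simp
  ring

/-- The choice cover followed by a refinement of bounded multiplicity. -/
theorem exists_refined_choices {A₀ : Set B} {d : ℕ} (hD : StratCover A₀ d) {κ β : Type} [Fintype κ]
    [DecidableEq κ] [Nonempty κ] [Fintype β] [DecidableEq β] (I : κ → β → Set B)
    (hI : ∀ a q, IsClosedIdeal (I a q) ∧ I a q ⊆ A₀) {P : B} (hP : 0 ≤ P) {Cp : ℝ}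
    (hCp : 1 ≤ Cp) (hPn : ‖P‖ ≤ Cp) {t : ℝ} (ht : 0 < t) (ht1 : t ≤ 1)
    (hdom : ∀ a, Dom (closedSum (I a)) t (P * P)) {e : ℝ} (he : 0 < e) :
    ∃ g : B, ∃ _D : StratRefinement (fun σ : κ → β => ⋂ a, I a (σ a)) g e d,
      ‖(P * P) ^ Fintype.card κ - g‖ ≤
        (Fintype.card κ : ℝ) * (3 * Cp ^ 2) ^ Fintype.card κ * Real.sqrt t := by
  obtain ⟨g₀, hg₀, hg₀n⟩ :=
    exists_mem_closedSum_choices I (fun a q => (hI a q).1) hP hCp hPn ht ht1 hdom
  obtain ⟨D⟩ := hD (κ → β) (fun σ => ⋂ a, I a (σ a))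
    (fun σ => ⟨IsClosedIdeal.inter fun a => (hI a (σ a)).1,
      (Set.iInter_subset _ (Classical.arbitrary κ)).trans (hI _ _).2⟩) g₀ hg₀ e he
  exact ⟨g₀, D, by rw [norm_sub_rev]; exact hg₀n⟩

/-- The slot combination of a refinement is full for `P²`. -/
theorem exists_full_slots {A₀ : Set B} (hA₀ : IsClosedIdeal A₀) {d : ℕ} {ι : Type} [Fintype ι]
    [DecidableEq ι] [Nonempty ι] {I : ι → Set B} (hI : ∀ σ, IsClosedIdeal (I σ))
    (F : Fin (d + 2) × Fin (d + 1) → B) (u g : Fin (d + 2) × Fin (d + 1) → ι → B) {P : B}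
    (hP0 : 0 ≤ P) {C Cp c : ℝ} (hC : 1 ≤ C) (hCp : 1 ≤ Cp) (hPn : ‖P‖ ≤ Cp) (hc0 : 0 < c)
    (hc1 : c ≤ 1) (hu : ∀ a σ, u a σ ∈ A₀ ∧ ‖u a σ‖ ≤ C)
    (hg : ∀ a σ, g a σ = star (CFC.sqrt (F a) * (u a σ * P)) * (CFC.sqrt (F a) * (u a σ * P)))
    (hIg : ∀ σ a, I σ ⊆ genIdeal (cut c (g a σ))) {Ns : ℝ}
    (hNs : Ns = (2 : ℝ) ^ Fintype.card ι)
    (hFo : ∀ a b, a ≠ b → ‖CFC.sqrt (F a) * CFC.sqrt (F b)‖ ≤
      c / (32 * ((Fintype.card (Fin (d + 2) × Fin (d + 1)) : ℝ) ^ 2 * (Ns * C * Cp) ^ 2)))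
    {g₀ : B} {δ δ' : ℝ} {K : ℕ} (hδ' : 0 < δ') (D : StratRefinement I g₀ (δ' / 8) d)
    (h1 : ‖(P * P) ^ K - g₀‖ ≤ δ' / 4)
    (hpow : ∀ L : Set B, IsClosedIdeal L → Dom L δ' ((P * P) ^ K) → Dom L δ (P * P)) :
    ∃ b : Fin (d + 2) × Fin (d + 1) → B, (∀ a, b a ∈ A₀ ∧ ‖b a‖ ≤ Ns * C) ∧
      FullFor (c / 32) δ
        (star ((∑ a, CFC.sqrt (F a) * b a) * P) * ((∑ a, CFC.sqrt (F a) * b a) * P))
        (P * P) := by
  subst hNs
  set Ns := (2 : ℝ) ^ Fintype.card ι with hNs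
  set e1 : ℝ := D.δ / (2 ^ (d + 6) * Ns * Ns) with he1
  have he10 : 0 < e1 := div_pos D.δ_pos (by positivity)
  have happ : ∀ (st : Fin (D.S + 1)) σ a, ∃ (mm : ℕ) (lc rc : Fin mm → B),
      ‖D.j st σ - ∑ q, lc q * cut c (g a σ) * rc q‖ ≤ e1 := fun st σ a =>
    genIdeal_approx (hIg σ a ((D.J_ideal st σ).2 (D.j_mem st σ))) he10
  choose mm lc rc hlr using happ
  set H : Fin (d + 2) × Fin (d + 1) → ι → B :=
    fun a q => cfc (fun t : ℝ => min 1 (max (2 * t / c - 1) 0)) (g a q) with hH_def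
  set Fs : Set B := ({P} ∪ Set.range (fun x : (Fin (d + 2) × Fin (d + 1)) × ι => H x.1 x.2)) ∪
    (Set.range (fun x : Fin (D.S + 1) × ι => D.j x.1 x.2) ∪
      Set.range (fun x : Σ (p : Fin (D.S + 1) × ι ×
        (Fin (d + 2) × Fin (d + 1))), Fin (mm p.1 p.2.1 p.2.2) => rc x.1.1 x.1.2.1 x.1.2.2 x.2))
    with hFs
  have hFfin : Fs.Finite :=
    ((Set.finite_singleton P).union (Set.finite_range _)).union
      ((Set.finite_range _).union (Set.finite_range _))
  obtain ⟨S, hM, hunit⟩ := exists_stratSystem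
    hI D hFfin
  set bk : ℕ → Fin (d + 2) × Fin (d + 1) → B := fun k a => slotSum S d u k a with hbk
  have hbkn : ∀ k a, ‖bk k a‖ ≤ Ns * C := fun k a =>
    norm_slotSum_le S d u (zero_le_one.trans hC) (fun a σ => (hu a σ).2) k a
  suffices hmain : ∀ᶠ k in atTop, FullFor (c / 32) δ
      (star ((∑ a, CFC.sqrt (F a) * bk k a) * P) * ((∑ a, CFC.sqrt (F a) * bk k a) * P))
      (P * P) by
    obtain ⟨k, hk⟩ := hmain.exists
    exact ⟨bk k, fun a => ⟨slotSum_mem S d hA₀ u (fun a σ => (hu a σ).1) k a, hbkn k a⟩, hk⟩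
  -- an arbitrary sequence of ideals
  set X : ℕ → B := fun k => (∑ a, CFC.sqrt (F a) * bk k a) * P with hX
  have hseq : ∀ Iseq : ℕ → Set B, (∀ k, IsClosedIdeal (Iseq k)) →
      (∀ k, Dom (Iseq k) (c / 32) (star (X k) * X k)) →
      ∀ᶠ k in atTop, Dom (Iseq k) δ (P * P) := by
    intro Iseq hIs hDs
    have hQ : ∀ k a, ‖bk k a * P‖ ≤ Ns * C * Cp := fun k a =>
      (norm_mul_le _ _).trans (mul_le_mul (hbkn k a) hPn (norm_nonneg _) (by positivity))
    have hdomY : ∀ a k, Dom (Iseq k) (c / 16) (star (CFC.sqrt (F a) * (slotSum S d u k a * P)) *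
        (CFC.sqrt (F a) * (slotSum S d u k a * P))) := fun a k =>
      dom_slot (hIs k) (fun a => CFC.sqrt (F a)) (bk k)
        (fun a => IsSelfAdjoint.of_nonneg (CFC.sqrt_nonneg (F a))) P (by positivity) hc0 (hQ k)
        hFo (hDs k) a
    have hstep : ∀ st, st ≤ D.S → (∀ᶠ k in atTop, D.K st ⊆ Iseq k) →
        ∀ᶠ k in atTop, Near (Iseq k) (D.δ / 2) (∑ σ, D.j st σ) := by
      intro st hst hK'
      have hu1 : ∀ σ, ∀ η : ℝ, 0 < η → ∀ᶠ k in atTop,
          Near (Iseq k) η (D.j st σ - D.j st σ * S.w σ k) := by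
        intro σ η hη
        filter_upwards [hunit st hst σ η hη, hK'] with k hk1 hk2
        obtain ⟨Y, hY, hn⟩ := hk1
        exact ⟨Y, hk2 hY, hn⟩
      have hst' : st < D.S + 1 := by omega
      filter_upwards [near_of_slots S d hM (fun σ => D.j st σ) u
        (fun a σ => (hu a σ).2) (fun a => CFC.sqrt (F a)) P (Or.inl (Or.inl rfl))
        (fun σ => Or.inr (Or.inl ⟨(⟨st, hst'⟩, σ), rfl⟩)) g
        hg hc0 hc1 (fun a σ => Or.inl (Or.inr ⟨(a, σ), rfl⟩)) hIs hu1 hdomY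
        (fun σ a => mm ⟨st, hst'⟩ σ a) (fun σ a => lc ⟨st, hst'⟩ σ a)
        (fun σ a => rc ⟨st, hst'⟩ σ a) he10 (fun σ a => hlr ⟨st, hst'⟩ σ a)
        (fun σ a q => Or.inr (Or.inr ⟨⟨(⟨st, hst'⟩, σ, a), q⟩, rfl⟩))
        (show (0 : ℝ) < D.δ / 4 by exact div_pos D.δ_pos four_pos)] with k hk
      have hNs0 : Ns ≠ 0 := by positivity
      have e2 : (2 : ℝ) ^ (d + 3) * (Ns * (Ns * e1)) = D.δ / 8 := by
        rw [he1, show (2 : ℝ) ^ (d + 6) = 2 ^ (d + 3) * 8 by
          rw [show (d + 6) = (d + 3) + 3 by omega, pow_add]; norm_num]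
        field_simp
      obtain ⟨Y, hY, hn⟩ := hk
      refine ⟨Y, hY, hn.trans ?_⟩
      rw [← hNs, e2]
      linarith [D.δ_pos]
    filter_upwards [D.near_of_step hIs hstep] with k hk
    have hPs := IsSelfAdjoint.of_nonneg hP0
    have h2 := Near.dom (hIs k) (show (0 : ℝ) < δ' / 8 by positivity)
      ((IsSelfAdjoint.of_nonneg hPs.mul_self_nonneg).pow K) (hk.of_norm_le h1)
    refine hpow _ (hIs k) (h2.mono le_rfl ?_)
    linarith [D.δ_le]
  by_contra hne
  rw [not_eventually] at hne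
  have hex : ∀ k, ∃ I : Set B, IsClosedIdeal I ∧ Dom I (c / 32) (star (X k) * X k) ∧
      (¬ FullFor (c / 32) δ (star (X k) * X k) (P * P) → ¬ Dom I δ (P * P)) := by
    intro k
    by_cases hk : FullFor (c / 32) δ (star (X k) * X k) (P * P)
    · refine ⟨genIdeal (star (X k) * X k), isClosedIdeal_genIdeal _, ⟨_, mem_genIdeal_self _,
        star_mul_self_nonneg _, ?_⟩, fun h => absurd hk h⟩
      exact le_add_of_nonneg_right (sc_nonneg (by positivity))
    · simp only [FullFor, not_forall] at hk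
      obtain ⟨I, hI1, hI2, hI3⟩ := hk
      exact ⟨I, hI1, hI2, fun _ => hI3⟩
  choose Iseq hIseq1 hIseq2 hIseq3 using hex
  obtain ⟨k, hk1, hk2⟩ := (hne.and_eventually (hseq Iseq hIseq1 hIseq2)).exists
  exact hIseq3 k hk1 hk2

theorem colour {A₀ : Set B} {n d : ℕ} (hA₀ : IsClosedIdeal A₀) (hn : 1 ≤ n)
    (hD : StratCover A₀ d) {C : ℝ} (hC : 1 ≤ C) :
    ∃ Cb : ℝ, 0 < Cb ∧ ∀ Cp : ℝ, 1 ≤ Cp → ∀ δ : ℝ, 0 < δ → ∃ c' θ₀ : ℝ, 0 < c' ∧ 0 < θ₀ ∧
      ∀ (F : Fin (d + 2) × Fin (d + 1) → B) (u : Fin (d + 2) × Fin (d + 1) → Fin n → B)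
        (h P : B),
        (∀ a, 0 ≤ F a ∧ F a ≤ 1 ∧ F a ∈ A₀) →
        (∀ a b, a ≠ b → ‖CFC.sqrt (F a) * CFC.sqrt (F b)‖ ≤ θ₀) →
        (∀ a q, u a q ∈ A₀ ∧ ‖u a q‖ ≤ C) →
        (∀ a, ‖(∑ q, star (u a q) * F a * u a q) - h‖ ≤ 1 / 8) →
        P ∈ A₀ → 0 ≤ P → ‖P‖ ≤ Cp → IsSelfAdjoint h → h * P = P →
        ∃ b : Fin (d + 2) × Fin (d + 1) → B, (∀ a, b a ∈ A₀ ∧ ‖b a‖ ≤ Cb) ∧
          FullFor c' δ
            (star ((∑ a, CFC.sqrt (F a) * b a) * P) * ((∑ a, CFC.sqrt (F a) * b a) * P))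
            (P * P) := by
  set Ns : ℝ := (2 : ℝ) ^ (Fintype.card ((Fin (d + 2) × Fin (d + 1)) → Fin n)) with hNs
  have hnpos : (0 : ℝ) < n := by exact_mod_cast hn
  have : Nonempty (Fin n) := Fin.pos_iff_nonempty.mp hn
  refine ⟨Ns * C, by positivity, fun Cp hCp δ hδ => ?_⟩
  set K := Fintype.card (Fin (d + 2) × Fin (d + 1)) with hK
  have hK1 : 1 ≤ K := Fintype.card_pos
  obtain ⟨δ', hδ', hpow⟩ := dom_of_pow (B := B) hK1 hδ
  set M : ℝ := (K : ℝ) * (3 * Cp ^ 2) ^ K with hM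
  have hM0 : 0 < M := by
    have : (0 : ℝ) < K := by exact_mod_cast hK1
    positivity
  set c : ℝ := min ((δ' / (4 * M)) ^ 2) 1 / (2 * n) with hc
  have hc0 : 0 < c := by positivity
  have hcn : 2 * n * c = min ((δ' / (4 * M)) ^ 2) 1 := by rw [hc]; field_simp
  have hc1 : c ≤ 1 := by
    have h1 : 2 * n * c ≤ 1 := hcn ▸ min_le_right _ _
    have h2 : (1 : ℝ) ≤ n := by exact_mod_cast hn
    nlinarith
  refine ⟨c / 32, c / (32 * ((K : ℝ) ^ 2 * (Ns * C * Cp) ^ 2)), by positivity, by positivity,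
    fun F u h P hF hFo hu hFu hPA hP0 hPn hh hhP => ?_⟩
  set g : Fin (d + 2) × Fin (d + 1) → Fin n → B :=
    fun a q => star (CFC.sqrt (F a) * (u a q * P)) * (CFC.sqrt (F a) * (u a q * P)) with hg_def
  have hgA : ∀ a q, g a q ∈ A₀ := fun a q =>
    hA₀.mul_left _ _ (hA₀.mul_left _ _ (hA₀.mul_left _ _ hPA))
  set I : Fin (d + 2) × Fin (d + 1) → Fin n → Set B :=
    fun a q => genIdeal (cut c (g a q)) with hI_def
  have hI : ∀ a q, IsClosedIdeal (I a q) := fun a q => isClosedIdeal_genIdeal _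
  have hdomP : ∀ a, Dom (closedSum (I a)) (min ((δ' / (4 * M)) ^ 2) 1) (P * P) := fun a =>
    hcn ▸ dom_cover_one (hF a).1 (u a) (hFu a) hP0 hh hhP c
  obtain ⟨g₀, D, hgP⟩ := exists_refined_choices hD I (fun a q => ⟨hI a q,
    genIdeal_subset hA₀ (cut_mem hA₀ hc0.le (star_mul_self_nonneg _) (hgA a q))⟩) hP0 hCp hPn
    (by positivity) (min_le_right _ _) hdomP (show (0 : ℝ) < δ' / 8 by positivity)
  have h1 : ‖(P * P) ^ K - g₀‖ ≤ δ' / 4 := by
    refine hgP.trans ?_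
    calc M * Real.sqrt (min ((δ' / (4 * M)) ^ 2) 1) ≤ M * (δ' / (4 * M)) := by
          refine mul_le_mul_of_nonneg_left ?_ hM0.le
          rw [Real.sqrt_le_iff]
          exact ⟨by positivity, min_le_left _ _⟩
      _ = δ' / 4 := by field_simp
  have := @exists_full_slots B _ _ _ A₀ hA₀ d ((Fin (d + 2) × Fin (d + 1)) → Fin n) _ _ _
    (fun σ => ⋂ a, I a (σ a)) (fun σ => IsClosedIdeal.inter fun a => hI a (σ a)) F
    (fun a σ => u a (σ a)) (fun a σ => g a (σ a)) P hP0 C Cp c hC hCp hPn hc0 hc1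
    (fun a σ => hu a (σ a)) (fun _ _ => rfl) (fun σ a => Set.iInter_subset _ a) Ns hNs hFo g₀ δ δ'
    K hδ' D h1 (hpow P hP0)
  exact this

end

end Vale.Agent.P133.FinDim
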