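import Vale.Agent.P133.FinDim.Weights

/-!
Consequences of weak pure infiniteness: many copies, and bounded comparisons.
-/

namespace Vale.Agent.P133.FinDim

open scoped ComplexOrder

noncomputable section

variable {B : Type*} [CStarAlgebra B] [PartialOrder B] [StarOrderedRing B]

/-- Inside the ideal `A₀`, the `n`-fold amplifications are properly infinite. -/
def AmpPI (A₀ : Set B) (n : ℕ) : Prop :=
  ∀ h ∈ A₀, 0 ≤ h → ∀ ε : ℝ, 0 < ε → ∃ r : Fin n → (Fin n × Fin 2) → B,
    (∀ p c, r p c ∈ A₀) ∧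
      ∀ c c', ‖(∑ p, star (r p c) * h * r p c') - (if c = c' then h else 0)‖ ≤ ε

/-- The covering dimension hypothesis inside `A₀`. -/
def CoverDim (A₀ : Set B) (d : ℕ) : Prop :=
  ∀ (ι : Type) [Fintype ι] (I : ι → Set B), (∀ i, IsClosedIdeal (I i) ∧ I i ⊆ A₀) →
    ∀ b ∈ closedSum I, ∀ ε : ℝ, 0 < ε →
      ∃ J : ι → Set B, (∀ i, IsClosedIdeal (J i) ∧ J i ⊆ I i) ∧
        (∀ S : Finset ι, S.card = d + 2 → ∀ x : B, (∀ i ∈ S, x ∈ J i) → x = 0) ∧
        ∃ j : ι → B, (∀ i, j i ∈ J i) ∧ ‖b - ∑ i, j i‖ ≤ ε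

variable {A₀ : Set B} {n : ℕ}

omit [PartialOrder B] [StarOrderedRing B] in
/-- A doubly indexed error is controlled entrywise. -/
lemma norm_double_sum_le {α β : Type*} (s : Finset α) (t : Finset β) (a : α → B) (b : β → B)
    (M : α → β → B) {C D ε : ℝ} (hC : 0 ≤ C) (ha : ∀ i ∈ s, ‖a i‖ ≤ C) (hb : ∀ j ∈ t, ‖b j‖ ≤ D)
    (hM : ∀ i ∈ s, ∀ j ∈ t, ‖M i j‖ ≤ ε) :
    ‖∑ i ∈ s, ∑ j ∈ t, star (a i) * M i j * b j‖ ≤ s.card * (t.card * (C * ε * D)) := by
  calc ‖∑ i ∈ s, ∑ j ∈ t, star (a i) * M i j * b j‖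
      ≤ ∑ i ∈ s, ‖∑ j ∈ t, star (a i) * M i j * b j‖ := norm_sum_le _ _
    _ ≤ ∑ _i ∈ s, (t.card * (C * ε * D) : ℝ) := Finset.sum_le_sum fun i hi => by
        refine (norm_sum_le _ _).trans ?_
        calc ∑ j ∈ t, ‖star (a i) * M i j * b j‖ ≤ ∑ _j ∈ t, C * ε * D :=
              Finset.sum_le_sum fun j hj => by
                refine (norm_mul_le _ _).trans ?_
                have h1 : ‖star (a i) * M i j‖ ≤ C * ε := by
                  refine (norm_mul_le _ _).trans ?_
                  rw [norm_star]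
                  exact mul_le_mul (ha i hi) (hM i hi j hj) (norm_nonneg _) hC
                exact mul_le_mul h1 (hb j hj) (norm_nonneg _) (le_trans (norm_nonneg _) h1)
          _ = t.card * (C * ε * D) := by rw [Finset.sum_const, nsmul_eq_mul]
    _ = _ := by rw [Finset.sum_const, nsmul_eq_mul]

omit [PartialOrder B] [StarOrderedRing B] in
/-- Conjugating a matrix of copies by a column. -/
lemma sum_conj_column {α β : Type*} [Fintype α] [Fintype β] (a a' : α → β → B) (b b' : β → B)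
    (h : B) (m : β → β → B) :
    ∑ p, star (∑ q, a p q * b q) * h * (∑ q', a' p q' * b' q') =
      (∑ q, ∑ q', star (b q) * ((∑ p, star (a p q) * h * a' p q') - m q q') * b' q') +
        ∑ q, ∑ q', star (b q) * m q q' * b' q' := by
  simp only [← Finset.sum_add_distrib, mul_sub, sub_mul, sub_add_cancel]
  simp only [star_sum, star_mul, Finset.sum_mul, Finset.mul_sum, mul_assoc]
  conv_rhs => rw [Finset.sum_comm]
  rw [Finset.sum_comm]
  exact Finset.sum_congr rfl fun q _ => Finset.sum_comm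

omit [PartialOrder B] [StarOrderedRing B] in
/-- Restriction of copies along an injection. -/
lemma copies_restrict {α ι : Type*} [DecidableEq α] [DecidableEq ι] {h : B} {ε : ℝ}
    (g : ι ↪ α)
    (H : ∃ r : Fin n → α → B, (∀ p c, r p c ∈ A₀) ∧
      ∀ c c', ‖(∑ p, star (r p c) * h * r p c') - (if c = c' then h else 0)‖ ≤ ε) :
    ∃ r : Fin n → ι → B, (∀ p c, r p c ∈ A₀) ∧
      ∀ c c', ‖(∑ p, star (r p c) * h * r p c') - (if c = c' then h else 0)‖ ≤ ε := by
  obtain ⟨r, hr, hrr⟩ := H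
  refine ⟨fun p c => r p (g c), fun p c => hr p _, fun c c' => ?_⟩
  have := hrr (g c) (g c')
  simpa [g.injective.eq_iff] using this

/-- `n * 2 ^ k` copies. -/
lemma AmpPI.copies_pow (hA₀ : IsClosedIdeal A₀) (hP : AmpPI A₀ n) (k : ℕ) {h : B}
    (hhA : h ∈ A₀) (hh : 0 ≤ h) {ε : ℝ} (hε : 0 < ε) :
    ∃ r : Fin n → (Fin n × Fin (2 ^ k)) → B, (∀ p c, r p c ∈ A₀) ∧
      ∀ c c', ‖(∑ p, star (r p c) * h * r p c') - (if c = c' then h else 0)‖ ≤ ε := by
  induction k generalizing ε with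
  | zero =>
    exact copies_restrict ⟨fun c => (c.1, (0 : Fin 2)), fun a b hab =>
      Prod.ext (congrArg Prod.fst hab :) (@Subsingleton.elim _ (by rw [pow_zero]; infer_instance) _ _)⟩
      (hP h hhA hh ε hε)
  | succ k ih =>
    obtain ⟨r, hr, hrr⟩ := hP h hhA hh (ε / 2) (half_pos hε)
    set C := ∑ x : Fin n × (Fin n × Fin 2), ‖r x.1 x.2‖ with hC
    have hCr : ∀ q c, ‖r q c‖ ≤ C := fun q c =>
      Finset.single_le_sum (f := fun x : Fin n × (Fin n × Fin 2) => ‖r x.1 x.2‖)
        (fun _ _ => norm_nonneg _) (Finset.mem_univ (q, c))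
    have hC0 : 0 ≤ C := Finset.sum_nonneg fun _ _ => norm_nonneg _
    obtain ⟨s, -, hss⟩ := ih (ε := ε / (2 * ((n : ℝ) * (n * (C * C)) + 1))) (by positivity)
    let t : Fin n → (Fin n × (Fin (2 ^ k) × Fin 2)) → B := fun p c =>
      ∑ q, s p (q, c.2.1) * r q (c.1, c.2.2)
    have key : ∀ c c', ‖(∑ p, star (t p c) * h * t p c') - (if c = c' then h else 0)‖ ≤ ε := by
      intro c c'
      set M : Fin n → Fin n → B := fun q q' =>
        (∑ p, star (s p (q, c.2.1)) * h * s p (q', c'.2.1)) -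
          (if (q, c.2.1) = (q', c'.2.1) then h else 0) with hM
      have e1 : ∑ p, star (t p c) * h * t p c' =
          (∑ q, ∑ q', star (r q (c.1, c.2.2)) * M q q' * r q' (c'.1, c'.2.2)) +
            ∑ q, ∑ q', star (r q (c.1, c.2.2)) * (if (q, c.2.1) = (q', c'.2.1) then h else 0) *
              r q' (c'.1, c'.2.2) := by
        simp only [t, hM]
        exact sum_conj_column (fun p q => s p (q, c.2.1)) (fun p q => s p (q, c'.2.1)) _ _ h _
      have e2 : (∑ q, ∑ q', star (r q (c.1, c.2.2)) *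
            (if (q, c.2.1) = (q', c'.2.1) then h else 0) * r q' (c'.1, c'.2.2)) =
          if c.2.1 = c'.2.1 then ∑ q, star (r q (c.1, c.2.2)) * h * r q (c'.1, c'.2.2) else 0 := by
        by_cases hj : c.2.1 = c'.2.1
        · simp [hj, Prod.mk.injEq, mul_ite, ite_mul]
        · simp [hj, Prod.mk.injEq]
      have b1 : ‖∑ q, ∑ q', star (r q (c.1, c.2.2)) * M q q' * r q' (c'.1, c'.2.2)‖ ≤ ε / 2 := by
        refine (norm_double_sum_le Finset.univ Finset.univ (fun q => r q (c.1, c.2.2))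
          (fun q => r q (c'.1, c'.2.2)) M hC0 (fun q _ => hCr _ _) (fun q _ => hCr _ _)
          (fun q _ q' _ => hss _ _)).trans ?_
        rw [Finset.card_univ, Fintype.card_fin]
        calc (n : ℝ) * (n * (C * (ε / (2 * ((n : ℝ) * (n * (C * C)) + 1))) * C))
            = ((n : ℝ) * (n * (C * C))) / ((n : ℝ) * (n * (C * C)) + 1) * (ε / 2) := by field_simp
          _ ≤ 1 * (ε / 2) := by
              refine mul_le_mul_of_nonneg_right ?_ (half_pos hε).le
              rw [div_le_one (by positivity)]; linarith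
          _ = ε / 2 := one_mul _
      rw [e1, e2, add_sub_assoc]
      refine (norm_add_le _ _).trans ((add_le_add b1 ?_).trans_eq (add_halves ε))
      by_cases hj : c.2.1 = c'.2.1
      · rw [if_pos hj]
        refine le_of_eq_of_le ?_ (hrr (c.1, c.2.2) (c'.1, c'.2.2))
        congr 2
        refine if_congr ?_ rfl rfl
        simp [Prod.ext_iff, hj]
      · rw [if_neg hj, if_neg (fun e => hj (by rw [e])), sub_zero, norm_zero]
        exact (half_pos hε).le
    have e : Fin n × Fin (2 ^ (k + 1)) ≃ Fin n × (Fin (2 ^ k) × Fin 2) :=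
      Equiv.prodCongr (Equiv.refl _) ((finCongr (pow_succ 2 k)).trans finProdFinEquiv.symm)
    exact copies_restrict e.toEmbedding
      ⟨t, fun p c => hA₀.sum_mem _ _ fun q _ => hA₀.mul_left _ _ (hr _ _), key⟩

/-- Any finite number of copies. -/
theorem AmpPI.copies (hA₀ : IsClosedIdeal A₀) (hP : AmpPI A₀ n) (hn : 1 ≤ n) (ι : Type*)
    [Fintype ι] [DecidableEq ι] {h : B} (hhA : h ∈ A₀) (hh : 0 ≤ h) {ε : ℝ} (hε : 0 < ε) :
    ∃ r : Fin n → ι → B, (∀ p c, r p c ∈ A₀) ∧
      ∀ c c', ‖(∑ p, star (r p c) * h * r p c') - (if c = c' then h else 0)‖ ≤ ε := by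
  have hcard : Fintype.card ι ≤ Fintype.card (Fin n × Fin (2 ^ Fintype.card ι)) := by
    rw [Fintype.card_prod, Fintype.card_fin, Fintype.card_fin]
    exact (Nat.lt_two_pow_self).le.trans (Nat.le_mul_of_pos_left _ hn)
  obtain ⟨g⟩ := Function.Embedding.nonempty_of_card_le hcard
  exact copies_restrict g (hP.copies_pow hA₀ _ hhA hh hε)

/-- The function `k` with `k t k = (t - c)₊` and `c k² ≤ k t k`. -/
lemma exists_cut_factor {c : ℝ} (hc : 0 < c) {G : B} (hG : 0 ≤ G) :
    ∃ k : B, IsSelfAdjoint k ∧ k * G * k = cut c G ∧ c • (k * k) ≤ cut c G := by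
  set φ : ℝ → ℝ := fun t => Real.sqrt (max (t - c) 0 / max t c) with hφ
  have hm : ∀ t : ℝ, max t c ≠ 0 := fun t => (lt_max_of_lt_right hc).ne'
  have hcont : Continuous φ := ((((continuous_id.sub continuous_const).max continuous_const).div
    (continuous_id.max continuous_const) hm)).sqrt
  have hsq : ∀ t, φ t * φ t = max (t - c) 0 / max t c := fun t =>
    Real.mul_self_sqrt (div_nonneg (le_max_right _ _) (le_max_of_le_right hc.le))
  have hGs : IsSelfAdjoint G := IsSelfAdjoint.of_nonneg hG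
  refine ⟨cfc φ G, cfc_predicate _ _, ?_, ?_⟩
  · calc cfc φ G * G * cfc φ G
        = cfc φ G * cfc (fun t : ℝ => t) G * cfc φ G := by rw [cfc_id' ℝ G]
      _ = cfc (fun t => φ t * t * φ t) G := by
          rw [← cfc_mul φ (fun t : ℝ => t) G hcont.continuousOn continuousOn_id,
            ← cfc_mul (fun t => φ t * t) φ G (hcont.mul continuous_id).continuousOn
              hcont.continuousOn]
      _ = cut c G := by
          refine cfc_congr fun t ht => ?_
          have ht0 : 0 ≤ t := spectrum_nonneg_of_nonneg hG ht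
          rw [show φ t * t * φ t = φ t * φ t * t by ring, hsq]
          rcases le_total t c with h | h
          · rw [max_eq_right (sub_nonpos.2 h), zero_div, zero_mul]
          · rw [max_eq_left h, div_mul_cancel₀]
            linarith
  · rw [← cfc_mul φ φ G hcont.continuousOn hcont.continuousOn,
      ← cfc_smul c (fun t => φ t * φ t) G (hcont.mul hcont).continuousOn, cut]
    refine cfc_mono (fun t _ => ?_) (((hcont.mul hcont).const_smul c).continuousOn)
      ((continuous_id.sub continuous_const).max continuous_const).continuousOn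
    rw [hsq, smul_eq_mul, mul_div_assoc', div_le_iff₀ (lt_max_of_lt_right hc)]
    have h1 : c ≤ max t c := le_max_right _ _
    calc c * max (t - c) 0 = max (t - c) 0 * c := mul_comm _ _
      _ ≤ max (t - c) 0 * max t c := mul_le_mul_of_nonneg_left h1 (le_max_right _ _)

/-- If `f` is below `ε` modulo the ideal of `(G - c)₊`, then `f` is compared to `n` copies of `G`
by elements of norm controlled by `c`. -/
theorem AmpPI.compare (hA₀ : IsClosedIdeal A₀) (hP : AmpPI A₀ n) (hn : 1 ≤ n) {f G : B}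
    (hfA : f ∈ A₀) (hf : 0 ≤ f) (hGA : G ∈ A₀) (hG : 0 ≤ G) {c : ℝ} (hc : 0 < c) {ε : ℝ}
    (hε : 0 < ε) (hdom : Dom (genIdeal (cut c G)) ε f) :
    ∃ u : Fin n → B, (∀ p, u p ∈ A₀) ∧ ‖(∑ p, star (u p) * G * u p) - f‖ ≤ 4 * ε ∧
      ∀ p, c * ‖u p‖ ^ 2 ≤ ‖f‖ + 4 * ε := by
  obtain ⟨g, hgI, hg, hfg⟩ := hdom
  set G' := cut c G with hG'
  have hG'0 : 0 ≤ G' := cut_nonneg
  have hG'A : G' ∈ A₀ := cut_mem hA₀ hc.le hG hGA
  -- `g` is below a multiple of conjugates of `G'`
  set S := CFC.sqrt g with hS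
  have hSs : IsSelfAdjoint S := IsSelfAdjoint.of_nonneg (CFC.sqrt_nonneg g)
  set η := min 1 (ε / (2 * ‖S‖ + 1)) with hη
  have hη0 : 0 < η := lt_min one_pos (by positivity)
  obtain ⟨m, l, r, hlr⟩ := genIdeal_approx ((isClosedIdeal_genIdeal G').sqrt_mem hg hgI) hη0
  set X := ∑ i, l i * G' * r i with hX
  set Y₀ := ∑ i, star (r i) * G' * r i with hY₀
  set C := ‖∑ i, (l i * CFC.sqrt G') * star (l i * CFC.sqrt G')‖ + 1 with hC
  have hC0 : 0 < C := by positivity
  have hY₀0 : 0 ≤ Y₀ := Finset.sum_nonneg fun i _ => star_left_conjugate_nonneg hG'0 _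
  have hGG : CFC.sqrt G' * CFC.sqrt G' = G' := CFC.sqrt_mul_sqrt_self G' hG'0
  have hs' : star (CFC.sqrt G') = CFC.sqrt G' :=
    (IsSelfAdjoint.of_nonneg (CFC.sqrt_nonneg G')).star_eq
  have hXY : star X * X ≤ C • Y₀ := by
    have h1 := row_le Finset.univ (fun i => l i * CFC.sqrt G') (fun i => CFC.sqrt G' * r i) hC0
      (le_sc_of_norm_le (IsSelfAdjoint.of_nonneg (Finset.sum_nonneg fun i _ =>
        mul_star_self_nonneg _)) (le_add_of_nonneg_right zero_le_one))
    have e1 : ∑ i, l i * CFC.sqrt G' * (CFC.sqrt G' * r i) = X :=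
      Finset.sum_congr rfl fun i _ => by rw [mul_assoc, ← mul_assoc (CFC.sqrt G'), hGG, mul_assoc]
    have e2 : ∑ i, star (CFC.sqrt G' * r i) * (CFC.sqrt G' * r i) = Y₀ :=
      Finset.sum_congr rfl fun i _ => by
        rw [star_mul, hs', mul_assoc, ← mul_assoc (CFC.sqrt G'), hGG, mul_assoc]
    rwa [e1, e2] at h1
  have hgX : ‖g - star X * X‖ ≤ ε := by
    have hXn : ‖X‖ ≤ ‖S‖ + η := by
      calc ‖X‖ = ‖S - (S - X)‖ := by rw [sub_sub_cancel]
        _ ≤ ‖S‖ + ‖S - X‖ := norm_sub_le _ _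
        _ ≤ _ := by linarith
    have e : g - star X * X = star (S - X) * S + star X * (S - X) := by
      rw [star_sub, hSs.star_eq, sub_mul, mul_sub, ← CFC.sqrt_mul_sqrt_self g hg, ← hS]
      abel
    rw [e]
    refine (norm_add_le _ _).trans ?_
    have a1 : ‖star (S - X) * S‖ ≤ η * ‖S‖ := (norm_mul_le _ _).trans (by
      rw [norm_star]; exact mul_le_mul_of_nonneg_right hlr (norm_nonneg _))
    have a2 : ‖star X * (S - X)‖ ≤ (‖S‖ + η) * η := (norm_mul_le _ _).trans (by
      rw [norm_star]; exact mul_le_mul hXn hlr (norm_nonneg _) (by positivity))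
    have a3 : η * (2 * ‖S‖ + 1) ≤ ε := (le_div_iff₀ (by positivity)).1 (min_le_right _ _)
    have a4 : η * η ≤ η * 1 := mul_le_mul_of_nonneg_left (min_le_left _ _) hη0.le
    linarith
  have hfY : f ≤ C • Y₀ + sc (2 * ε) := by
    have h1 : g ≤ star X * X + sc ε := by
      rw [← sub_le_iff_le_add']
      exact le_sc_of_norm_le ((IsSelfAdjoint.of_nonneg hg).sub
        (IsSelfAdjoint.star_mul_self X)) hgX
    refine hfg.trans ((add_le_add (h1.trans (add_le_add hXY le_rfl)) le_rfl).trans_eq ?_)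
    rw [add_assoc, ← map_add, two_mul]
  obtain ⟨u₀, hu₀, -⟩ := exists_conj_approx hf (smul_nonneg hC0.le hY₀0)
    (by linarith : 0 ≤ 2 * ε) hε hfY
  set z := u₀ * CFC.sqrt f with hz
  have hzA : z ∈ A₀ := hA₀.mul_left _ _ (hA₀.sqrt_mem hf hfA)
  set v : Fin m → B := fun i => r i * (Real.sqrt C • z) with hv
  have hvG : ∑ i, star (v i) * G' * v i = star z * (C • Y₀) * z := by
    simp only [hv, hY₀, Finset.smul_sum, Finset.mul_sum, Finset.sum_mul, star_mul, star_smul,
      star_trivial, smul_mul_assoc, mul_smul_comm, smul_smul, Real.mul_self_sqrt hC0.le, mul_assoc]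
  -- `m` copies of `G'` inside `n`
  set V := ∑ i, ‖v i‖ with hV
  have hVi : ∀ i, ‖v i‖ ≤ V := fun i =>
    Finset.single_le_sum (fun j _ => norm_nonneg (v j)) (Finset.mem_univ i)
  have hV0 : 0 ≤ V := Finset.sum_nonneg fun _ _ => norm_nonneg _
  obtain ⟨q, hqA, hq⟩ := hP.copies hA₀ hn (Fin m) hG'A hG'0
    (ε := ε / ((m : ℝ) * (m * (V * V)) + 1)) (by positivity)
  set w : Fin n → B := fun p => ∑ i, q p i * v i with hw
  have hsum : ‖(∑ p, star (w p) * G' * w p) - f‖ ≤ 4 * ε := by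
    set M : Fin m → Fin m → B := fun i j =>
      (∑ p, star (q p i) * G' * q p j) - (if i = j then G' else 0) with hM
    have e : (∑ p, star (w p) * G' * w p) - f =
        (∑ i, ∑ j, star (v i) * M i j * v j) + ((∑ i, star (v i) * G' * v i) - f) := by
      have e1 : ∑ i, ∑ j, star (v i) * (if i = j then G' else 0) * v j =
          ∑ i, star (v i) * G' * v i := by
        simp [mul_ite, ite_mul]
      rw [← e1, ← add_sub_assoc]
      congr 1
      simp only [hw, hM]
      exact sum_conj_column q q v v G' _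
    rw [e]
    refine (norm_add_le _ _).trans ((add_le_add ((norm_double_sum_le Finset.univ Finset.univ v v M
      hV0 (fun i _ => hVi i) (fun i _ => hVi i) fun i _ j _ => hq i j).trans ?_)
      (le_of_eq_of_le (by rw [hvG]) hu₀)).trans_eq (b := ε + (ε + 2 * ε)) (by ring))
    rw [Finset.card_univ, Fintype.card_fin]
    calc (m : ℝ) * (m * (V * (ε / ((m : ℝ) * (m * (V * V)) + 1)) * V))
        = ((m : ℝ) * (m * (V * V))) / ((m : ℝ) * (m * (V * V)) + 1) * ε := by field_simp
      _ ≤ 1 * ε := by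
          refine mul_le_mul_of_nonneg_right ?_ hε.le
          rw [div_le_one (by positivity)]; linarith
      _ = ε := one_mul _
  obtain ⟨k, hks, hkG, hkc⟩ := exists_cut_factor hc hG
  rw [← hG'] at hkG hkc
  have hconj : ∀ p, star (k * w p) * G * (k * w p) = star (w p) * G' * w p := fun p => by
    rw [star_mul, hks.star_eq, ← hkG]; noncomm_ring
  refine ⟨fun p => k * w p, fun p => hA₀.mul_left _ _ (hA₀.sum_mem _ _ fun i _ =>
    hA₀.mul_right _ _ (hqA p i)), by simpa only [hconj] using hsum, fun p => ?_⟩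
  have h1 : c • (star (k * w p) * (k * w p)) ≤ ∑ p', star (w p') * G' * w p' := by
    refine le_trans ?_ (Finset.single_le_sum (f := fun p' => star (w p') * G' * w p')
      (fun p' _ => star_left_conjugate_nonneg hG'0 _) (Finset.mem_univ p))
    refine le_of_eq_of_le ?_ (star_left_conjugate_le_conjugate hkc (w p))
    rw [star_mul, hks.star_eq, mul_smul_comm, smul_mul_assoc]
    congr 1
    noncomm_ring
  have h2 := CStarAlgebra.norm_le_norm_of_nonneg_of_le (smul_nonneg hc.le (star_mul_self_nonneg _)) h1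
  rw [norm_smul, CStarRing.norm_star_mul_self, Real.norm_eq_abs, abs_of_pos hc, ← sq] at h2
  refine h2.trans ?_
  calc ‖∑ p', star (w p') * G' * w p'‖
      = ‖f + ((∑ p', star (w p') * G' * w p') - f)‖ := by rw [add_sub_cancel]
    _ ≤ ‖f‖ + 4 * ε := (norm_add_le _ _).trans (by linarith)

end

end Vale.Agent.P133.FinDim
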