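import Mathlib

/-!
Definitions for P133: the three notions of pure infiniteness, written with elements of the algebra,
and covering dimension of the lattice of closed two-sided ideals.
-/

namespace Vale.Agent.P133.FinDim

/-- A norm-closed two-sided ideal, as a set. -/
structure IsClosedIdeal {A : Type*} [NonUnitalNormedRing A] [Module ℂ A] (I : Set A) : Prop where
  zero_mem : (0 : A) ∈ I
  add_mem : ∀ x ∈ I, ∀ y ∈ I, x + y ∈ I
  smul_mem : ∀ (r : ℂ), ∀ x ∈ I, r • x ∈ I
  mul_left : ∀ (a : A), ∀ x ∈ I, a * x ∈ I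
  mul_right : ∀ (a : A), ∀ x ∈ I, x * a ∈ I
  closed : IsClosed I

/-- The norm closure of the sum of a finite family of subsets. -/
def closedSum {A : Type*} [NonUnitalNormedRing A] {ι : Type*} [Fintype ι] (I : ι → Set A) :
    Set A :=
  closure {x | ∃ j : ι → A, (∀ i, j i ∈ I i) ∧ x = ∑ i, j i}

section

variable (A : Type*) [NonUnitalCStarAlgebra A] [PartialOrder A]

/-- Every positive `h` satisfies `h ⊕ h ≾ h`. -/
def IsPurelyInfinite : Prop :=
  ∀ h : A, 0 ≤ h → ∀ ε : ℝ, 0 < ε → ∃ r : Fin 2 → A,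
    ∀ c c', ‖star (r c) * h * r c' - (if c = c' then h else 0)‖ < ε

/-- For a fixed `n ≥ 1`, the `n`-fold amplification of every positive element is properly
infinite; the matrix relation is written entrywise. -/
def IsWeaklyPurelyInfinite : Prop :=
  ∃ n : ℕ, 1 ≤ n ∧ ∀ h : A, 0 ≤ h → ∀ ε : ℝ, 0 < ε → ∃ r : Fin n → (Fin n × Fin 2) → A,
    ∀ c c', ‖(∑ p, star (r p c) * h * r p c') - (if c = c' then h else 0)‖ < ε

/-- Strong pure infiniteness, as in the problem. -/
def IsStronglyPurelyInfinite : Prop :=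
  ∀ x y : A, 0 ≤ x → 0 ≤ y → ∀ ε : ℝ, 0 < ε → ∃ s t : A,
    ‖star s * (x * x) * s - x * x‖ < ε ∧ ‖star t * (y * y) * t - y * y‖ < ε ∧
      ‖star s * x * y * t‖ < ε

/-- Covering dimension at most `d`, for the open subsets of the primitive ideal space seen as
closed ideals: an element of a finite sum of closed ideals is, up to `ε`, in a sum of smaller
closed ideals, any `d + 2` of which meet in zero. -/
def IdealCoverDimLE (d : ℕ) : Prop :=
  ∀ (R : ℕ) (I : Fin R → Set A), (∀ i, IsClosedIdeal (I i)) →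
    ∀ b ∈ closedSum I, ∀ ε : ℝ, 0 < ε →
      ∃ J : Fin R → Set A, (∀ i, IsClosedIdeal (J i) ∧ J i ⊆ I i) ∧
        (∀ S : Finset (Fin R), S.card = d + 2 → ∀ x : A, (∀ i ∈ S, x ∈ J i) → x = 0) ∧
        ∃ j : Fin R → A, (∀ i, j i ∈ J i) ∧ ‖b - ∑ i, j i‖ ≤ ε

end

end Vale.Agent.P133.FinDim
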