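import Vale.Agent.P133.FinDim.Transfer
import Vale.Agent.P133.FinDim.StratDefs

/-!
The stratified hypothesis passes to the unitization.
-/

namespace Vale.Agent.P133.FinDim

open scoped ComplexOrder

noncomputable section

section Cut

variable {B : Type*} [CStarAlgebra B] [PartialOrder B] [StarOrderedRing B]

/-- If `p` is below `c` modulo `L`, then `(p - c')₊` lies in `L` for `c < c'`. -/
theorem cut_mem_of_dom {L : Set B} (hL : IsClosedIdeal L) {c c' : ℝ} (hcc : c < c') {p : B}
    (hp : 0 ≤ p) (h : Dom L c p) : cut c' p ∈ L := by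
  obtain ⟨g, hgL, hg0, hpg⟩ := h
  have hpa : IsSelfAdjoint p := IsSelfAdjoint.of_nonneg hp
  set k := cfc (fun t : ℝ => Real.sqrt (max (t - c') 0)) p with hk
  have hks : IsSelfAdjoint k := cfc_predicate _ p
  have hkk : k * k = cut c' p := by
    rw [hk, cut, ← cfc_mul _ _ p]
    exact cfc_congr fun t _ => Real.mul_self_sqrt (le_max_right _ _)
  have h1 : c' • cut c' p ≤ k * p * k := by
    rw [← hkk, hk]
    nth_rw 4 [← cfc_id' ℝ p]
    rw [← cfc_mul _ _ p, ← cfc_mul _ _ p, ← cfc_mul _ _ p, ← cfc_smul _ _ p]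
    refine cfc_mono fun t _ => ?_
    simp only [smul_eq_mul]
    rcases le_total t c' with ht | ht
    · simp [max_eq_right (sub_nonpos.2 ht)]
    · nlinarith [Real.mul_self_sqrt (le_max_right (t - c') 0),
        mul_nonneg (sub_nonneg.2 ht) (le_max_right (t - c') 0)]
  have h2 : k * p * k ≤ k * g * k + c • cut c' p := by
    have h2' := conjugate_le_conjugate_of_nonneg hpg (cfc_nonneg fun t _ => Real.sqrt_nonneg _ : 0 ≤ k)
    have e : k * (g + sc c) * k = k * g * k + c • cut c' p := by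
      rw [sc, Algebra.algebraMap_eq_smul_one, ← hkk, mul_add, add_mul, mul_smul_comm, mul_one,
        smul_mul_assoc]
    rwa [e] at h2'
  have h3 : (c' - c) • cut c' p ≤ k * g * k := by
    rw [sub_smul, sub_le_iff_le_add]
    exact h1.trans h2
  have hkg : 0 ≤ k * g * k := by
    have := star_left_conjugate_nonneg hg0 k
    rwa [hks.star_eq] at this
  have h4 : Dom L 0 ((c' - c) • cut c' p) :=
    ⟨k * g * k, hL.mul_right _ _ (hL.mul_left _ _ hgL), hkg, by simpa [sc] using h3⟩
  have h5 : Dom L 0 (cut c' p) := by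
    have := h4.smul hL (inv_nonneg.2 (sub_pos.2 hcc).le)
    rwa [smul_smul, inv_mul_cancel₀ (sub_pos.2 hcc).ne', one_smul, mul_zero] at this
  refine mem_of_forall_near hL fun δ hδ => ?_
  have hN := h5.near hL le_rfl (η := δ ^ 2 / (‖cut c' p‖ + 1)) (by positivity) cut_nonneg
  obtain ⟨Y, hY, hYle⟩ := hN
  refine ⟨Y, hY, hYle.trans ?_⟩
  rw [Real.sqrt_le_left hδ.le, zero_add, div_mul_eq_mul_div, div_le_iff₀ (by positivity)]
  nlinarith [norm_nonneg (cut c' p), sq_nonneg δ]

theorem cut_mem_of_near {L : Set B} (hL : IsClosedIdeal L) {X z : B} (hz : z ∈ L) {r : ℝ}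
    (h : ‖X - z‖ ≤ r) : cut (r ^ 2) (star X * X) ∈ L := by
  have hr : 0 ≤ r := (norm_nonneg _).trans h
  refine mem_of_forall_near hL fun δ hδ => ?_
  obtain ⟨t, ht, htr⟩ : ∃ t : ℝ, 0 < t ∧ t⁻¹ * r ^ 2 ≤ δ / 2 := by
    refine ⟨2 * (r ^ 2 + 1) / δ, by positivity, ?_⟩
    rw [inv_div, div_mul_eq_mul_div, div_le_iff₀ (by positivity)]
    nlinarith
  have hd : Dom L ((1 + t⁻¹) * r ^ 2) (star X * X) := by
    refine ⟨(1 + t) • (star z * z), hL.real_smul_mem _ (hL.mul_left _ _ hz),
      smul_nonneg (by positivity) (star_mul_self_nonneg z), ?_⟩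
    have hsq : star (X - z) * (X - z) ≤ sc (r ^ 2) := by
      refine le_sc_of_norm_le (.star_mul_self _) ?_
      rw [CStarRing.norm_star_mul_self]
      nlinarith [norm_nonneg (X - z)]
    calc star X * X = star (z + (X - z)) * (z + (X - z)) := by rw [add_sub_cancel]
      _ ≤ (1 + t) • (star z * z) + (1 + t⁻¹) • (star (X - z) * (X - z)) := star_mul_add_le _ _ ht
      _ ≤ (1 + t) • (star z * z) + (1 + t⁻¹) • sc (r ^ 2) :=
          add_le_add le_rfl (smul_le_smul_of_nonneg_left hsq (by positivity))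
      _ = _ := by rw [sc, sc, map_mul, ← Algebra.smul_def]
  refine ⟨cut ((1 + t⁻¹) * r ^ 2 + δ / 2) (star X * X),
    cut_mem_of_dom hL (by linarith) (star_mul_self_nonneg X) hd, ?_⟩
  rw [cut, cut, ← cfc_sub _ _ (star X * X)]
  refine norm_cfc_le hδ.le fun s _ => ?_
  rw [Real.norm_eq_abs]
  refine (abs_max_sub_max_le_abs _ _ _).trans ?_
  rw [abs_le]
  have : 0 ≤ t⁻¹ * r ^ 2 := by positivity
  constructor <;> nlinarith

/-- Closed ideals contain nearest points, of the form `X * f (X* X)`. -/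
theorem exists_mul_near {L : Set B} (hL : IsClosedIdeal L) {X z : B} (hz : z ∈ L) {r : ℝ}
    (hr : 0 < r) (h : ‖X - z‖ ≤ r) : ∃ w, w ∈ L ∧ X * w ∈ L ∧ ‖X - X * w‖ ≤ r := by
  have hcont : Continuous fun t : ℝ => Real.sqrt (max t 0 + r ^ 2) := by fun_prop
  have hpos : ∀ t : ℝ, 0 < Real.sqrt (max t 0 + r ^ 2) := fun t => by positivity
  have hF : Continuous fun t : ℝ => 1 - r / Real.sqrt (max t 0 + r ^ 2) :=
    continuous_const.sub (continuous_const.div hcont fun t => (hpos t).ne')
  have hP : IsSelfAdjoint (star X * X) := .star_mul_self X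
  set w := cfc (fun t : ℝ => 1 - r / Real.sqrt (max t 0 + r ^ 2)) (cut (r ^ 2) (star X * X))
    with hw
  have hwL : w ∈ L := cfc_mem_of_zero hL (cfc_predicate _ _) (cut_mem_of_near hL hz h) hF
    (by simp [Real.sqrt_sq hr.le, hr.ne'])
  refine ⟨w, hwL, hL.mul_left _ _ hwL, ?_⟩
  have hg : Continuous fun t : ℝ =>
      1 - r / Real.sqrt (max (max (t - r ^ 2) 0) 0 + r ^ 2) := hF.comp (by fun_prop)
  set ψ : ℝ → ℝ := fun t => r / Real.sqrt (max (max (t - r ^ 2) 0) 0 + r ^ 2) with hψ
  have hψc : Continuous ψ := continuous_const.div (hcont.comp (by fun_prop)) fun t => (hpos _).ne'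
  have h1w : 1 - w = cfc ψ (star X * X) := by
    rw [hw, cut, ← cfc_comp' _ _ (star X * X) hF.continuousOn, ← cfc_one ℝ (star X * X),
      ← cfc_sub (1 : ℝ → ℝ) _ (star X * X) (by fun_prop) hg.continuousOn]
    exact cfc_congr fun t _ => by simp [ψ]
  have he : star (X - X * w) * (X - X * w) = cfc (fun t => ψ t * t * ψ t) (star X * X) := by
    have hX : X - X * w = X * cfc ψ (star X * X) := by rw [← h1w, mul_sub, mul_one]
    rw [cfc_mul (fun t => ψ t * t) ψ (star X * X) (hψc.mul continuous_id).continuousOn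
      hψc.continuousOn, cfc_mul ψ (fun t => t) (star X * X) hψc.continuousOn continuousOn_id,
      cfc_id' ℝ (star X * X), hX, star_mul, (cfc_predicate ψ (star X * X) : IsSelfAdjoint _).star_eq]
    simp only [mul_assoc]
  have hle : ‖star (X - X * w) * (X - X * w)‖ ≤ r ^ 2 := by
    rw [he]
    refine norm_cfc_le (by positivity) fun t ht => ?_
    have ht0 : 0 ≤ t := spectrum_nonneg_of_nonneg (star_mul_self_nonneg X) ht
    have hs : t ≤ max (max (t - r ^ 2) 0) 0 + r ^ 2 := by
      linarith [le_max_left (max (t - r ^ 2) 0) 0, le_max_left (t - r ^ 2) 0]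
    have hd0 : 0 < max (max (t - r ^ 2) 0) 0 + r ^ 2 := by positivity
    have hval : r / Real.sqrt (max (max (t - r ^ 2) 0) 0 + r ^ 2) * t *
        (r / Real.sqrt (max (max (t - r ^ 2) 0) 0 + r ^ 2)) =
          r ^ 2 * t / (max (max (t - r ^ 2) 0) 0 + r ^ 2) := by
      rw [div_mul_eq_mul_div, div_mul_div_comm, Real.mul_self_sqrt hd0.le]
      ring
    simp only [ψ]
    rw [hval, Real.norm_eq_abs, abs_of_nonneg (by positivity), div_le_iff₀ hd0]
    exact mul_le_mul_of_nonneg_left hs (by positivity)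
  rw [CStarRing.norm_star_mul_self] at hle
  nlinarith [norm_nonneg (X - X * w)]

end Cut

variable {A : Type*} [NonUnitalCStarAlgebra A]

theorem stratCover_base {d : ℕ} (hd : StratCoverDimLE A d) : StratCover (base A) d := by
  letI : PartialOrder A := CStarAlgebra.spectralOrder A
  haveI : StarOrderedRing A := CStarAlgebra.spectralOrderedRing A
  intro ι _ I hI b hb ε hε
  classical
  let e := Fintype.equivFin ι
  obtain ⟨b', rfl, hb'⟩ := exists_preimage_closedSum hI e hb
  obtain ⟨D⟩ := hd _ _ (fun k => isClosedIdeal_preimage_inr (hI (e.symm k)).1) b' hb' ε hε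
  refine ⟨{
    S := D.S
    K := fun s => Unitization.inr '' D.K s
    h := fun s => (D.h s : Unitization ℂ A)
    J := fun s i => Unitization.inr '' D.J s (e i)
    j := fun s i => (D.j s (e i) : Unitization ℂ A)
    y := fun s => (D.y s : Unitization ℂ A)
    δ := D.δ
    δ_pos := D.δ_pos
    δ_le := D.δ_le
    h_zero := by rw [D.h_zero]
    K_ideal := fun s => isClosedIdeal_image_inr (D.K_ideal s)
    K_last := by rw [D.K_last, Set.image_singleton, Unitization.inr_zero]
    K_below := fun s hs L hL z hz hle => ?_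
    J_ideal := fun s i => ⟨isClosedIdeal_image_inr (D.J_ideal s _).1, ?_⟩
    j_mem := fun s i => ⟨_, D.j_mem s _, rfl⟩
    y_mem := fun s => ⟨_, D.y_mem s, rfl⟩
    cover := fun s hs => ?_
    mult := fun T hT σ hσ i₀ hi₀ hmin x hx => ?_ }⟩
  · obtain ⟨w, -, hXw, hnear⟩ :=
      exists_mul_near hL hz (by linarith [D.δ_pos] : (0 : ℝ) < 2 * D.δ) hle
    obtain ⟨a, ha⟩ := (isClosedIdeal_base A).mul_right w _ ⟨D.h (s + 1), rfl⟩
    refine Set.image_subset_iff.2 (D.K_below s hs _ (isClosedIdeal_preimage_inr hL) a ?_ ?_)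
    · show (a : Unitization ℂ A) ∈ L
      rw [ha]
      exact hXw
    · rw [← Unitization.norm_inr (𝕜 := ℂ) (A := A), Unitization.inr_sub, ha]
      exact hnear
  · rintro _ ⟨a, ha, rfl⟩
    have h := (D.J_ideal s (e i)).2 ha
    simpa using h
  · rw [Equiv.sum_comp e (fun k => (D.j s k : Unitization ℂ A)), ← inr_finsetSum,
      ← Unitization.inr_add, ← Unitization.inr_sub, Unitization.norm_inr]
    exact D.cover s hs
  · obtain ⟨a, ha, rfl⟩ := hx i₀ hi₀
    refine ⟨a, ?_, rfl⟩
    have := D.mult (T.map e.toEmbedding) (by simpa using hT) (fun k => σ (e.symm k))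
      (fun k hk => by obtain ⟨i, hi, rfl⟩ := Finset.mem_map.1 hk; simpa using hσ i hi)
      (e i₀) (Finset.mem_map_of_mem _ hi₀)
      (fun k hk => by obtain ⟨i, hi, rfl⟩ := Finset.mem_map.1 hk; simpa using hmin i hi) a
      (fun k hk => by
        obtain ⟨i, hi, rfl⟩ := Finset.mem_map.1 hk
        obtain ⟨a', ha', h'⟩ := hx i hi
        simpa using Unitization.inr_injective h' ▸ ha')
    simpa using this

end

end Vale.Agent.P133.FinDim
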