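import Vale.Agent.P133.FinDim.DimZeroDefs
import Vale.Agent.P133.FinDim.StratTransfer

/-!
A compact ideal basis gives stratified covering dimension zero.
-/

namespace Vale.Agent.P133.FinDim

open scoped ComplexOrder

noncomputable section

variable {A : Type*} [NonUnitalCStarAlgebra A] [PartialOrder A] [StarOrderedRing A]

omit [PartialOrder A] [StarOrderedRing A] in
theorem isClosedIdeal_singleton_zero : IsClosedIdeal ({0} : Set A) where
  zero_mem := rfl
  add_mem x hx y hy := by
    simp only [Set.mem_singleton_iff] at *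
    rw [hx, hy, add_zero]
  smul_mem r x hx := by
    simp only [Set.mem_singleton_iff] at *
    rw [hx, smul_zero]
  mul_left a x hx := by
    simp only [Set.mem_singleton_iff] at *
    rw [hx, mul_zero]
  mul_right a x hx := by
    simp only [Set.mem_singleton_iff] at *
    rw [hx, zero_mul]
  closed := isClosed_singleton

/-- If `lam • ∑ (h i)* (h i)` is within `2 δ` of `L` with `lam` large, each `h i` is within `c` of
`L`. -/
theorem exists_near_of_weighted {R : ℕ} (P : Fin R → Prop) [DecidablePred P] (h : Fin R → A)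
    {L : Set A} (hL : IsClosedIdeal L) {δ lam : ℝ} (hδ : 0 < δ) (hlam : 0 < lam) {z : A}
    (hz : z ∈ L)
    (hzn : ‖lam • (∑ i, if P i then star (h i) * h i else 0) - z‖ ≤ 2 * δ) {i : Fin R} (hi : P i)
    {c : ℝ} (hc : 0 ≤ c) (hlc : 4 * δ ≤ lam * c ^ 2) : ∃ z' ∈ L, ‖h i - z'‖ ≤ c := by
  have hLB := isClosedIdeal_image_inr hL
  set g : Fin R → Unitization ℂ A :=
    fun i => if P i then star (h i : Unitization ℂ A) * h i else 0 with hg
  have hg0 : ∀ i, 0 ≤ g i := fun i => by
    simp only [hg]
    split_ifs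
    · exact star_mul_self_nonneg _
    · exact le_rfl
  have hsum : ((lam • (∑ i, if P i then star (h i) * h i else 0) : A) : Unitization ℂ A) =
      lam • ∑ i, g i := by
    rw [Unitization.inr_smul, inr_finsetSum]
    congr 1
    refine Finset.sum_congr rfl fun i _ => ?_
    simp only [hg]
    split_ifs <;> simp [Unitization.inr_mul, Unitization.inr_star]
  have hnear : Near (Unitization.inr '' L : Set (Unitization ℂ A)) (2 * δ) (lam • ∑ i, g i) := by
    refine ⟨z, ⟨z, hz, rfl⟩, ?_⟩
    rw [← hsum, ← Unitization.inr_sub, Unitization.norm_inr]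
    exact hzn
  have hsa : IsSelfAdjoint (lam • ∑ i, g i) :=
    (IsSelfAdjoint.all lam).smul (IsSelfAdjoint.of_nonneg (Finset.sum_nonneg fun i _ => hg0 i))
  have h1 := (Near.dom hLB hδ hsa hnear).smul hLB (inv_nonneg.mpr hlam.le)
  rw [smul_smul, inv_mul_cancel₀ hlam.ne', one_smul] at h1
  have hle : star (h i : Unitization ℂ A) * h i ≤ ∑ i, g i := by
    refine le_trans (le_of_eq ?_) (Finset.single_le_sum (fun i _ => hg0 i) (Finset.mem_univ i))
    simp [hg, hi]
  have h2 := (h1.mono hle le_rfl).near_of_star_mul hLB (by positivity)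
    (show (0 : ℝ) < δ * lam⁻¹ by positivity)
  obtain ⟨Y, ⟨z', hz', rfl⟩, hY⟩ := h2
  refine ⟨z', hz', ?_⟩
  rw [← Unitization.norm_inr (𝕜 := ℂ), Unitization.inr_sub]
  refine hY.trans ((Real.sqrt_le_sqrt ?_).trans (le_of_eq (Real.sqrt_sq hc)))
  have : lam⁻¹ * (2 * δ + δ) + δ * lam⁻¹ = 4 * δ / lam := by field_simp; ring
  rw [this, div_le_iff₀ hlam]
  linarith

theorem stratCoverDimLE_zero_of_basis (hA : HasCompactIdealBasis A) : StratCoverDimLE A 0 := by
  classical
  intro R I hI b hb ε hε
  obtain ⟨x, ⟨j, hj, rfl⟩, hx⟩ := Metric.mem_closure_iff.mp hb (ε / 2) (half_pos hε)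
  have hc1 : ∀ i, ∃ K : Set A, IsCompactIdeal K ∧ K ⊆ I i ∧
      ∃ k ∈ K, ‖j i - k‖ ≤ ε / (2 * (R + 1)) :=
    fun i => hA (I i) (hI i) (j i) (hj i) _ (by positivity)
  choose O hO hOI k hk hkn using hc1
  have hc2 : ∀ i, ∃ h ∈ O i, ∃ c : ℝ, 0 < c ∧
      ∀ L : Set A, IsClosedIdeal L → ∀ z ∈ L, ‖h - z‖ ≤ c → O i ⊆ L := fun i => (hO i).2
  choose g hg c hc hcL using hc2
  have hOi : ∀ i, IsClosedIdeal (O i) := fun i => (hO i).1
  set lam : ℝ := 1 + ∑ i, 4 * ε / c i ^ 2 with hlam_def
  have hterm : ∀ i, 0 ≤ 4 * ε / c i ^ 2 := fun i => by positivity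
  have hlam : 0 < lam := by
    have := Finset.sum_nonneg (s := Finset.univ) fun i _ => hterm i
    positivity
  have hlamc : ∀ i, 4 * ε ≤ lam * c i ^ 2 := fun i => by
    have h1 : 4 * ε / c i ^ 2 ≤ lam := by
      have := Finset.single_le_sum (fun i _ => hterm i) (Finset.mem_univ i)
      linarith
    rwa [div_le_iff₀ (pow_pos (hc i) 2)] at h1
  set T : ℕ → Fin R → Set A := fun t i => if t ≤ i.val then O i else {0} with hT
  have hTi : ∀ t i, IsClosedIdeal (T t i) := fun t i => by
    simp only [hT]; split_ifs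
    · exact hOi i
    · exact isClosedIdeal_singleton_zero
  set U : ℕ → Set (Unitization ℂ A) :=
    fun t => closedSum fun i => (Unitization.inr '' T t i : Set (Unitization ℂ A)) with hU
  have hUi : ∀ t, IsClosedIdeal (U t) := fun t =>
    IsClosedIdeal.closedSum fun i => isClosedIdeal_image_inr (hTi t i)
  have hmemU : ∀ t (i : Fin R), t ≤ i.val → ∀ a ∈ O i, (a : Unitization ℂ A) ∈ U t := by
    intro t i hti a ha
    refine mem_closedSum_of_mem (fun i => isClosedIdeal_image_inr (hTi t i)) (i := i) ⟨a, ?_, rfl⟩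
    simp [hT, hti, ha]
  have hsubU : ∀ t (L : Set A), IsClosedIdeal L → (∀ i : Fin R, t ≤ i.val → O i ⊆ L) →
      (Unitization.inr ⁻¹' U t : Set A) ⊆ L := by
    intro t L hL hOL a ha
    have hLB := isClosedIdeal_image_inr hL
    have hsub : U t ⊆ Unitization.inr '' L := by
      refine closure_minimal ?_ hLB.closed
      rintro x ⟨f, hf, rfl⟩
      refine hLB.sum_mem _ _ fun i _ => ?_
      obtain ⟨a', ha', he⟩ := hf i
      rw [← he]
      simp only [hT] at ha'
      split_ifs at ha' with hti
      · exact ⟨a', hOL i hti ha', rfl⟩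
      · rw [Set.mem_singleton_iff] at ha'
        exact ⟨0, hL.zero_mem, by rw [ha']⟩
    obtain ⟨a', ha', he⟩ := hsub ha
    rwa [← Unitization.inr_injective he]
  set p : ℕ → A := fun t =>
    if t = 0 then b else lam • ∑ i : Fin R, if t ≤ i.val then star (g i) * g i else 0 with hp
  set jj : ℕ → Fin R → A := fun t i => if i.val = t then
    (if t = 0 then k i else lam • (star (g i) * g i)) else 0 with hjj
  set yy : ℕ → A := fun t => ∑ i : Fin R, if t + 1 ≤ i.val then
    (if t = 0 then k i else lam • (star (g i) * g i)) else 0 with hyy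
  have hrs : ∀ {K : Set A}, IsClosedIdeal K → ∀ a ∈ K, lam • a ∈ K := by
    intro K hK a ha
    have e : lam • a = (lam : ℂ) • a := (RCLike.real_smul_eq_coe_smul (K := ℂ) lam a)
    rw [e]
    exact hK.smul_mem _ _ ha
  have hval : ∀ t (i : Fin R), (if t = 0 then k i else lam • (star (g i) * g i)) ∈ O i := by
    intro t i
    split_ifs
    · exact hk i
    · exact hrs (hOi i) _ ((hOi i).mul_left _ _ (hg i))
  have hdec : ∀ t, (∑ i, jj t i) + yy t =
      ∑ i : Fin R, if t ≤ i.val then
        (if t = 0 then k i else lam • (star (g i) * g i)) else 0 := by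
    intro t
    rw [hyy, ← Finset.sum_add_distrib]
    refine Finset.sum_congr rfl fun i _ => ?_
    simp only [hjj]
    rcases lt_trichotomy i.val t with h | h | h
    · simp [h.ne, h.not_ge, show ¬ t + 1 ≤ i.val by omega]
    · simp [h]
    · simp [h.ne', h.le, show t + 1 ≤ i.val by omega]
  refine ⟨{
    S := R
    K := fun t => Unitization.inr ⁻¹' U (t + 1)
    h := p
    J := fun t i => if i.val = t then O i else {0}
    j := jj
    y := yy
    δ := ε
    δ_pos := hε
    δ_le := le_rfl
    h_zero := by simp [hp]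
    K_ideal := fun t => isClosedIdeal_preimage_inr (hUi _)
    K_last := ?_
    K_below := ?_
    J_ideal := ?_
    j_mem := ?_
    y_mem := ?_
    cover := ?_
    mult := ?_ }⟩
  · refine Set.Subset.antisymm (hsubU (R + 1) {0} isClosedIdeal_singleton_zero fun i hi => ?_) ?_
    · exact absurd i.isLt (by omega)
    · exact Set.singleton_subset_iff.mpr (isClosedIdeal_preimage_inr (hUi _)).zero_mem
  · intro s _ L hL z hz hzn
    refine hsubU (s + 1) L hL fun i hi => ?_
    simp only [hp, Nat.succ_ne_zero, if_false] at hzn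
    obtain ⟨z', hz', hn⟩ := exists_near_of_weighted (fun i : Fin R => s + 1 ≤ i.val) g hL hε hlam
      hz hzn hi (hc i).le (hlamc i)
    exact hcL i L hL z' hz' hn
  · intro t i
    split_ifs
    · exact ⟨hOi i, hOI i⟩
    · exact ⟨isClosedIdeal_singleton_zero, Set.singleton_subset_iff.mpr (hI i).zero_mem⟩
  · intro t i
    simp only [hjj]
    split_ifs with h h'
    · exact hk i
    · exact hrs (hOi i) _ ((hOi i).mul_left _ _ (hg i))
    · rfl
  · intro t
    show ((yy t : A) : Unitization ℂ A) ∈ U (t + 1)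
    rw [hyy, inr_finsetSum]
    refine (hUi _).sum_mem _ _ fun i _ => ?_
    by_cases h : t + 1 ≤ i.val
    · rw [if_pos h]
      exact hmemU _ i h _ (hval t i)
    · rw [if_neg h, Unitization.inr_zero]
      exact (hUi _).zero_mem
  · intro t _
    rw [hdec]
    simp only [hp]
    by_cases ht : t = 0
    · subst ht
      simp only [if_true, Nat.zero_le]
      rw [dist_eq_norm] at hx
      calc ‖b - ∑ i, k i‖ ≤ ‖b - ∑ i, j i‖ + ‖(∑ i, j i) - ∑ i, k i‖ :=
            norm_sub_le_norm_sub_add_norm_sub ..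
        _ ≤ ε / 2 + ∑ _i : Fin R, ε / (2 * (R + 1)) := by
            refine add_le_add hx.le ?_
            rw [← Finset.sum_sub_distrib]
            exact (norm_sum_le _ _).trans (Finset.sum_le_sum fun i _ => hkn i)
        _ ≤ ε := by
            simp only [Finset.sum_const, Finset.card_univ, Fintype.card_fin, nsmul_eq_mul]
            have : (R : ℝ) * (ε / (2 * (R + 1))) ≤ ε / 2 := by
              rw [mul_div_assoc', div_le_div_iff₀ (by positivity) two_pos]
              nlinarith
            linarith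
    · simp only [ht, if_false]
      rw [Finset.smul_sum]
      simp only [smul_ite, smul_zero, sub_self, norm_zero]
      exact hε.le
  · intro T hT2 σ _ i₀ hi₀ hmin x hx
    by_cases hall : ∀ i ∈ T, i.val = σ i
    · obtain ⟨i₁, hi₁, hne⟩ : ∃ i₁ ∈ T, i₁ ≠ i₀ :=
        Finset.exists_mem_ne (by omega) i₀
      have h1 := hx i₁ hi₁
      simp only [hall i₁ hi₁, if_true] at h1
      show (x : Unitization ℂ A) ∈ U (σ i₀ + 1)
      refine hmemU _ i₁ ?_ x h1
      have h2 := hmin i₁ hi₁
      have h3 : i₁.val ≠ i₀.val := fun h => hne (Fin.ext h)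
      have h4 := hall i₀ hi₀
      have h5 := hall i₁ hi₁
      omega
    · push Not at hall
      obtain ⟨i, hi, hne⟩ := hall
      have h1 := hx i hi
      simp only [hne, if_false, Set.mem_singleton_iff] at h1
      rw [h1]
      exact (isClosedIdeal_preimage_inr (hUi _)).zero_mem

end

end Vale.Agent.P133.FinDim
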