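import Vale.Agent.P133.FinDim.Defs

/-!
Topological dimension zero, for closed ideals: compact ideals approximate every ideal from inside.
-/

namespace Vale.Agent.P133.FinDim

/-- A closed ideal `K` corresponding to a compact open set of primitive ideals: some `h ∈ K` and
`c > 0` are such that every closed ideal containing `h` up to `c` contains `K`. -/
def IsCompactIdeal {A : Type*} [NonUnitalNormedRing A] [Module ℂ A] (K : Set A) : Prop :=
  IsClosedIdeal K ∧ ∃ h ∈ K, ∃ c : ℝ, 0 < c ∧
    ∀ L : Set A, IsClosedIdeal L → ∀ z ∈ L, ‖h - z‖ ≤ c → K ⊆ L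

/-- Topological dimension zero (the compact open sets form a basis): every element of a closed
ideal is approximated by elements of compact ideals inside it. -/
def HasCompactIdealBasis (A : Type*) [NonUnitalCStarAlgebra A] : Prop :=
  ∀ I : Set A, IsClosedIdeal I → ∀ x ∈ I, ∀ ε : ℝ, 0 < ε →
    ∃ K : Set A, IsCompactIdeal K ∧ K ⊆ I ∧ ∃ k ∈ K, ‖x - k‖ ≤ ε

end Vale.Agent.P133.FinDim
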