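import Vale.Agent.P133.FinDim.Colour

/-!
Halving: from `n` copies to two.
-/

namespace Vale.Agent.P133.FinDim

open scoped ComplexOrder
open Finset

noncomputable section

variable {B : Type*} [CStarAlgebra B] [PartialOrder B] [StarOrderedRing B]

/-- A piecewise linear ramp from `0` at `a` to `1` at `b`. -/
def halveRamp (a b : ℝ) (t : ℝ) : ℝ := max 0 (min 1 ((t - a) / (b - a)))

lemma continuous_halveRamp (a b : ℝ) : Continuous (halveRamp a b) :=
  continuous_const.max (continuous_const.min ((continuous_id.sub continuous_const).div_const _))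

lemma halveRamp_mem (a b t : ℝ) : 0 ≤ halveRamp a b t ∧ halveRamp a b t ≤ 1 :=
  ⟨le_max_left _ _, max_le zero_le_one (min_le_left _ _)⟩

lemma halveRamp_of_ge {a b t : ℝ} (hab : a < b) (h : b ≤ t) : halveRamp a b t = 1 := by
  have h1 : 1 ≤ (t - a) / (b - a) := by rw [le_div_iff₀ (sub_pos.2 hab)]; linarith
  simp [halveRamp, h1]

lemma halveRamp_of_le {a b t : ℝ} (hab : a < b) (h : t ≤ a) : halveRamp a b t = 0 := by
  have h1 : (t - a) / (b - a) ≤ 0 := div_nonpos_of_nonpos_of_nonneg (by linarith) (by linarith)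
  simp [halveRamp, h1]

lemma exists_pos_le_all (f : ℕ → ℝ) (L : ℕ) (hf : ∀ j < L, 0 < f j) :
    ∃ τ : ℝ, 0 < τ ∧ ∀ j < L, τ ≤ f j := by
  induction L with
  | zero => exact ⟨1, one_pos, fun j hj => absurd hj (Nat.not_lt_zero j)⟩
  | succ L ih =>
    obtain ⟨τ, hτ, hτf⟩ := ih fun j hj => hf j (by omega)
    refine ⟨min τ (f L), lt_min hτ (hf L (Nat.lt_succ_self L)), fun j hj => ?_⟩
    rcases (Nat.lt_succ_iff.1 hj).lt_or_eq with h | h
    · exact (min_le_left _ _).trans (hτf j h)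
    · subst h; exact min_le_right _ _

omit [PartialOrder B] [StarOrderedRing B] in
lemma cross_norm_le {κ : Type*} [Fintype κ] (S T b b' : κ → B) {C τ : ℝ} (hC : 0 ≤ C)
    (hb : ∀ a, ‖b a‖ ≤ C) (hb' : ∀ a, ‖b' a‖ ≤ C) (h : ∀ a a', ‖star (S a) * T a'‖ ≤ τ) :
    ‖star (∑ a, S a * b a) * ∑ a, T a * b' a‖ ≤
      (Fintype.card κ : ℝ) * ((Fintype.card κ : ℝ) * (C * τ * C)) := by
  have e : star (∑ a, S a * b a) * ∑ a, T a * b' a
      = ∑ a, ∑ a', star (b a) * (star (S a) * T a') * b' a' := by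
    simp only [star_sum, star_mul, Finset.sum_mul, Finset.mul_sum, mul_assoc]
    exact Finset.sum_comm
  rw [e]
  exact norm_double_sum_le Finset.univ Finset.univ b b' (fun a a' => star (S a) * T a') hC
    (fun a _ => hb a) (fun a _ => hb' a) (fun a _ a' _ => h a a')

/-- The functional calculus elements used for halving. -/
lemma halve_funcs {A₀ : Set B} (hA₀ : IsClosedIdeal A₀) {h : B} (hhA : h ∈ A₀) (hh : 0 ≤ h)
    (hh1 : ‖h‖ ≤ 1) {e₁ : ℝ} (he₁0 : 0 < e₁) :
    ∃ h1 h2 E k : B, (h1 ∈ A₀ ∧ 0 ≤ h1 ∧ h1 ≤ 1) ∧ (h2 ∈ A₀ ∧ 0 ≤ h2 ∧ ‖h2‖ ≤ 1) ∧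
      h1 * h2 = h2 ∧ E * h1 = h1 ∧ ‖h2 * h2 - h‖ ≤ e₁ ∧ star k * h * k = star E * E := by
  have hhs : IsSelfAdjoint h := IsSelfAdjoint.of_nonneg hh
  have hspec : ∀ t ∈ spectrum ℝ h, t ≤ 1 :=
    (CFC.le_one_iff h hhs).1 ((CStarAlgebra.norm_le_one_iff_of_nonneg h hh).1 hh1)
  set f1 := halveRamp (e₁ / 2) e₁ with hf1
  set fe := halveRamp (e₁ / 4) (e₁ / 2) with hfe
  set f2 : ℝ → ℝ := fun t => Real.sqrt (max (t - e₁) 0) with hf2
  set fk : ℝ → ℝ := fun t => fe t / Real.sqrt (max t (e₁ / 4)) with hfk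
  have c1 : Continuous f1 := continuous_halveRamp _ _
  have ce : Continuous fe := continuous_halveRamp _ _
  have c2 : Continuous f2 := ((continuous_id.sub continuous_const).max continuous_const).sqrt
  have ck : Continuous fk := ce.div (continuous_id.max continuous_const).sqrt fun t =>
    (Real.sqrt_pos.2 (lt_max_of_lt_right (by linarith))).ne'
  set h1 := cfc f1 h with hh1def
  set E := cfc fe h with hEdef
  set h2 := cfc f2 h with hh2def
  set k := cfc fk h with hkdef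
  have hh10 : 0 ≤ h1 := cfc_nonneg fun t _ => (halveRamp_mem _ _ t).1
  have hh11 : h1 ≤ 1 := cfc_le_one f1 h fun t _ => (halveRamp_mem _ _ t).2
  have hh1A : h1 ∈ A₀ :=
    cfc_mem_of_zero hA₀ hhs hhA c1 (halveRamp_of_le (by linarith) (by linarith))
  have hh2A : h2 ∈ A₀ := cfc_mem_of_zero hA₀ hhs hhA c2 (by
    simp only [hf2]; rw [max_eq_right (by linarith), Real.sqrt_zero])
  have hh20 : 0 ≤ h2 := cfc_nonneg fun t _ => Real.sqrt_nonneg _
  have hh2n : ‖h2‖ ≤ 1 := norm_cfc_le zero_le_one fun t ht => by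
    rw [Real.norm_eq_abs, abs_of_nonneg (Real.sqrt_nonneg _)]
    exact Real.sqrt_le_one.2 (max_le (by linarith [hspec t ht]) zero_le_one)
  have hh12 : h1 * h2 = h2 := by
    rw [hh1def, hh2def, ← cfc_mul f1 f2 h c1.continuousOn c2.continuousOn]
    refine cfc_congr fun t _ => ?_
    rcases le_total e₁ t with ht | ht
    · rw [hf1, halveRamp_of_ge (by linarith) ht, one_mul]
    · simp only [hf2]; rw [max_eq_right (by linarith), Real.sqrt_zero, mul_zero]
  have hEh1 : E * h1 = h1 := by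
    rw [hEdef, hh1def, ← cfc_mul fe f1 h ce.continuousOn c1.continuousOn]
    refine cfc_congr fun t _ => ?_
    rcases le_total (e₁ / 2) t with ht | ht
    · rw [hfe, halveRamp_of_ge (by linarith) ht, one_mul]
    · rw [hf1, halveRamp_of_le (by linarith) ht, mul_zero]
  have hh2sq : ‖h2 * h2 - h‖ ≤ e₁ := by
    rw [show h2 * h2 - h = cfc (fun t => f2 t * f2 t - t) h by
      rw [cfc_sub (fun t => f2 t * f2 t) (fun t : ℝ => t) h (c2.mul c2).continuousOn
        continuous_id.continuousOn, cfc_mul f2 f2 h c2.continuousOn c2.continuousOn, cfc_id' ℝ h]]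
    refine norm_cfc_le he₁0.le fun t ht => ?_
    have ht0 : 0 ≤ t := spectrum_nonneg_of_nonneg hh ht
    simp only [hf2]
    rw [Real.mul_self_sqrt (le_max_right _ _), Real.norm_eq_abs, abs_le]
    rcases le_total e₁ t with h' | h'
    · rw [max_eq_left (by linarith)]; constructor <;> linarith
    · rw [max_eq_right (by linarith)]; constructor <;> linarith
  have hkk : star k * h * k = star E * E := by
    rw [(cfc_predicate fk h : IsSelfAdjoint k).star_eq, (cfc_predicate fe h : IsSelfAdjoint E).star_eq]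
    calc k * h * k = cfc fk h * cfc (fun t : ℝ => t) h * cfc fk h := by rw [cfc_id' ℝ h, hkdef]
      _ = cfc (fun t => fk t * t * fk t) h := by
          rw [← cfc_mul fk (fun t : ℝ => t) h ck.continuousOn continuous_id.continuousOn,
            ← cfc_mul (fun t => fk t * t) fk h (ck.mul continuous_id).continuousOn ck.continuousOn]
      _ = E * E := by
          rw [hEdef, ← cfc_mul fe fe h ce.continuousOn ce.continuousOn]
          refine cfc_congr fun t _ => ?_
          simp only [hfk]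
          rcases le_total t (e₁ / 4) with ht | ht
          · rw [hfe, halveRamp_of_le (by linarith) ht]; simp
          · rw [max_eq_left ht]
            have hs : Real.sqrt t * Real.sqrt t = t := Real.mul_self_sqrt (by linarith)
            have hne : Real.sqrt t ≠ 0 := (Real.sqrt_pos.2 (by linarith)).ne'
            calc fe t / Real.sqrt t * t * (fe t / Real.sqrt t)
                = fe t * fe t * (t / (Real.sqrt t * Real.sqrt t)) := by field_simp
              _ = fe t * fe t := by rw [hs, div_self (by linarith), mul_one]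
  exact ⟨h1, h2, E, k, ⟨hh1A, hh10, hh11⟩, ⟨hh2A, hh20, hh2n⟩, hh12, hEh1, hh2sq, hkk⟩

lemma norm_colour_sum_le {κ : Type*} [Fintype κ] (F b : κ → B) (hF : ∀ a, 0 ≤ F a ∧ F a ≤ 1)
    {C : ℝ} (hb : ∀ a, ‖b a‖ ≤ C) :
    ‖∑ a, CFC.sqrt (F a) * b a‖ ≤ (Fintype.card κ : ℝ) * C := by
  refine (norm_sum_le _ _).trans ((Finset.sum_le_card_nsmul _ _ C fun a _ => ?_).trans
    (le_of_eq (by simp [nsmul_eq_mul])))
  refine (norm_mul_le _ _).trans ?_
  have h' := CStarRing.norm_star_mul_self (x := CFC.sqrt (F a))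
  rw [(IsSelfAdjoint.of_nonneg (CFC.sqrt_nonneg (F a))).star_eq,
    CFC.sqrt_mul_sqrt_self _ (hF a).1] at h'
  have := (CStarAlgebra.norm_le_one_iff_of_nonneg _ (hF a).1).2 (hF a).2
  have hs1 : ‖CFC.sqrt (F a)‖ ≤ 1 := by nlinarith [norm_nonneg (CFC.sqrt (F a))]
  calc _ ≤ 1 * C := mul_le_mul hs1 (hb a) (norm_nonneg _) zero_le_one
    _ = C := one_mul _

/-- A chain of compressions, each full for the one before. -/
lemma halve_chain {A₀ : Set B} (hA₀ : IsClosedIdeal A₀) (L : ℕ) {h1 h2 : B}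
    (hh2A : h2 ∈ A₀) (hh20 : 0 ≤ h2) (hh2n : ‖h2‖ ≤ 1) (hh12 : h1 * h2 = h2)
    {Cm : ℝ} (hCm1 : 1 ≤ Cm) (δs : ℕ → ℝ) (Q : ℕ → B → Prop)
    (hQ : ∀ j < L, ∀ M, Q j M → ‖M‖ ≤ Cm)
    (hstep : ∀ j < L, ∀ P : B, P ∈ A₀ → 0 ≤ P → ‖P‖ ≤ Cm ^ j → h1 * P = P →
      ∃ M : B, Q j M ∧ FullFor (δs (j + 1)) (δs j) (star (M * P) * (M * P)) (P * P)) :
    ∃ (G : B) (Ms Ps : ℕ → B), (G ∈ A₀ ∧ 0 ≤ G ∧ ‖G‖ ≤ Cm ^ L * Cm ^ L) ∧
      (∀ j < L, Q j (Ms j) ∧ Ps j ∈ A₀ ∧ ‖Ps j‖ ≤ Cm ^ L ∧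
        G ≤ ((Cm ^ 2) ^ L) • (star (Ms j * Ps j) * (Ms j * Ps j))) ∧
      Dom (genIdeal (cut (δs L) G)) (δs 0) (h2 * h2) := by
  choose! Mf hMQ hMfull using hstep
  let Ps : ℕ → B := Nat.rec h2 fun j P => CFC.sqrt (star (Mf j P * P) * (Mf j P * P))
  let Ms : ℕ → B := fun j => Mf j (Ps j)
  have hPs : ∀ j, Ps (j + 1) = CFC.sqrt (star (Ms j * Ps j) * (Ms j * Ps j)) := fun j => rfl
  have hsqP : ∀ j, Ps (j + 1) * Ps (j + 1) = star (Ms j * Ps j) * (Ms j * Ps j) := fun j => by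
    rw [hPs]; exact CFC.sqrt_mul_sqrt_self _ (star_mul_self_nonneg _)
  have inv : ∀ j ≤ L, Ps j ∈ A₀ ∧ 0 ≤ Ps j ∧ ‖Ps j‖ ≤ Cm ^ j ∧ h1 * Ps j = Ps j := by
    intro j
    induction j with
    | zero =>
      intro _
      exact ⟨hh2A, hh20, by rw [pow_zero]; exact hh2n, hh12⟩
    | succ j ih =>
      intro hj
      obtain ⟨i1, i2, i3, i4⟩ := ih (by omega)
      have hXA : Ms j * Ps j ∈ A₀ := hA₀.mul_left _ _ i1
      have hMn : ‖Ms j‖ ≤ Cm := hQ j (by omega) _ (hMQ j (by omega) _ i1 i2 i3 i4)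
      refine ⟨?_, by rw [hPs]; exact CFC.sqrt_nonneg _, ?_, ?_⟩
      · rw [hPs]
        exact hA₀.sqrt_mem (star_mul_self_nonneg _) (hA₀.mul_left _ _ hXA)
      · have h' := CStarRing.norm_star_mul_self (x := Ps (j + 1))
        rw [(IsSelfAdjoint.of_nonneg (show 0 ≤ Ps (j + 1) by rw [hPs]; exact CFC.sqrt_nonneg _)).star_eq,
          hsqP, CStarRing.norm_star_mul_self] at h'
        rw [(mul_self_inj (norm_nonneg _) (norm_nonneg _)).1 h'.symm, pow_succ']
        exact (norm_mul_le _ _).trans (mul_le_mul hMn i3 (norm_nonneg _) (by linarith))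
      · rw [hPs]
        refine mul_sqrt_eq_of_mul_eq (star_mul_self_nonneg _) ?_
        rw [star_mul, (IsSelfAdjoint.of_nonneg i2).star_eq]
        simp only [← mul_assoc, i4]
  have hMs : ∀ j < L, ‖Ms j‖ ≤ Cm := fun j hj => by
    obtain ⟨i1, i2, i3, i4⟩ := inv j hj.le
    exact hQ j hj _ (hMQ j hj _ i1 i2 i3 i4)
  set G := Ps L * Ps L with hG
  have hPL := inv L le_rfl
  have hG0 : 0 ≤ G := by
    have := star_mul_self_nonneg (Ps L)
    rwa [(IsSelfAdjoint.of_nonneg hPL.2.1).star_eq] at this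
  refine ⟨G, Ms, Ps, ⟨hA₀.mul_left _ _ hPL.1, hG0, (norm_mul_le _ _).trans
    (mul_le_mul hPL.2.2.1 hPL.2.2.1 (norm_nonneg _) (by positivity))⟩, fun j hj => ?_, ?_⟩
  · obtain ⟨i1, i2, i3, i4⟩ := inv j hj.le
    refine ⟨hMQ j hj _ i1 i2 i3 i4, i1, i3.trans (pow_le_pow_right₀ hCm1 hj.le), ?_⟩
    have step : ∀ m, j + 1 + m ≤ L →
        Ps (j + 1 + m) * Ps (j + 1 + m) ≤ ((Cm ^ 2) ^ m) • (Ps (j + 1) * Ps (j + 1)) := by
      intro m
      induction m with
      | zero => intro _; simp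
      | succ m ih =>
        intro hm
        set i := j + 1 + m with hi
        rw [show j + 1 + (m + 1) = i + 1 by omega, hsqP]
        have hps : star (Ps i) = Ps i := (IsSelfAdjoint.of_nonneg (inv i (by omega)).2.1).star_eq
        have h1' : star (Ms i) * Ms i ≤ sc (Cm ^ 2) := le_sc_of_norm_le (IsSelfAdjoint.star_mul_self _)
          (by rw [CStarRing.norm_star_mul_self, ← sq]
              exact pow_le_pow_left₀ (norm_nonneg _) (hMs i (by omega)) 2)
        have h2' := star_left_conjugate_le_conjugate h1' (Ps i)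
        have e1 : star (Ms i * Ps i) * (Ms i * Ps i) = star (Ps i) * (star (Ms i) * Ms i) * Ps i := by
          rw [star_mul]; noncomm_ring
        have e2 : star (Ps i) * sc (Cm ^ 2) * Ps i = (Cm ^ 2) • (Ps i * Ps i) := by
          rw [hps, sc, Algebra.algebraMap_eq_smul_one, mul_smul_comm, mul_one, smul_mul_assoc]
        rw [e1]
        refine h2'.trans ?_
        rw [e2, pow_succ' (Cm ^ 2) m, ← smul_smul (Cm ^ 2)]
        exact smul_le_smul_of_nonneg_left (ih (by omega)) (by positivity)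
    have := step (L - (j + 1)) (by omega)
    rw [show j + 1 + (L - (j + 1)) = L by omega, hsqP] at this
    refine this.trans (smul_le_smul_of_nonneg_right ?_ (star_mul_self_nonneg _))
    exact pow_le_pow_right₀ (one_le_pow₀ hCm1) (by omega)
  · have hI := isClosedIdeal_genIdeal (cut (δs L) G)
    have key : ∀ m ≤ L, Dom (genIdeal (cut (δs L) G)) (δs (L - m)) (Ps (L - m) * Ps (L - m)) := by
      intro m
      induction m with
      | zero => exact fun _ => ⟨_, mem_genIdeal_self _, cut_nonneg, le_cut_add (IsSelfAdjoint.of_nonneg hG0)⟩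
      | succ m ih =>
        intro hm
        have hd := ih (by omega)
        obtain ⟨j, hj⟩ : ∃ j, L - m = j + 1 := ⟨L - m - 1, by omega⟩
        rw [show L - (m + 1) = j by omega]
        rw [hj, hsqP] at hd
        obtain ⟨i1, i2, i3, i4⟩ := inv j (by omega)
        exact hMfull j (by omega) _ i1 i2 i3 i4 _ hI hd
    have := key L le_rfl
    rwa [Nat.sub_self] at this

omit [PartialOrder B] [StarOrderedRing B] in
/-- Putting the compressed columns together. -/
lemma halve_assemble {n : ℕ} {G f : B} (M P g : Fin 2 → Fin n → B) (D : Fin n → B)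
    {Pn Gb Dd T η ε₁ : ℝ} (hPn0 : 0 ≤ Pn) (hGb0 : 0 ≤ Gb) (hDd0 : 0 ≤ Dd) (hT : 0 ≤ T)
    (hP : ∀ c p, ‖P c p‖ ≤ Pn) (hg2 : ∀ c p, ‖g c p‖ ≤ Gb) (hDn : ∀ p, ‖D p‖ ≤ Dd)
    (hg1 : ∀ c p, ‖star (g c p) * (star (M c p * P c p) * (M c p * P c p)) * g c p - G‖ ≤ η)
    (hM : ∀ c p c' p', (c, p) ≠ (c', p') → ‖star (M c p) * M c' p'‖ ≤ T)
    (hD1 : ‖(∑ p, star (D p) * G * D p) - f‖ ≤ ε₁) (c c' : Fin 2) :
    ‖star (∑ p, M c p * P c p * (g c p * D p)) * (∑ p, M c' p * P c' p * (g c' p * D p)) -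
        (if c = c' then f else 0)‖ ≤
      (n : ℝ) * (n * (Pn * (Gb * Dd) * T * (Pn * (Gb * Dd)))) +
        if c = c' then (n : ℝ) * (Dd * η * Dd) + ε₁ else 0 := by
  set z : Fin 2 → Fin n → B := fun c p => M c p * P c p * (g c p * D p) with hz
  set S := Pn * (Gb * Dd) * T * (Pn * (Gb * Dd)) with hS
  have hW : ∀ c p, ‖P c p * (g c p * D p)‖ ≤ Pn * (Gb * Dd) := fun c p =>
    (norm_mul_le _ _).trans (mul_le_mul (hP c p) ((norm_mul_le _ _).trans
      (mul_le_mul (hg2 c p) (hDn p) (norm_nonneg _) hGb0)) (norm_nonneg _) hPn0)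
  have hcross : ∀ c p c' p', (c, p) ≠ (c', p') → ‖star (z c p) * z c' p'‖ ≤ S := by
    intro c p c' p' hne
    have e : star (z c p) * z c' p' = star (P c p * (g c p * D p)) *
        (star (M c p) * M c' p') * (P c' p' * (g c' p' * D p')) := by
      simp only [hz, star_mul, mul_assoc]
    rw [e]
    refine (norm_mul_le _ _).trans (mul_le_mul ((norm_mul_le _ _).trans ?_) (hW c' p')
      (norm_nonneg _) (by positivity))
    rw [norm_star]
    exact mul_le_mul (hW c p) (hM c p c' p' hne) (norm_nonneg _) (by positivity)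
  have hsum : ∀ (N : Fin n → Fin n → B), (∀ p p', ‖N p p'‖ ≤ S) →
      ‖∑ p, ∑ p', N p p'‖ ≤ (n : ℝ) * (n * S) := fun N hN =>
    (norm_sum_le _ _).trans ((Finset.sum_le_card_nsmul _ _ ((n : ℝ) * S) fun p _ =>
      (norm_sum_le _ _).trans ((Finset.sum_le_card_nsmul _ _ S fun p' _ => hN p p').trans
        (le_of_eq (by simp)))).trans (le_of_eq (by simp)))
  have e0 : star (∑ p, z c p) * (∑ p, z c' p) = ∑ p, ∑ p', star (z c p) * z c' p' := by
    simp only [star_sum, Finset.sum_mul, Finset.mul_sum]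
    exact Finset.sum_comm
  change ‖star (∑ p, z c p) * (∑ p, z c' p) - _‖ ≤ _
  rw [e0]
  by_cases hcc : c = c'
  · subst hcc
    rw [if_pos rfl, if_pos rfl]
    have e1 : ∑ p, ∑ p', star (z c p) * z c p' =
        (∑ p, ∑ p', if p = p' then 0 else star (z c p) * z c p') +
          ∑ p, star (z c p) * z c p := by
      rw [← Finset.sum_add_distrib]
      refine Finset.sum_congr rfl fun p _ => ?_
      rw [← Finset.add_sum_erase _ _ (Finset.mem_univ p), ← Finset.add_sum_erase _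
        (fun p' => if p = p' then 0 else star (z c p) * z c p') (Finset.mem_univ p), if_pos rfl,
        zero_add, add_comm]
      refine congrArg (· + _) (Finset.sum_congr rfl fun p' hp' => ?_)
      rw [if_neg (Finset.ne_of_mem_erase hp').symm]
    have h1' : ‖∑ p, ∑ p', if p = p' then (0 : B) else star (z c p) * z c p'‖
        ≤ (n : ℝ) * (n * S) := by
      refine hsum _ fun p p' => ?_
      split_ifs with hp
      · rw [norm_zero]; positivity
      · exact hcross c p c p' fun e => hp (congrArg Prod.snd e)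
    have h2' : ‖(∑ p, star (z c p) * z c p) - ∑ p, star (D p) * G * D p‖
        ≤ (n : ℝ) * (Dd * η * Dd) := by
      rw [← Finset.sum_sub_distrib]
      refine (norm_sum_le _ _).trans ((Finset.sum_le_card_nsmul _ _ (Dd * η * Dd)
        fun p _ => ?_).trans (le_of_eq (by simp)))
      have e : star (z c p) * z c p - star (D p) * G * D p = star (D p) *
          (star (g c p) * (star (M c p * P c p) * (M c p * P c p)) * g c p - G) * D p := by
        simp only [hz, star_mul, mul_sub, sub_mul, mul_assoc]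
      rw [e]
      have hη : 0 ≤ η := (norm_nonneg _).trans (hg1 c p)
      refine (norm_mul_le _ _).trans (mul_le_mul ((norm_mul_le _ _).trans ?_) (hDn p)
        (norm_nonneg _) (by positivity))
      rw [norm_star]
      exact mul_le_mul (hDn p) (hg1 c p) (norm_nonneg _) hDd0
    rw [e1]
    calc ‖(∑ p, ∑ p', if p = p' then (0 : B) else star (z c p) * z c p') +
          (∑ p, star (z c p) * z c p) - f‖
        = ‖(∑ p, ∑ p', if p = p' then (0 : B) else star (z c p) * z c p') +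
          (((∑ p, star (z c p) * z c p) - ∑ p, star (D p) * G * D p) +
            ((∑ p, star (D p) * G * D p) - f))‖ := by congr 1; abel
      _ ≤ _ := (norm_add_le _ _).trans
          (add_le_add h1' ((norm_add_le _ _).trans (add_le_add h2' hD1)))
  · rw [if_neg hcc, if_neg hcc, sub_zero, add_zero]
    exact hsum _ fun p p' => hcross c p c' p' fun e => hcc (congrArg Prod.fst e)

/-- Two copies of a contraction. -/
lemma halving_contraction {A₀ : Set B} {n d : ℕ} (hA₀ : IsClosedIdeal A₀) (hP : AmpPI A₀ n)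
    (hn : 1 ≤ n) (hD : StratCover A₀ d) {h : B} (hhA : h ∈ A₀) (hh : 0 ≤ h) (hh1 : ‖h‖ ≤ 1)
    {ε : ℝ} (hε : 0 < ε) :
    ∃ r : Fin 2 → B, (∀ c, r c ∈ A₀) ∧
      ∀ c c', ‖star (r c) * h * r c' - (if c = c' then h else 0)‖ ≤ ε := by
  classical
  set e₁ := min 1 (ε / 2) with he₁
  have he₁0 : 0 < e₁ := lt_min one_pos (half_pos hε)
  obtain ⟨h1, h2, E, k, ⟨hh1A, hh10, hh11⟩, ⟨hh2A, hh20, hh2n⟩, hh12, hEh1, hh2sq, hkk⟩ :=
    halve_funcs hA₀ hhA hh hh1 he₁0
  -- constants that do not depend on the orthogonality of the pieces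
  set L : ℕ := 2 * n with hL
  obtain ⟨K, hK⟩ : ∃ K, (2 * n) * ((d + 2) * (d + 1)) = K + 1 :=
    Nat.exists_eq_succ_of_ne_zero (by positivity)
  obtain ⟨c, hc, hpieces⟩ := exists_pieces hA₀ hP hn hD K (show (0 : ℝ) < 1 / 32 by norm_num)
  set C := max 1 (Real.sqrt (2 / c)) with hCdef
  obtain ⟨Cb, hCb, hcol⟩ := colour hA₀ hn hD (C := C) (le_max_left _ _)
  choose! cf θf hcf hθf hcol using hcol
  set kc : ℝ := (Fintype.card (Fin (d + 2) × Fin (d + 1)) : ℝ) with hkc
  set Cm := max 1 (kc * Cb) with hCm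
  have hCm1 : 1 ≤ Cm := le_max_left _ _
  set ε₁ := min (1 / 4) (ε / 24) with hε₁
  have hε₁0 : 0 < ε₁ := lt_min (by norm_num) (by linarith)
  let δs : ℕ → ℝ := Nat.rec ε₁ fun j x => cf (Cm ^ j) x
  have hδs : ∀ j, 0 < δs j := by
    intro j
    induction j with
    | zero => exact hε₁0
    | succ j ih => exact hcf (Cm ^ j) (one_le_pow₀ hCm1) _ ih
  obtain ⟨τ₁, hτ₁, hτ₁θ⟩ := exists_pos_le_all (fun j => θf (Cm ^ j) (δs j)) L
    fun j _ => hθf _ (one_le_pow₀ hCm1) _ (hδs j)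
  set Dd := Real.sqrt (2 / δs L) with hDd
  have hDd0 : 0 < Dd := Real.sqrt_pos.2 (div_pos two_pos (hδs L))
  have hn0 : (0 : ℝ) < n := by exact_mod_cast hn
  set η := ε / (6 * (n * (Dd * Dd))) with hη
  have hη0 : 0 < η := by positivity
  set Kc := (Cm ^ 2) ^ L with hKc
  set Gb := Real.sqrt Kc * Real.sqrt ((Cm ^ L) ^ 2 / η) with hGb
  have hGb0 : 0 ≤ Gb := by positivity
  set W := (n : ℝ) * (n * ((Cm ^ L * (Gb * Dd)) * (kc * (kc * (Cb * 1 * Cb))) * (Cm ^ L * (Gb * Dd))))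
    with hW
  have hW0 : 0 ≤ W := by positivity
  set τ := min τ₁ (ε / (6 * (W + 1))) with hτ
  have hτ0 : 0 < τ := lt_min hτ₁ (by positivity)
  obtain ⟨F, hF, hFF⟩ := hpieces (τ ^ 2) (by positivity) h1 hh1A hh10 hh11 E hEh1
  -- split the pieces into groups
  have en : (Fin 2 × Fin n) × (Fin (d + 2) × Fin (d + 1)) ≃ Fin (K + 1) :=
    Fintype.equivFinOfCardEq (by simp only [Fintype.card_prod, Fintype.card_fin]; exact hK)
  let grp : ℕ → Fin 2 × Fin n := fun j =>
    finProdFinEquiv.symm ⟨j % (2 * n), Nat.mod_lt _ (by omega)⟩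
  let Fg : ℕ → Fin (d + 2) × Fin (d + 1) → B := fun j a => F (en (grp j, a))
  have hsq : ∀ i j : Fin (K + 1), i ≠ j → ‖CFC.sqrt (F i) * CFC.sqrt (F j)‖ ≤ τ := fun i j hij => by
    have h1' := (norm_sqrt_mul_sqrt_sq_le (hF i).2.1 (hF j).2.1).trans (hFF i j hij)
    exact (pow_le_pow_iff_left₀ (norm_nonneg _) hτ0.le two_ne_zero).1 h1'
  have hu : ∀ i : Fin (K + 1), ∃ u : Fin n → B, (∀ q, u q ∈ A₀ ∧ ‖u q‖ ≤ C) ∧
      ‖(∑ q, star (u q) * F i * u q) - h1‖ ≤ 1 / 8 := by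
    intro i
    obtain ⟨hiA, hi0, -, -, hfull⟩ := hF i
    have hdom := hfull _ (isClosedIdeal_genIdeal (cut c (F i)))
      ⟨cut c (F i), mem_genIdeal_self _, cut_nonneg, le_cut_add (IsSelfAdjoint.of_nonneg hi0)⟩
    obtain ⟨u, huA, hu1, hu2⟩ := hP.compare hA₀ hn hh1A hh10 hiA hi0 hc
      (show (0 : ℝ) < 1 / 32 by norm_num) hdom
    refine ⟨u, fun q => ⟨huA q, ?_⟩, hu1.trans (by norm_num)⟩
    have hh1n : ‖h1‖ ≤ 1 := (CStarAlgebra.norm_le_one_iff_of_nonneg h1 hh10).2 hh11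
    refine le_trans ?_ (le_max_right _ _)
    refine Real.le_sqrt_of_sq_le ?_
    rw [le_div_iff₀ hc]
    linarith [hu2 q]
  choose U hUA hUh using hu
  have hstep : ∀ j < L, ∀ P : B, P ∈ A₀ → 0 ≤ P → ‖P‖ ≤ Cm ^ j → h1 * P = P →
      ∃ M : B, (∃ b : Fin (d + 2) × Fin (d + 1) → B, (∀ a, ‖b a‖ ≤ Cb) ∧
          M = ∑ a, CFC.sqrt (Fg j a) * b a) ∧
        FullFor (δs (j + 1)) (δs j) (star (M * P) * (M * P)) (P * P) := by
    intro j hj P hPA hP0 hPn hhP
    obtain ⟨b, hb, hbf⟩ := hcol (Cm ^ j) (one_le_pow₀ hCm1) (δs j) (hδs j) (Fg j)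
      (fun a => U (en (grp j, a))) h1 P (fun a => ⟨(hF _).2.1, (hF _).2.2.1, (hF _).1⟩)
      (fun a b hab => (hsq _ _ fun e => hab (congrArg Prod.snd (en.injective e))).trans
        ((min_le_left _ _).trans (hτ₁θ j hj)))
      (fun a q => hUA _ q) (fun a => hUh _) hPA hP0 hPn (IsSelfAdjoint.of_nonneg hh10) hhP
    exact ⟨_, ⟨b, fun a => (hb a).2, rfl⟩, hbf⟩
  obtain ⟨G, Ms, Ps, ⟨hGA, hG0, hGn⟩, hj', hdom⟩ := halve_chain hA₀ L hh2A hh20 hh2n hh12 hCm1 δs
    (fun j M => ∃ b : Fin (d + 2) × Fin (d + 1) → B, (∀ a, ‖b a‖ ≤ Cb) ∧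
      M = ∑ a, CFC.sqrt (Fg j a) * b a)
    (fun j _ M hM => by
      obtain ⟨b, hb, rfl⟩ := hM
      exact (norm_colour_sum_le _ b (fun a => ⟨(hF _).2.1, (hF _).2.2.1⟩) hb).trans
        (le_max_right _ _))
    hstep
  have hf0 : 0 ≤ h2 * h2 := by
    have := star_mul_self_nonneg h2
    rwa [(IsSelfAdjoint.of_nonneg hh20).star_eq] at this
  have hfn : ‖h2 * h2‖ ≤ 1 :=
    (norm_mul_le _ _).trans (mul_le_one₀ hh2n (norm_nonneg _) hh2n)
  obtain ⟨D, hDA, hD1, hD2⟩ := hP.compare hA₀ hn (hA₀.mul_left _ _ hh2A) hf0 hGA hG0 (hδs L)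
    hε₁0 hdom
  have hε₁4 : ε₁ ≤ 1 / 4 := min_le_left _ _
  have hε₁24 : ε₁ ≤ ε / 24 := min_le_right _ _
  have hDn : ∀ p, ‖D p‖ ≤ Dd := fun p => Real.le_sqrt_of_sq_le (by
    rw [le_div_iff₀ (hδs L)]; linarith [hD2 p])
  have hg : ∀ j < L, ∃ g : B,
      ‖star g * (star (Ms j * Ps j) * (Ms j * Ps j)) * g - G‖ ≤ η ∧ ‖g‖ ≤ Gb := by
    intro j hj
    obtain ⟨u, hu1, hu2⟩ := exists_conj_approx hG0
      (smul_nonneg (show (0 : ℝ) ≤ Kc by positivity) (star_mul_self_nonneg (Ms j * Ps j)))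
      (le_refl (0 : ℝ)) hη0 (by simpa using (hj' j hj).2.2.2)
    refine ⟨Real.sqrt Kc • (u * CFC.sqrt G), ?_, ?_⟩
    · rw [add_zero] at hu1
      refine le_trans (le_of_eq ?_) hu1
      simp only [star_smul, star_trivial, smul_mul_assoc, mul_smul_comm, smul_smul,
        Real.mul_self_sqrt (show (0 : ℝ) ≤ Kc by positivity)]
    · rw [norm_smul, Real.norm_eq_abs, abs_of_nonneg (Real.sqrt_nonneg _)]
      refine mul_le_mul_of_nonneg_left (Real.le_sqrt_of_sq_le (hu2.trans ?_)) (Real.sqrt_nonneg _)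
      refine div_le_div_of_nonneg_right ?_ hη0.le
      rw [sq]; exact hGn
  choose! g hg1 hg2 using hg
  let jj : Fin 2 → Fin n → ℕ := fun c p => (finProdFinEquiv (c, p) : Fin (2 * n))
  have hjj : ∀ c p, jj c p < L := fun c p => (finProdFinEquiv (c, p) : Fin (2 * n)).isLt
  have hgj : ∀ c p, grp (jj c p) = (c, p) := fun c p => by
    rw [Equiv.symm_apply_eq]
    exact Fin.ext (Nat.mod_eq_of_lt (hjj c p))
  have hM : ∀ c p c' p', (c, p) ≠ (c', p') →
      ‖star (Ms (jj c p)) * Ms (jj c' p')‖ ≤ kc * (kc * (Cb * τ * Cb)) := by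
    intro c p c' p' hne
    obtain ⟨b, hb, hMb⟩ := (hj' _ (hjj c p)).1
    obtain ⟨b', hb', hMb'⟩ := (hj' _ (hjj c' p')).1
    rw [hMb, hMb']
    refine cross_norm_le _ _ b b' hCb.le hb hb' fun a a' => ?_
    rw [(IsSelfAdjoint.of_nonneg (CFC.sqrt_nonneg _)).star_eq]
    refine hsq _ _ fun e => hne ?_
    have := congrArg Prod.fst (en.injective e)
    rwa [hgj, hgj] at this
  set v : Fin 2 → B := fun c => ∑ p, Ms (jj c p) * Ps (jj c p) * (g (jj c p) * D p) with hv
  have hvv := halve_assemble (fun c p => Ms (jj c p)) (fun c p => Ps (jj c p))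
    (fun c p => g (jj c p)) D (Pn := Cm ^ L) (by positivity) hGb0 hDd0.le (by positivity)
    (fun c p => (hj' _ (hjj c p)).2.2.1) (fun c p => hg2 _ (hjj c p)) hDn
    (fun c p => hg1 _ (hjj c p)) hM hD1
  have hWτ : W * τ ≤ ε / 6 := by
    calc W * τ ≤ W * (ε / (6 * (W + 1))) := mul_le_mul_of_nonneg_left (min_le_right _ _) hW0
      _ = W / (W + 1) * (ε / 6) := by field_simp
      _ ≤ 1 * (ε / 6) := mul_le_mul_of_nonneg_right
          (by rw [div_le_one (by linarith)]; linarith) (by linarith)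
      _ = _ := one_mul _
  have hcr : (n : ℝ) * (n * (Cm ^ L * (Gb * Dd) * (kc * (kc * (Cb * τ * Cb))) * (Cm ^ L * (Gb * Dd))))
      ≤ ε / 6 := le_trans (le_of_eq (by rw [hW]; ring)) hWτ
  have hηn : (n : ℝ) * (Dd * η * Dd) = ε / 6 := by rw [hη]; field_simp
  have hEv : ∀ c, E * v c = v c := fun c => by
    simp only [hv, Finset.mul_sum]
    refine Finset.sum_congr rfl fun p _ => ?_
    obtain ⟨b, -, hMb⟩ := (hj' _ (hjj c p)).1
    simp only [← mul_assoc]
    congr 3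
    rw [hMb, Finset.mul_sum]
    refine Finset.sum_congr rfl fun a _ => ?_
    rw [← mul_assoc, mul_sqrt_eq_of_mul_eq (hF _).2.1 (hF _).2.2.2.1]
  refine ⟨fun c => k * v c, fun c => hA₀.mul_left _ _ (hA₀.sum_mem _ _ fun p _ =>
    hA₀.mul_right _ _ (hA₀.mul_left _ _ (hj' _ (hjj c p)).2.1)), fun c c' => ?_⟩
  have e : star (k * v c) * h * (k * v c') = star (v c) * v c' := by
    calc star (k * v c) * h * (k * v c') = star (v c) * (star k * h * k) * v c' := by
          rw [star_mul]; noncomm_ring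
      _ = star (E * v c) * (E * v c') := by rw [hkk, star_mul]; noncomm_ring
      _ = _ := by rw [hEv, hEv]
  rw [e]
  have he₁ε : e₁ ≤ ε / 2 := min_le_right _ _
  have h3 := hvv c c'
  by_cases hcc : c = c'
  · rw [if_pos hcc]
    rw [if_pos hcc, if_pos hcc] at h3
    calc ‖star (v c) * v c' - h‖ ≤ ‖star (v c) * v c' - h2 * h2‖ + ‖h2 * h2 - h‖ :=
          norm_sub_le_norm_sub_add_norm_sub _ _ _
      _ ≤ ε := by
          have h3' : ‖star (v c) * v c' - h2 * h2‖ ≤ ε / 6 + (ε / 6 + 4 * ε₁) :=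
            h3.trans (add_le_add hcr (add_le_add hηn.le le_rfl))
          linarith
  · rw [if_neg hcc]
    rw [if_neg hcc, if_neg hcc, add_zero] at h3
    exact (h3.trans hcr).trans (by linarith)

/-- Properly infinite `n`-fold amplifications and finite covering dimension give pure
infiniteness. -/
theorem halving {A₀ : Set B} {n d : ℕ} (hA₀ : IsClosedIdeal A₀) (hP : AmpPI A₀ n) (hn : 1 ≤ n)
    (hD : StratCover A₀ d) : AmpPI A₀ 1 := by
  intro h hhA hh ε hε
  set s := ‖h‖ + 1 with hs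
  have hs0 : 0 < s := by positivity
  obtain ⟨r, hrA, hr⟩ := halving_contraction hA₀ hP hn hD (hA₀.real_smul_mem s⁻¹ hhA)
    (smul_nonneg (inv_nonneg.2 hs0.le) hh)
    (by rw [norm_smul, norm_inv, Real.norm_of_nonneg hs0.le, inv_mul_le_one₀ hs0, hs]; linarith)
    (show 0 < ε / s by positivity)
  refine ⟨fun _ c => r c.2, fun _ c => hrA _, fun c c' => ?_⟩
  have h' := hr c.2 c'.2
  have hc : c = c' ↔ c.2 = c'.2 :=
    ⟨fun e => e ▸ rfl, fun e => Prod.ext (Subsingleton.elim _ _) e⟩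
  simp only [Fin.sum_univ_one, hc]
  have e : star (r c.2) * h * r c'.2 - (if c.2 = c'.2 then h else 0) =
      s • (star (r c.2) * (s⁻¹ • h) * r c'.2 - (if c.2 = c'.2 then s⁻¹ • h else 0)) := by
    rw [smul_sub, mul_smul_comm, smul_mul_assoc, smul_inv_smul₀ hs0.ne']
    split_ifs
    · rw [smul_inv_smul₀ hs0.ne']
    · rw [smul_zero]
  rw [e, norm_smul, Real.norm_of_nonneg hs0.le]
  calc s * _ ≤ s * (ε / s) := mul_le_mul_of_nonneg_left h' hs0.le
    _ = ε := by field_simp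

end

end Vale.Agent.P133.FinDim
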