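import Vale.Agent.P133.FinDim.Halving
import Vale.Agent.P133.FinDim.Transfer
import Vale.Agent.P133.FinDim.StratTransfer

/-!
The three notions coincide under finite stratified covering dimension.
-/

namespace Vale.Agent.P133.FinDim

open scoped ComplexOrder

noncomputable section

variable (A : Type*) [NonUnitalCStarAlgebra A] [PartialOrder A] [StarOrderedRing A]

theorem notions_coincide_strat (d : ℕ) (hd : StratCoverDimLE A d) :
    (IsWeaklyPurelyInfinite A ↔ IsPurelyInfinite A) ∧
      (IsPurelyInfinite A ↔ IsStronglyPurelyInfinite A) := by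
  have hD := stratCover_base hd
  have h1 : IsWeaklyPurelyInfinite A → AmpPI (base A) 1 := fun h => by
    obtain ⟨n, hn, hP⟩ := exists_ampPI_base h
    exact halving (isClosedIdeal_base A) hP hn hD
  have h2 : IsWeaklyPurelyInfinite A → IsStronglyPurelyInfinite A := fun h =>
    isStronglyPurelyInfinite_of_split fun ε hε =>
      split (isClosedIdeal_base A) (h1 h) le_rfl hD hε
  exact ⟨⟨fun h => isPurelyInfinite_of_ampPI (h1 h), isWeaklyPurelyInfinite_of_isPurelyInfinite⟩,
    ⟨fun h => h2 (isWeaklyPurelyInfinite_of_isPurelyInfinite h),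
      isPurelyInfinite_of_isStronglyPurelyInfinite⟩⟩

theorem notions_coincide (d : ℕ) (hd : IdealCoverDimLE A d) :
    (IsWeaklyPurelyInfinite A ↔ IsPurelyInfinite A) ∧
      (IsPurelyInfinite A ↔ IsStronglyPurelyInfinite A) :=
  notions_coincide_strat A d (stratCoverDimLE_of_idealCoverDimLE hd)

end

end Vale.Agent.P133.FinDim
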