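import Vale.Agent.P133.FinDim.Split

/-!
Many almost orthogonal full positive pieces.
-/

namespace Vale.Agent.P133.FinDim

open scoped ComplexOrder

noncomputable section

variable {B : Type*} [CStarAlgebra B] [PartialOrder B] [StarOrderedRing B]

/-- `F` is full for `h`: being below `c` modulo an ideal forces `h` below `ε`. -/
def FullFor (c ε : ℝ) (F h : B) : Prop :=
  ∀ I : Set B, IsClosedIdeal I → Dom I c F → Dom I ε h

lemma sqrt_le_one' {F : B} (hF : 0 ≤ F) (hF1 : F ≤ 1) : CFC.sqrt F ≤ 1 ∧ ‖CFC.sqrt F‖ ≤ 1 := by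
  have h1 := (CStarAlgebra.norm_le_one_iff_of_nonneg F hF).2 hF1
  have hs := CFC.sqrt_nonneg F
  have e : ‖CFC.sqrt F‖ * ‖CFC.sqrt F‖ = ‖F‖ := by
    rw [← CStarRing.norm_star_mul_self, (IsSelfAdjoint.of_nonneg hs).star_eq,
      CFC.sqrt_mul_sqrt_self F hF]
  have h2 : ‖CFC.sqrt F‖ ≤ 1 := by nlinarith [norm_nonneg (CFC.sqrt F)]
  exact ⟨(CStarAlgebra.norm_le_one_iff_of_nonneg _ hs).1 h2, h2⟩

/-- The normalised sum `∑ X X*` of a column built from `√F`. -/
def columnPiece {n : ℕ} (D : ℝ) (F : B) (s : Fin n → B) : B :=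
  D⁻¹ • ∑ p, CFC.sqrt F * s p * star (CFC.sqrt F * s p)

lemma columnPiece_spec {A₀ : Set B} (hA₀ : IsClosedIdeal A₀) {n : ℕ} {C : ℝ} {F e : B}
    (hF : 0 ≤ F) (hF1 : F ≤ 1) (hFA : F ∈ A₀) (he : e * F = F) {s : Fin n → B}
    (hs : ∀ p, ‖s p‖ ≤ C) {D : ℝ} (hD : (n : ℝ) * (C * C) + 1 ≤ D) :
    columnPiece D F s ∈ A₀ ∧ 0 ≤ columnPiece D F s ∧ columnPiece D F s ≤ 1 ∧
      e * columnPiece D F s = columnPiece D F s := by
  have hD0 : 0 < D := lt_of_lt_of_le (by nlinarith [mul_self_nonneg C, (n.cast_nonneg : (0 : ℝ) ≤ n)]) hD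
  set X : Fin n → B := fun p => CFC.sqrt F * s p with hX
  have h0 : 0 ≤ ∑ p, X p * star (X p) := Finset.sum_nonneg fun p _ => mul_star_self_nonneg _
  have hXC : ∀ p, ‖X p‖ ≤ C := fun p => (norm_mul_le _ _).trans (by
    have := mul_le_mul (sqrt_le_one' hF hF1).2 (hs p) (norm_nonneg _) zero_le_one
    linarith)
  have hn : ‖∑ p, X p * star (X p)‖ ≤ D := by
    calc ‖∑ p, X p * star (X p)‖ ≤ ∑ p, ‖X p * star (X p)‖ := norm_sum_le _ _
      _ ≤ ∑ _p : Fin n, C * C := Finset.sum_le_sum fun p _ => by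
          refine (norm_mul_le _ _).trans ?_
          rw [norm_star]
          exact mul_le_mul (hXC p) (hXC p) (norm_nonneg _) ((norm_nonneg _).trans (hXC p))
      _ = (n : ℝ) * (C * C) := by
          rw [Finset.sum_const, Finset.card_univ, Fintype.card_fin, nsmul_eq_mul]
      _ ≤ D := le_trans (le_add_of_nonneg_right zero_le_one) hD
  refine ⟨?_, ?_, ?_, ?_⟩
  · exact hA₀.real_smul_mem _ (hA₀.sum_mem _ _ fun p _ =>
      hA₀.mul_right _ _ (hA₀.mul_right _ _ (hA₀.sqrt_mem hF hFA)))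
  · exact smul_nonneg (by positivity) h0
  · refine (CStarAlgebra.norm_le_one_iff_of_nonneg _ (smul_nonneg (by positivity) h0)).1 ?_
    show ‖D⁻¹ • ∑ p, X p * star (X p)‖ ≤ 1
    rw [norm_smul, norm_inv, Real.norm_eq_abs, abs_of_pos hD0, inv_mul_le_one₀ hD0]
    exact hn
  · show e * (D⁻¹ • ∑ p, CFC.sqrt F * s p * star (CFC.sqrt F * s p)) = _
    rw [mul_smul_comm, Finset.mul_sum]
    simp only [← mul_assoc, mul_sqrt_eq_of_mul_eq hF he]
    rfl

lemma columnPiece_full {n : ℕ} {c ε : ℝ} {F h : B} (hF : 0 ≤ F) (hc : 0 < c) (hfull : FullFor c ε F h)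
    {D : ℝ} (hD : 1 ≤ D) {s : Fin n → B}
    (happ : ‖(∑ p, star (s p) * F * s p) - F‖ ≤ c / 2) :
    FullFor (c / (8 * ((n : ℝ) + 1) * D)) ε (columnPiece D F s) h := by
  intro I hI hdom
  refine hfull I hI ?_
  set c' := c / (8 * ((n : ℝ) + 1) * D) with hc'
  have hD0 : 0 < D := lt_of_lt_of_le one_pos hD
  have hc'0 : 0 < c' := by positivity
  set X : Fin n → B := fun p => CFC.sqrt F * s p with hX
  have h1 : Dom I (D * c') (∑ p, X p * star (X p)) := by
    have := Dom.smul hI hdom hD0.le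
    rwa [columnPiece, smul_smul, mul_inv_cancel₀ hD0.ne', one_smul] at this
  have h2 : ∀ p ∈ (Finset.univ : Finset (Fin n)), Dom I (D * c' + D * c')
      (star (s p) * F * s p) := fun p _ => by
    have h3 : Dom I (D * c') (star (star (X p)) * star (X p)) := by
      rw [star_star]
      exact h1.mono (Finset.single_le_sum (f := fun q => X q * star (X q))
        (fun q _ => mul_star_self_nonneg _) (Finset.mem_univ p)) le_rfl
    have h4 := Dom.swap hI (by positivity) (mul_pos hD0 hc'0) h3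
    rw [star_star] at h4
    convert h4 using 1
    rw [hX, star_mul, (IsSelfAdjoint.of_nonneg (CFC.sqrt_nonneg F)).star_eq, mul_assoc _ _ (_ * s p),
      ← mul_assoc (CFC.sqrt F) (CFC.sqrt F), CFC.sqrt_mul_sqrt_self F hF, mul_assoc]
  have h5 := (Dom.sum hI _ _ _ h2).of_norm_le (IsSelfAdjoint.of_nonneg hF)
    (IsSelfAdjoint.of_nonneg (Finset.sum_nonneg fun p _ => star_left_conjugate_nonneg hF _))
    ((norm_sub_rev _ _).trans_le happ)
  refine h5.mono le_rfl ?_
  rw [Finset.sum_const, Finset.card_univ, Fintype.card_fin, nsmul_eq_mul]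
  have e : D * c' = c / (8 * ((n : ℝ) + 1)) := by
    rw [hc']; field_simp
  have h6 : (n : ℝ) * (c / (8 * ((n : ℝ) + 1))) ≤ c / 8 := by
    rw [mul_div_assoc', div_le_div_iff₀ (by positivity) (by norm_num)]
    nlinarith [hc.le]
  rw [e]
  linarith

omit [PartialOrder B] [StarOrderedRing B] in
lemma norm_sum_mul_sum_le {α β : Type*} (s : Finset α) (t : Finset β) (a : α → B) (b : β → B)
    {M : ℝ} (h : ∀ i ∈ s, ∀ j ∈ t, ‖a i * b j‖ ≤ M) :
    ‖(∑ i ∈ s, a i) * ∑ j ∈ t, b j‖ ≤ s.card * (t.card * M) := by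
  rw [Finset.sum_mul_sum]
  refine (norm_sum_le _ _).trans ?_
  calc ∑ i ∈ s, ‖∑ j ∈ t, a i * b j‖ ≤ ∑ _i ∈ s, (t.card * M : ℝ) :=
        Finset.sum_le_sum fun i hi => (norm_sum_le _ _).trans (by
          refine (Finset.sum_le_sum (h i hi)).trans_eq ?_
          rw [Finset.sum_const, nsmul_eq_mul])
    _ = _ := by rw [Finset.sum_const, nsmul_eq_mul]

lemma norm_mul_swap {a b : B} (ha : IsSelfAdjoint a) (hb : IsSelfAdjoint b) : ‖b * a‖ = ‖a * b‖ := by
  rw [← norm_star, star_mul, ha.star_eq, hb.star_eq]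

theorem exists_pieces {A₀ : Set B} {n d : ℕ} (hA₀ : IsClosedIdeal A₀) (hP : AmpPI A₀ n)
    (hn : 1 ≤ n) (hD : StratCover A₀ d) (K : ℕ) {ε : ℝ} (hε : 0 < ε) :
    ∃ c : ℝ, 0 < c ∧ ∀ θ : ℝ, 0 < θ → ∀ h ∈ A₀, 0 ≤ h → h ≤ 1 → ∀ e : B, e * h = h →
      ∃ F : Fin (K + 1) → B,
        (∀ a, F a ∈ A₀ ∧ 0 ≤ F a ∧ F a ≤ 1 ∧ e * F a = F a ∧ FullFor c ε (F a) h) ∧
        ∀ a b, a ≠ b → ‖F a * F b‖ ≤ θ := by
  induction K with
  | zero =>
    refine ⟨ε, hε, fun θ _ h hhA hh hh1 e he => ⟨fun _ => h,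
      fun _ => ⟨hhA, hh, hh1, he, fun I _ hd => hd⟩, fun a b hab => ?_⟩⟩
    exact absurd (Subsingleton.elim (α := Fin 1) a b) hab
  | succ K ih =>
    obtain ⟨c, hc, hpieces⟩ := ih
    obtain ⟨C, hC, hsplit⟩ := split hA₀ hP hn hD (half_pos hc)
    set D : ℝ := (n : ℝ) * (C * C) + 1 with hDdef
    have hD1 : 1 ≤ D := le_add_of_nonneg_left (by positivity)
    have hD0 : 0 < D := lt_of_lt_of_le one_pos hD1
    refine ⟨min c (c / (8 * ((n : ℝ) + 1) * D)), lt_min hc (by positivity),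
      fun θ hθ h hhA hh hh1 e he => ?_⟩
    obtain ⟨F, hF, hFF⟩ := hpieces (min θ (θ * θ)) (lt_min hθ (by positivity)) h hhA hh hh1 e he
    set L := F (Fin.last K) with hL
    obtain ⟨hLA, hL0, hL1, hLe, hLfull⟩ := hF (Fin.last K)
    rw [← hL] at hLA hL0 hL1 hLe hLfull
    have hS1 := sqrt_le_one' hL0 hL1
    obtain ⟨s, t, hs, ht, hsx, hty, hcross⟩ := hsplit (θ / n) (div_pos hθ (by exact_mod_cast hn)) (CFC.sqrt L) (hA₀.sqrt_mem hL0 hLA)
      (CFC.sqrt L) (hA₀.sqrt_mem hL0 hLA) (CFC.sqrt_nonneg L) hS1.1 (CFC.sqrt_nonneg L) hS1.1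
    rw [CFC.sqrt_mul_sqrt_self L hL0] at hsx hty
    set E := columnPiece D L s with hE
    set E' := columnPiece D L t with hE'
    have hEs := columnPiece_spec hA₀ hL0 hL1 hLA hLe (fun p => (hs p).2) (le_refl D)
    have hEs' := columnPiece_spec hA₀ hL0 hL1 hLA hLe (fun p => (ht p).2) (le_refl D)
    rw [← hE] at hEs
    rw [← hE'] at hEs'
    have hfull := columnPiece_full hL0 hc hLfull hD1 hsx
    have hfull' := columnPiece_full hL0 hc hLfull hD1 hty
    set c₁ := min c (c / (8 * ((n : ℝ) + 1) * D)) with hc₁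
    have hmono : ∀ {G : B}, FullFor c ε G h → FullFor c₁ ε G h := fun hG I hI hd =>
      hG I hI (hd.mono le_rfl (min_le_left _ _))
    have hmono' : ∀ {G : B}, FullFor (c / (8 * ((n : ℝ) + 1) * D)) ε G h → FullFor c₁ ε G h :=
      fun hG I hI hd => hG I hI (hd.mono le_rfl (min_le_right _ _))
    have hDC : (n : ℝ) * (C * C) ≤ D := le_add_of_nonneg_right zero_le_one
    -- a new piece is almost orthogonal to the old ones
    have hold : ∀ a, a ≠ Fin.last K → ∀ s : Fin n → B, (∀ p, ‖s p‖ ≤ C) →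
        ‖F a * columnPiece D L s‖ ≤ θ := by
      intro a ha s hs
      obtain ⟨-, hG0, hG1, -, -⟩ := hF a
      have hG : IsSelfAdjoint (F a) := IsSelfAdjoint.of_nonneg hG0
      have hsq : ‖F a * CFC.sqrt L‖ ^ 2 ≤ θ * θ := by
        rw [sq, ← CStarRing.norm_self_mul_star, star_mul, hG.star_eq,
          (IsSelfAdjoint.of_nonneg (CFC.sqrt_nonneg L)).star_eq, mul_assoc,
          ← mul_assoc (CFC.sqrt L), CFC.sqrt_mul_sqrt_self L hL0, ← mul_assoc]
        refine (norm_mul_le _ _).trans ((mul_le_of_le_one_right (norm_nonneg _)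
          ((CStarAlgebra.norm_le_one_iff_of_nonneg _ hG0).2 hG1)).trans ?_)
        exact (hFF a (Fin.last K) ha).trans (min_le_right _ _)
      have hsq' : ‖F a * CFC.sqrt L‖ ≤ θ :=
        le_of_pow_le_pow_left₀ two_ne_zero hθ.le (by rwa [sq θ])
      show ‖F a * (D⁻¹ • ∑ p, CFC.sqrt L * s p * star (CFC.sqrt L * s p))‖ ≤ θ
      rw [mul_smul_comm, norm_smul, norm_inv, Real.norm_eq_abs, abs_of_pos hD0,
        inv_mul_le_iff₀ hD0, Finset.mul_sum]
      refine (norm_sum_le _ _).trans ?_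
      calc ∑ p, ‖F a * (CFC.sqrt L * s p * star (CFC.sqrt L * s p))‖ ≤ ∑ _p : Fin n, θ * (C * C) :=
            Finset.sum_le_sum fun p _ => by
              rw [← mul_assoc, ← mul_assoc]
              refine (norm_mul_le _ _).trans ?_
              rw [norm_star]
              have h1 : ‖F a * CFC.sqrt L * s p‖ ≤ θ * C :=
                (norm_mul_le _ _).trans (mul_le_mul hsq' (hs p) (norm_nonneg _) hθ.le)
              have h2 : ‖CFC.sqrt L * s p‖ ≤ C := (norm_mul_le _ _).trans (by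
                have := mul_le_mul hS1.2 (hs p) (norm_nonneg _) zero_le_one
                linarith)
              exact (mul_le_mul h1 h2 (norm_nonneg _) (by positivity)).trans_eq (mul_assoc _ _ _)
        _ = (n : ℝ) * (C * C) * θ := by
              rw [Finset.sum_const, Finset.card_univ, Fintype.card_fin, nsmul_eq_mul]; ring
        _ ≤ D * θ := mul_le_mul_of_nonneg_right hDC hθ.le
    -- the two new pieces are almost orthogonal
    have hnew : ‖E * E'‖ ≤ θ := by
      show ‖(D⁻¹ • ∑ p, CFC.sqrt L * s p * star (CFC.sqrt L * s p)) *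
        (D⁻¹ • ∑ p, CFC.sqrt L * t p * star (CFC.sqrt L * t p))‖ ≤ θ
      rw [smul_mul_assoc, mul_smul_comm, smul_smul, norm_smul, ← mul_inv, norm_inv,
        Real.norm_eq_abs, abs_of_pos (mul_pos hD0 hD0), inv_mul_le_iff₀ (mul_pos hD0 hD0)]
      have hn0 : (0 : ℝ) < n := by exact_mod_cast hn
      refine (norm_sum_mul_sum_le _ _ _ _ (M := C * C * (θ / n)) fun p _ q _ => ?_).trans ?_
      · rw [mul_assoc (CFC.sqrt L * s p), ← mul_assoc (star (CFC.sqrt L * s p))]
        refine (norm_mul_le _ _).trans ?_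
        refine (mul_le_mul_of_nonneg_left (norm_mul_le _ _) (norm_nonneg _)).trans ?_
        rw [norm_star]
        have h1 : ∀ r : B, ‖r‖ ≤ C → ‖CFC.sqrt L * r‖ ≤ C := fun r hr => (norm_mul_le _ _).trans (by
          have := mul_le_mul hS1.2 hr (norm_nonneg _) zero_le_one
          linarith)
        calc ‖CFC.sqrt L * s p‖ * (‖star (CFC.sqrt L * s p) * (CFC.sqrt L * t q)‖ * ‖CFC.sqrt L * t q‖)
            ≤ C * (θ / n * C) := mul_le_mul (h1 _ (hs p).2) (mul_le_mul (hcross p q) (h1 _ (ht q).2)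
              (norm_nonneg _) (by positivity)) (by positivity) hC.le
          _ = C * C * (θ / n) := by ring
      · rw [Finset.card_univ, Fintype.card_fin]
        calc (n : ℝ) * (n * (C * C * (θ / n))) = ((n : ℝ) * (C * C)) * 1 * θ := by field_simp
          _ ≤ D * D * θ :=
              mul_le_mul_of_nonneg_right (mul_le_mul hDC hD1 zero_le_one hD0.le) hθ.le
    set G : Fin (K + 1) → B := Function.update F (Fin.last K) E with hG
    have hGp : ∀ a, G a ∈ A₀ ∧ 0 ≤ G a ∧ G a ≤ 1 ∧ e * G a = G a ∧ FullFor c₁ ε (G a) h := by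
      intro a
      rcases eq_or_ne a (Fin.last K) with rfl | ha
      · rw [hG, Function.update_self]
        exact ⟨hEs.1, hEs.2.1, hEs.2.2.1, hEs.2.2.2, hmono' hfull⟩
      · rw [hG, Function.update_of_ne ha]
        obtain ⟨a1, a2, a3, a4, a5⟩ := hF a
        exact ⟨a1, a2, a3, a4, hmono a5⟩
    have hGn : ∀ a, ‖G a * E'‖ ≤ θ := fun a => by
      rcases eq_or_ne a (Fin.last K) with rfl | ha
      · rw [hG, Function.update_self]; exact hnew
      · rw [hG, Function.update_of_ne ha]; exact hold a ha t fun p => (ht p).2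
    have hsa : ∀ a, IsSelfAdjoint (G a) := fun a => IsSelfAdjoint.of_nonneg (hGp a).2.1
    have hGG : ∀ a b, a ≠ b → ‖G a * G b‖ ≤ θ := fun a b hab => by
      rcases eq_or_ne a (Fin.last K) with rfl | ha
      · rw [← norm_mul_swap (hsa _) (hsa b), hG, Function.update_self,
          Function.update_of_ne hab.symm]
        exact hold b hab.symm s fun p => (hs p).2
      rcases eq_or_ne b (Fin.last K) with rfl | hb
      · rw [hG, Function.update_self, Function.update_of_ne ha]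
        exact hold a ha s fun p => (hs p).2
      · rw [hG, Function.update_of_ne ha, Function.update_of_ne hb]
        exact (hFF a b hab).trans (min_le_left _ _)
    refine ⟨Fin.snoc G E', ?_, ?_⟩
    · refine Fin.lastCases ?_ ?_
      · rw [Fin.snoc_last]
        exact ⟨hEs'.1, hEs'.2.1, hEs'.2.2.1, hEs'.2.2.2, hmono' hfull'⟩
      · intro a; rw [Fin.snoc_castSucc]; exact hGp a
    · intro a b
      refine Fin.lastCases ?_ ?_ a
      · refine Fin.lastCases ?_ ?_ b
        · exact fun hab => absurd rfl hab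
        · intro b _
          rw [Fin.snoc_last, Fin.snoc_castSucc,
            norm_mul_swap (hsa b) (IsSelfAdjoint.of_nonneg hEs'.2.1)]
          exact hGn b
      · intro a
        refine Fin.lastCases ?_ ?_ b
        · intro _; rw [Fin.snoc_last, Fin.snoc_castSucc]; exact hGn a
        · intro b hab
          rw [Fin.snoc_castSucc, Fin.snoc_castSucc]
          exact hGG a b fun e => hab (congrArg Fin.castSucc e)

end

end Vale.Agent.P133.FinDim
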