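import Vale.Agent.P133.FinDim.StratBase

/-!
Descending through the stages of a refinement.
-/

namespace Vale.Agent.P133.FinDim

open Filter Topology
open scoped ComplexOrder

noncomputable section

variable {B : Type*} [CStarAlgebra B] [PartialOrder B] [StarOrderedRing B]

omit [PartialOrder B] [StarOrderedRing B] in
/-- If each stage is small modulo `L k` as soon as the next ideal lies in `L k`, then so is `b`. -/
theorem StratRefinement.near_of_step {ι : Type} [Fintype ι] {I : ι → Set B} {b : B} {ε : ℝ}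
    {d : ℕ} (D : StratRefinement I b ε d) {L : ℕ → Set B} (hL : ∀ k, IsClosedIdeal (L k))
    (hstep : ∀ s, s ≤ D.S → (∀ᶠ k in atTop, D.K s ⊆ L k) →
      ∀ᶠ k in atTop, Near (L k) (D.δ / 2) (∑ i, D.j s i)) :
    ∀ᶠ k in atTop, Near (L k) (2 * D.δ) b := by
  have hnear : ∀ s, s ≤ D.S → (∀ᶠ k in atTop, D.K s ⊆ L k) →
      ∀ᶠ k in atTop, Near (L k) (2 * D.δ) (D.h s) := by
    intro s hs hK
    filter_upwards [hK, hstep s hs hK] with k hk1 hk2
    obtain ⟨Y, hY, hn⟩ := hk2
    refine ⟨Y + D.y s, (hL k).add_mem _ hY _ (hk1 (D.y_mem s)), ?_⟩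
    have h2 := D.cover s hs
    calc ‖D.h s - (Y + D.y s)‖ ≤ ‖D.h s - ((∑ i, D.j s i) + D.y s)‖ +
          ‖((∑ i, D.j s i) + D.y s) - (Y + D.y s)‖ := norm_sub_le_norm_sub_add_norm_sub ..
      _ ≤ D.δ + D.δ / 2 := by
        rw [add_sub_add_right_eq_sub]
        exact add_le_add h2 hn
      _ ≤ 2 * D.δ := by linarith [D.δ_pos]
  have hsub : ∀ r, r ≤ D.S → ∀ᶠ k in atTop, D.K (D.S - r) ⊆ L k := by
    intro r
    induction r with
    | zero =>
      intro _
      refine Eventually.of_forall fun k => ?_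
      rw [Nat.sub_zero, D.K_last]
      exact Set.singleton_subset_iff.mpr (hL k).zero_mem
    | succ r ih =>
      intro hr
      have h1 := ih (by omega)
      have e : D.S - (r + 1) + 1 = D.S - r := by omega
      filter_upwards [hnear (D.S - r) (by omega) h1] with k hk
      obtain ⟨z, hz, hzn⟩ := hk
      exact D.K_below (D.S - (r + 1)) (by omega) (L k) (hL k) z hz (by rw [e]; exact hzn)
  have h0 := hsub D.S le_rfl
  rw [Nat.sub_self] at h0
  simpa only [D.h_zero] using hnear 0 (Nat.zero_le _) h0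

end

end Vale.Agent.P133.FinDim
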