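import Vale.Agent.P133.FinDim.SplitAux
import Vale.Agent.P133.FinDim.StratUse

/-!
The splitting lemma: the two orthogonal full columns.
-/

namespace Vale.Agent.P133.FinDim

open Filter Topology
open scoped ComplexOrder

noncomputable section

variable {B : Type*} [CStarAlgebra B] [PartialOrder B] [StarOrderedRing B]

theorem Dom.zero_ideal_smul_le {δ : ℝ} {p : B} (hp : p ≤ sc δ) {r : ℝ} (hr : 0 ≤ r) :
    r • p ≤ sc (r * δ) := by
  refine (smul_le_smul_of_nonneg_left hp hr).trans (le_of_eq ?_)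
  simp [sc, Algebra.smul_def]

/-- The cover step: if the sum of the `Q i` is small compared to `R θ`, then `y²` is small modulo
the sum of the ideals of the cut parts. -/
theorem cover_step {ι : Type*} [Fintype ι] [Nonempty ι] (y : B) (hy : IsSelfAdjoint y)
    (hy1 : ‖y‖ ≤ 1) (Q : ι → B) (hQ : ∀ i, 0 ≤ Q i) {M : ℝ} (hM : 0 ≤ M)
    (hQsum : ‖∑ i, Q i‖ ≤ M) {c θ : ℝ} (hc : 0 < c) (hθ : 0 < θ) :
    Dom (closedSum fun i => genIdeal (cut c (star (y * cutDown θ (Q i)) * (y * cutDown θ (Q i)))))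
      (4 * c + 2 * M / (θ * Fintype.card ι)) (y * y) := by
  set I := fun i => genIdeal (cut c (star (y * cutDown θ (Q i)) * (y * cutDown θ (Q i))))
  have hI : ∀ i, IsClosedIdeal (I i) := fun i => isClosedIdeal_genIdeal _
  have hS : IsClosedIdeal (closedSum I) := IsClosedIdeal.closedSum hI
  have hR : (0 : ℝ) < Fintype.card ι := by exact_mod_cast Fintype.card_pos
  set r := fun i => cutDown θ (Q i)
  have hswap : ∀ i, Dom (closedSum I) (2 * c) ((y * r i) * star (y * r i)) := by
    intro i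
    have h0 : Dom (closedSum I) c (star (y * r i) * (y * r i)) :=
      ⟨_, mem_closedSum_of_mem hI (mem_genIdeal_self _), cut_nonneg,
        le_cut_add (IsSelfAdjoint.star_mul_self _)⟩
    have := h0.swap hS hc.le hc
    rwa [← two_mul] at this
  have hle : ∀ i, y * y ≤ (2 : ℝ) • ((y * r i) * star (y * r i)) +
      (2 : ℝ) • (θ⁻¹ • (star y * Q i * y)) := by
    intro i
    have h1 := star_mul_add_le (r i * y) ((1 - r i) * y) zero_lt_one
    have h2 : r i * y + (1 - r i) * y = y := by noncomm_ring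
    rw [h2, inv_one, hy.star_eq] at h1
    rw [show (1 : ℝ) + 1 = 2 by norm_num] at h1
    refine h1.trans (add_le_add (le_of_eq ?_) ?_)
    · congr 1
      simp only [r, star_mul, hy.star_eq, (isSelfAdjoint_cutDown θ (Q i)).star_eq, mul_assoc]
    · refine smul_le_smul_of_nonneg_left ?_ zero_le_two
      rw [star_mul_mul_star, ← smul_mul_assoc, ← mul_smul_comm]
      exact star_left_conjugate_le_conjugate (one_sub_cutDown_sq_le hθ (hQ i)) y
  have hbound : ∑ i, θ⁻¹ • (star y * Q i * y) ≤ sc (θ⁻¹ * M) := by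
    rw [← Finset.smul_sum, ← Finset.sum_mul, ← Finset.mul_sum]
    refine Dom.zero_ideal_smul_le ?_ (inv_nonneg.mpr hθ.le)
    have hs : 0 ≤ ∑ i, Q i := Finset.sum_nonneg fun i _ => hQ i
    refine le_sc_of_norm_le ((IsSelfAdjoint.of_nonneg hs).conjugate' y) ?_
    calc ‖star y * (∑ i, Q i) * y‖ ≤ ‖star y‖ * ‖∑ i, Q i‖ * ‖y‖ :=
          (norm_mul_le _ _).trans (mul_le_mul_of_nonneg_right (norm_mul_le _ _) (norm_nonneg _))
      _ ≤ 1 * M * 1 := by
          rw [norm_star]
          exact mul_le_mul (mul_le_mul hy1 hQsum (norm_nonneg _) zero_le_one) hy1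
            (norm_nonneg _) (by linarith)
      _ = M := by ring
  have hsum : (Fintype.card ι : ℝ) • (y * y) ≤
      (2 : ℝ) • ∑ i, (y * r i) * star (y * r i) + (2 : ℝ) • sc (θ⁻¹ * M) := by
    have : (Fintype.card ι : ℝ) • (y * y) = ∑ _i : ι, y * y := by
      rw [Finset.sum_const, Finset.card_univ, Nat.cast_smul_eq_nsmul]
    rw [this]
    calc ∑ _i : ι, y * y ≤ ∑ i, ((2 : ℝ) • ((y * r i) * star (y * r i)) +
          (2 : ℝ) • (θ⁻¹ • (star y * Q i * y))) := Finset.sum_le_sum fun i _ => hle i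
      _ = (2 : ℝ) • ∑ i, (y * r i) * star (y * r i) +
          (2 : ℝ) • ∑ i, θ⁻¹ • (star y * Q i * y) := by
          rw [Finset.sum_add_distrib, Finset.smul_sum,
            Finset.smul_sum (r := (2 : ℝ)) (f := fun i => θ⁻¹ • (star y * Q i * y))]
      _ ≤ _ := by gcongr
  have hD : Dom (closedSum I) ((2 : ℝ) * ∑ _i : ι, 2 * c + 2 * (θ⁻¹ * M))
      ((2 : ℝ) • ∑ i, (y * r i) * star (y * r i) + (2 : ℝ) • sc (θ⁻¹ * M)) :=
    ((Dom.sum hS _ _ _ fun i _ => hswap i).smul hS zero_le_two).add hS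
      ((dom_of_le_sc hS le_rfl).smul hS zero_le_two)
  have hfin := (hD.mono hsum le_rfl).smul hS (inv_nonneg.mpr hR.le)
  rw [smul_smul, inv_mul_cancel₀ hR.ne', one_smul] at hfin
  refine hfin.mono le_rfl (le_of_eq ?_)
  rw [Finset.sum_const, Finset.card_univ, nsmul_eq_mul]
  field_simp
  ring

/-- The Gram bound: if `∑ p, (v p A)* (v p B)` is close to `δ a` with `a ≤ 1`, then every entry row
has norm at most `√2`. -/
theorem norm_sum_mul_star_le {n : ℕ} {α : Type*} [Fintype α] [DecidableEq α] (v : Fin n → α → B)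
    (a : B) (ha : 0 ≤ a) (ha1 : a ≤ 1) {δ : ℝ} (hδ : 0 ≤ δ)
    (hδ1 : δ * (Fintype.card α : ℝ) ^ 2 ≤ 1 / 8) (hδ2 : δ ≤ 1)
    (hv : ∀ c c', ‖(∑ p, star (v p c) * v p c') - (if c = c' then a else 0)‖ ≤ δ) (p : Fin n) :
    ‖∑ c, v p c * star (v p c)‖ ≤ 2 := by
  set X := ∑ c, v p c * star (v p c) with hX
  have hX0 : 0 ≤ X := Finset.sum_nonneg fun c _ => mul_star_self_nonneg _
  have hvn : ∀ c, ‖v p c‖ ^ 2 ≤ 2 := by
    intro c
    have h1 : star (v p c) * v p c ≤ ∑ q, star (v q c) * v q c :=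
      Finset.single_le_sum (fun q _ => star_mul_self_nonneg (v q c)) (Finset.mem_univ p)
    have h2 : ‖∑ q, star (v q c) * v q c‖ ≤ 2 := by
      have := hv c c
      rw [if_pos rfl] at this
      linarith [norm_le_norm_add_norm_sub' (∑ q, star (v q c) * v q c) a,
        norm_le_one_of_le_one ha ha1]
    rw [← norm_star_mul_self_eq_sq]
    exact (CStarAlgebra.norm_le_norm_of_nonneg_of_le (star_mul_self_nonneg _) h1).trans h2
  have hexp : ∑ q, star (∑ c, v q c * star (v p c)) * (∑ c, v q c * star (v p c)) =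
      ∑ c, ∑ c', v p c * ((∑ q, star (v q c) * v q c') - (if c = c' then a else 0)) *
        star (v p c') + ∑ c, v p c * a * star (v p c) := by
    have h1 : ∑ c, v p c * a * star (v p c) =
        ∑ c, ∑ c', v p c * (if c = c' then a else 0) * star (v p c') := by
      refine Finset.sum_congr rfl fun c _ => ?_
      simp [mul_ite, ite_mul]
    rw [h1, ← Finset.sum_add_distrib]
    simp_rw [← Finset.sum_add_distrib, ← add_mul, ← mul_add, sub_add_cancel]
    simp_rw [star_sum, star_mul, star_star, Finset.sum_mul, Finset.mul_sum, Finset.sum_mul]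
    rw [Finset.sum_comm]
    refine Finset.sum_congr rfl fun c _ => ?_
    rw [Finset.sum_comm]
    simp only [mul_assoc]
  have hXX : X * X ≤ ∑ q, star (∑ c, v q c * star (v p c)) * (∑ c, v q c * star (v p c)) := by
    have : X * X = star (∑ c, v p c * star (v p c)) * (∑ c, v p c * star (v p c)) := by
      rw [← hX, (IsSelfAdjoint.of_nonneg hX0).star_eq]
    rw [this]
    exact Finset.single_le_sum
      (f := fun q => star (∑ c, v q c * star (v p c)) * (∑ c, v q c * star (v p c)))
      (fun q _ => star_mul_self_nonneg _) (Finset.mem_univ p)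
  have hsmall : ‖∑ c, ∑ c', v p c * ((∑ q, star (v q c) * v q c') - (if c = c' then a else 0)) *
        star (v p c')‖ ≤ 1 / 4 := by
    calc _ ≤ ∑ _c : α, ∑ _c' : α, 2 * δ := by
          refine (norm_sum_le _ _).trans (Finset.sum_le_sum fun c _ => ?_)
          refine (norm_sum_le _ _).trans (Finset.sum_le_sum fun c' _ => ?_)
          refine (norm_mul_le _ _).trans ?_
          refine (mul_le_mul_of_nonneg_right (norm_mul_le _ _) (norm_nonneg _)).trans ?_
          rw [norm_star]
          have hm := hv c c'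
          nlinarith [norm_nonneg (v p c), norm_nonneg (v p c'), hvn c, hvn c', hm,
            sq_nonneg (‖v p c‖ - ‖v p c'‖),
            norm_nonneg ((∑ q, star (v q c) * v q c') - (if c = c' then a else 0)),
            mul_nonneg (norm_nonneg (v p c)) (norm_nonneg (v p c'))]
      _ ≤ 1 / 4 := by simp; nlinarith
  have ha2 : ∑ c, v p c * a * star (v p c) ≤ X :=
    Finset.sum_le_sum fun c _ => by simpa using star_right_conjugate_le_conjugate ha1 (v p c)
  have ha3 : ‖∑ c, v p c * a * star (v p c)‖ ≤ ‖X‖ :=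
    CStarAlgebra.norm_le_norm_of_nonneg_of_le
      (Finset.sum_nonneg fun c _ => star_right_conjugate_nonneg ha _) ha2
  have hXnn : 0 ≤ X * X := (IsSelfAdjoint.of_nonneg hX0).mul_self_nonneg
  have h := (CStarAlgebra.norm_le_norm_of_nonneg_of_le hXnn hXX).trans
    ((le_of_eq (congrArg norm hexp)).trans (norm_add_le _ _))
  rw [(IsSelfAdjoint.of_nonneg hX0).norm_mul_self] at h
  nlinarith [norm_nonneg X]

/-- The functions defining the atom of the index set `A`. -/
def atomFun {ι : Type*} [DecidableEq ι] (A : Finset ι) (i : ι) : ℝ → ℝ :=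
  if i ∈ A then (fun t => Real.sqrt (ramp 0 (1 / 4) t))
  else (fun t => Real.sqrt (1 - ramp 0 (1 / 4) t))

/-- The function `f` at the index `i`, one elsewhere. -/
def single' {ι : Type*} [DecidableEq ι] (f : ℝ → ℝ) (i i' : ι) : ℝ → ℝ :=
  if i' = i then f else fun _ => 1

theorem good_atomFun {ι : Type*} [DecidableEq ι] (A : Finset ι) (i : ι) : Good (atomFun A i) :=
  good_ite (good_sqrt_ramp _ _) (good_sqrt_one_sub_ramp _ _)

theorem good_single' {ι : Type*} [DecidableEq ι] {f : ℝ → ℝ} (hf : Good f) (i i' : ι) :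
    Good (single' f i i') :=
  good_ite hf good_one

section Atoms

variable {ι : Type*} [Fintype ι] [DecidableEq ι] {J : ι → Set B} {F : Set B} {j : ι → B}
  (S : QCSystem J F j)

/-- The atom of the index set `A`. -/
def atom (A : Finset ι) (k : ℕ) : B := S.prodSeq (atomFun A) k

theorem abdd_atom (A : Finset ι) : ABdd (atom S A) := S.abdd_prodSeq (good_atomFun A)

theorem abdd_star_atom (A : Finset ι) : ABdd (fun k => star (atom S A k)) := by
  obtain ⟨C, hC⟩ := abdd_atom S A
  exact ⟨C, fun k => by simpa using hC k⟩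

theorem norm_atom_le (A : Finset ι) (k : ℕ) : ‖atom S A k‖ ≤ 1 :=
  S.norm_prodSeq_le (good_atomFun A) k

theorem sum_atom_sq {d : ℕ} (hM : MultLE S d) :
    AEq (fun k => ∑ A : {A : Finset ι // A.card ≤ d + 1}, star (atom S A.1 k) * atom S A.1 k)
      (fun _ => (1 : B)) := by
  have h1 : AEq (fun k => ∑ A : Finset ι, star (atom S A k) * atom S A k)
      (fun k => ∑ A : Finset ι, S.prodSeq (fun i t => atomFun A i t * atomFun A i t) k) :=
    AEq.sum _ fun A _ => ((S.prodSeq_star (good_atomFun A)).mul_right (abdd_atom S A)).trans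
      (S.prodSeq_mul (good_atomFun A) (good_atomFun A))
  have h2 : ∀ k, ∑ A : Finset ι, S.prodSeq (fun i t => atomFun A i t * atomFun A i t) k = 1 := by
    intro k
    have e1 : ∀ A : Finset ι,
        S.prodSeq (fun i t => atomFun A i t * atomFun A i t) k =
          S.prodSeq (fun i => if i ∈ A then ramp 0 (1 / 4)
            else fun t => 1 - ramp 0 (1 / 4) t) k := by
      intro A
      refine S.prodSeq_congr (fun i t _ => ?_) k
      by_cases hi : i ∈ A
      · simp only [atomFun, hi, if_true]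
        exact Real.mul_self_sqrt (ramp_mem 0 (1 / 4) t).1
      · simp only [atomFun, hi, if_false]
        exact Real.mul_self_sqrt (sub_nonneg.mpr (ramp_mem 0 (1 / 4) t).2)
    rw [Finset.sum_congr rfl fun A _ => e1 A,
      S.sum_prodSeq (fun i => continuous_ramp _ _) (fun i => (good_ramp _ _).one_sub.1) k,
      ← S.prodSeq_one k]
    exact S.prodSeq_congr (fun i t _ => by ring) k
  have h3 : AEq (fun k => ∑ A : {A : Finset ι // A.card ≤ d + 1},
        star (atom S A.1 k) * atom S A.1 k)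
      (fun k => ∑ A : Finset ι, star (atom S A k) * atom S A k) := by
    have e0 : ∀ k, ∑ A : {A : Finset ι // A.card ≤ d + 1}, star (atom S A.1 k) * atom S A.1 k =
        ∑ A : Finset ι, if A.card ≤ d + 1 then star (atom S A k) * atom S A k else 0 := by
      intro k
      rw [← Finset.sum_subtype (Finset.univ.filter fun A : Finset ι => A.card ≤ d + 1)
        (by simp) (fun A => star (atom S A k) * atom S A k), Finset.sum_filter]
    refine (AEq.of_eq e0).trans (AEq.sum _ fun A _ => ?_)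
    by_cases hA : A.card ≤ d + 1
    · simp only [hA, if_true]
      exact AEq.refl _
    · simp only [hA, if_false]
      obtain ⟨T, hTA, hT⟩ := Finset.exists_subset_card_eq (show d + 2 ≤ A.card by omega)
      have hz : AEq (atom S A) (fun _ => (0 : B)) := by
        refine hM T hT _ (good_atomFun A) fun i hi => ?_
        simp [atomFun, hTA hi, ramp_of_le]
      have := hz.mul_left (abdd_star_atom S A)
      simp only [mul_zero] at this
      exact this.symm
  simp only [h2] at h1
  exact h3.trans h1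

theorem atom_annihilate {i : ι} {A : Finset ι} (hiA : i ∉ A) :
    AEq (fun k => star (atom S A k) * S.prodSeq (single' (ramp (1 / 4) (1 / 4)) i) k)
      (fun _ => (0 : B)) := by
  have hg := fun i' => good_single' (good_ramp (1 / 4) (1 / 4)) i i'
  refine (((S.prodSeq_star (good_atomFun A)).mul_right (S.abdd_prodSeq hg)).trans
    (S.prodSeq_mul (good_atomFun A) hg)).trans ?_
  have : S.prodSeq (fun i' t => atomFun A i' t * single' (ramp (1 / 4) (1 / 4)) i i' t) =
      fun _ => (0 : B) := by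
    funext k
    refine S.prodSeq_eq_zero i (fun t _ => ?_) k
    simp only [atomFun, single', hiA, if_false, if_true]
    rcases le_total t (1 / 4) with ht | ht
    · rw [ramp_of_le (show (0 : ℝ) < 1 / 4 by norm_num) ht, mul_zero]
    · rw [ramp_of_ge (show (0 : ℝ) < 1 / 4 by norm_num)
        (show (0 : ℝ) + 1 / 4 ≤ t by linarith), sub_self, Real.sqrt_zero, zero_mul]
  rw [this]
  exact AEq.refl _

theorem single_mul_single (i : ι) :
    AEq (fun k => S.prodSeq (single' (ramp (1 / 4) (1 / 4)) i) k *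
        S.prodSeq (single' (ramp (1 / 2) (1 / 2)) i) k)
      (S.prodSeq (single' (ramp (1 / 2) (1 / 2)) i)) := by
  refine (S.prodSeq_mul (fun i' => good_single' (good_ramp _ _) i i')
    (fun i' => good_single' (good_ramp _ _) i i')).trans ?_
  have : S.prodSeq (fun i' t => single' (ramp (1 / 4) (1 / 4)) i i' t *
      single' (ramp (1 / 2) (1 / 2)) i i' t) = S.prodSeq (single' (ramp (1 / 2) (1 / 2)) i) := by
    funext k
    refine S.prodSeq_congr (fun i' t _ => ?_) k
    simp only [single']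
    by_cases h : i' = i
    · simp only [h, if_true]
      rcases le_total t (1 / 2) with ht | ht
      · rw [ramp_of_le (show (0 : ℝ) < 1 / 2 by norm_num) ht, mul_zero]
      · rw [ramp_of_ge (show (0 : ℝ) < 1 / 4 by norm_num) (by linarith), one_mul]
    · simp [h]
  rw [this]
  exact AEq.refl _

theorem near_mul_single {L : ℕ → Set B} (hL : ∀ k, IsClosedIdeal (L k)) {x : B} (hxF : x ∈ F)
    (i : ι) (hx : ∀ η : ℝ, 0 < η → ∀ᶠ k in atTop, Near (L k) η (x - x * S.w i k)) {η : ℝ}
    (hη : 0 < η) : ∀ᶠ k in atTop,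
      Near (L k) η (x * S.prodSeq (single' (ramp (1 / 2) (1 / 2)) i) k - x) := by
  have h := near_mul_prodSeq S hL hxF i hx
    (fun i' => good_single' (good_ramp (1 / 2) (1 / 2)) i i') hη
  have h1 : single' (ramp (1 / 2) (1 / 2)) i i 1 = 1 := by
    simp only [single', if_true]
    exact ramp_of_ge (by norm_num) (by norm_num)
  have h2 : ∀ k, S.prodSeq (fun i' => if i' = i then fun _ => 1
      else single' (ramp (1 / 2) (1 / 2)) i i') k = 1 := by
    intro k
    rw [← S.prodSeq_one k]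
    refine S.prodSeq_congr (fun i' t _ => ?_) k
    by_cases h : i' = i <;> simp [single', h]
  simpa only [h1, h2, mul_one, one_smul] using h

end Atoms

/-- The weighted Gram matrix. -/
theorem gram_weighted {n : ℕ} {α : Type*} [Fintype α] [DecidableEq α] (v : Fin n → α → B) (a : B)
    (c : α → B) :
    ∑ p, star (∑ A, v p A * c A) * (∑ A, v p A * c A) =
      (∑ A, ∑ A', star (c A) * ((∑ p, star (v p A) * v p A') - (if A = A' then a else 0)) * c A') +
        ∑ A, star (c A) * a * c A := by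
  have h1 : ∑ A, star (c A) * a * c A =
      ∑ A, ∑ A', star (c A) * (if A = A' then a else 0) * c A' := by
    refine Finset.sum_congr rfl fun A _ => ?_
    simp [mul_ite, ite_mul]
  rw [h1, ← Finset.sum_add_distrib]
  simp_rw [← Finset.sum_add_distrib, ← add_mul, ← mul_add, sub_add_cancel]
  simp only [star_sum, star_mul, Finset.sum_mul, Finset.mul_sum]
  rw [Finset.sum_comm_cycle]
  refine Finset.sum_congr rfl fun A _ => ?_
  rw [Finset.sum_comm]
  simp only [mul_assoc]

/-- One step of the estimate modulo the ideal of the cut part. -/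
theorem dom_step {I : Set B} (hI : IsClosedIdeal I) {n : ℕ} {y ρ X : B} (hy1 : ‖y‖ ≤ 1)
    (hX1 : ‖X‖ ≤ 1) (z : Fin n → B) {θ θi c₀ : ℝ} (hθ : 0 < θ) (hc₀ : 0 ≤ c₀)
    (hθi : θi = θ * c₀ / (3 * n)) (hn : (0 : ℝ) < n)
    (hρ : ρ = cutDown θ (∑ p, star (star (z p) * y) * (star (z p) * y)))
    (hz : ∀ p, ‖star (z p) * y * X‖ ^ 2 ≤ 3 * θi)
    (hD0 : Dom I c₀ (star (y * ρ) * (y * ρ))) : Dom I (4 * c₀) (star (y * X) * (y * X)) := by
  set Q := ∑ p, star (star (z p) * y) * (star (z p) * y) with hQ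
  have hQ0 : 0 ≤ Q := Finset.sum_nonneg fun p _ => star_mul_self_nonneg _
  have e1 : y * ρ * X + y * (1 - ρ) * X = y * X := by noncomm_ring
  have h1 := star_mul_add_le (y * ρ * X) (y * (1 - ρ) * X) zero_lt_one
  rw [e1, inv_one, show (1 : ℝ) + 1 = 2 by norm_num] at h1
  have d1 : Dom I c₀ (star (y * ρ * X) * (y * ρ * X)) := by
    rw [star_mul_mul_star]
    refine (hD0.conj hI hc₀ X).mono le_rfl ?_
    have : ‖X‖ ^ 2 ≤ 1 := pow_le_one₀ (norm_nonneg _) hX1
    nlinarith
  have d2 : Dom I c₀ (star (y * (1 - ρ) * X) * (y * (1 - ρ) * X)) := by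
    refine dom_of_le_sc hI ?_
    rw [star_mul_mul_star, star_mul_mul_star]
    have hyy : star y * y ≤ 1 :=
      le_one_of_norm_le_one (star_mul_self_nonneg _)
        (by rw [norm_star_mul_self_eq_sq]; exact pow_le_one₀ (norm_nonneg _) hy1)
    have s1 : star (1 - ρ) * (star y * y) * (1 - ρ) ≤ θ⁻¹ • Q := by
      refine (star_left_conjugate_le_conjugate hyy _).trans ?_
      rw [mul_one, hρ]
      exact one_sub_cutDown_sq_le hθ hQ0
    refine (star_left_conjugate_le_conjugate s1 X).trans ?_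
    rw [mul_smul_comm, smul_mul_assoc]
    have e2 : star X * Q * X = ∑ p, star (star (z p) * y * X) * (star (z p) * y * X) := by
      simp only [hQ, Finset.mul_sum, Finset.sum_mul]
      refine Finset.sum_congr rfl fun p _ => ?_
      simp only [star_mul, star_star, mul_assoc]
    have s2 : star X * Q * X ≤ sc (3 * n * θi) := by
      refine le_sc_of_norm_le ((IsSelfAdjoint.of_nonneg hQ0).conjugate' X) ?_
      rw [e2]
      calc _ ≤ ∑ p, ‖star (star (z p) * y * X) * (star (z p) * y * X)‖ := norm_sum_le _ _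
        _ ≤ ∑ _p : Fin n, 3 * θi := Finset.sum_le_sum fun p _ => by
            rw [norm_star_mul_self_eq_sq]; exact hz p
        _ = 3 * n * θi := by simp; ring
    refine (Dom.zero_ideal_smul_le s2 (inv_nonneg.mpr hθ.le)).trans (le_of_eq ?_)
    congr 1
    rw [hθi]
    field_simp
  have d3 := (d1.smul hI zero_le_two).add hI (d2.smul hI zero_le_two)
  exact d3.mono h1 (by linarith)

/-- The weighted Gram matrix is eventually close to `a`. -/
theorem eventually_gram {n d : ℕ} {ι : Type*} [Fintype ι] [DecidableEq ι] {J : ι → Set B}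
    {F : Set B} {j : ι → B} (S : QCSystem J F j)
    (v : Fin n → {A : Finset ι // A.card ≤ d + 1} → B) (a : B) (haF : a ∈ F)
    (hsum1 : AEq (fun k => ∑ A : {A : Finset ι // A.card ≤ d + 1},
      star (atom S A.1 k) * atom S A.1 k) (fun _ => (1 : B))) {δ : ℝ} (hδ : 0 ≤ δ)
    (hgram : ∀ A A', ‖(∑ p, star (v p A) * v p A') - (if A = A' then a else 0)‖ ≤ δ)
    {ε : ℝ} (hε : 0 < ε)
    (hδN : δ * (Fintype.card {A : Finset ι // A.card ≤ d + 1} : ℝ) ^ 2 ≤ ε / 8) :
    ∀ᶠ k in atTop, ‖(∑ p, star (∑ A, v p A * atom S A.1 k) * (∑ A, v p A * atom S A.1 k)) - a‖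
      ≤ ε / 2 := by
  have q1 : AEq (fun k => ∑ A : {A : Finset ι // A.card ≤ d + 1},
      star (atom S A.1 k) * a * atom S A.1 k)
      (fun k => ∑ A : {A : Finset ι // A.card ≤ d + 1},
        star (atom S A.1 k) * atom S A.1 k * a) := by
    refine AEq.sum _ fun A _ => ?_
    have := ((S.prodSeq_comm (good_atomFun A.1) haF).symm).mul_left (abdd_star_atom S A.1)
    simpa only [mul_assoc, atom] using! this
  have q2 := hsum1.mul_right (abdd_const a)
  simp only [one_mul, Finset.sum_mul] at q2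
  filter_upwards [(q1.trans q2).eventually (show (0 : ℝ) < ε / 8 by positivity)] with k hk
  rw [gram_weighted v a (fun A => atom S A.1 k), add_sub_assoc]
  refine (norm_add_le _ _).trans ?_
  have h : ∀ A A' : {A : Finset ι // A.card ≤ d + 1}, ‖star (atom S A.1 k) *
      ((∑ p, star (v p A) * v p A') - (if A = A' then a else 0)) * atom S A'.1 k‖ ≤ δ := by
    intro A A'
    refine (norm_mul_le _ _).trans ?_
    calc _ ≤ (1 * δ) * 1 := by
          refine mul_le_mul ((norm_mul_le _ _).trans (mul_le_mul ?_ (hgram A A') (norm_nonneg _)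
            zero_le_one)) (norm_atom_le S _ k) (norm_nonneg _) (by positivity)
          rw [norm_star]
          exact norm_atom_le S _ k
      _ = δ := by ring
  have h2 := (norm_sum_le _ _).trans (Finset.sum_le_sum (s := Finset.univ) fun A _ =>
    (norm_sum_le _ _).trans (Finset.sum_le_sum (s := Finset.univ) fun A' _ => h A A'))
  simp only [Finset.sum_const, Finset.card_univ, nsmul_eq_mul] at h2
  linarith [h2]

/-- The key estimate at one index. -/
theorem key_estimate {n d : ℕ} {ι : Type*} [Fintype ι] [DecidableEq ι] {J : ι → Set B}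
    {F : Set B} {j : ι → B} (S : QCSystem J F j)
    (v : Fin n → {A : Finset ι // A.card ≤ d + 1} → B) (y : B)
    (hsum1 : AEq (fun k => ∑ A : {A : Finset ι // A.card ≤ d + 1},
      star (atom S A.1 k) * atom S A.1 k) (fun _ => (1 : B)))
    (i : ι) (p : Fin n) {r Q : B} (hrF : r ∈ F) (hWF : ∀ A, star (v p A) * y ∈ F)
    {θi : ℝ} (hQ : star r * Q * r ≤ sc θi)
    (hle : ∑ A ∈ (Finset.univ.filter fun A : {A : Finset ι // A.card ≤ d + 1} => i ∈ A.1),
      star (star (v p A) * y) * (star (v p A) * y) ≤ Q) (hθi : 0 < θi) :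
    ∀ᶠ k in atTop, ‖star (∑ A, v p A * atom S A.1 k) * y *
      (r * S.prodSeq (single' (ramp (1 / 4) (1 / 4)) i) k)‖ ^ 2 ≤ 3 * θi := by
  classical
  set P := Finset.univ.filter fun A : {A : Finset ι // A.card ≤ d + 1} => i ∈ A.1 with hP
  set ψ := S.prodSeq (single' (ramp (1 / 4) (1 / 4)) i) with hψdef
  have hψg := fun i' => good_single' (good_ramp (1 / 4) (1 / 4)) i i'
  set W := fun A => star (v p A) * y with hW
  have q : ∀ A : {A : Finset ι // A.card ≤ d + 1},
      AEq (fun k => star (atom S A.1 k) * (W A * r * ψ k))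
        (fun k => if i ∈ A.1 then star (atom S A.1 k) * (W A * r * ψ k) else 0) := by
    intro A
    by_cases hiA : i ∈ A.1
    · simp only [hiA, if_true]
      exact AEq.refl _
    · simp only [hiA, if_false]
      have c1 : AEq (fun k => W A * r * ψ k) (fun k => ψ k * (W A * r)) := by
        have a1 := (S.prodSeq_comm hψg hrF).symm.mul_left (abdd_const (W A))
        have a2 := (S.prodSeq_comm hψg (hWF A)).symm.mul_right (abdd_const r)
        simp only [← mul_assoc] at a1
        simpa only [mul_assoc, hW, hψdef] using! a1.trans a2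
      have c2 := (atom_annihilate S hiA).mul_right (abdd_const (W A * r))
      simp only [zero_mul] at c2
      have c3 := c1.mul_left (abdd_star_atom S A.1)
      simp only [← mul_assoc] at c2 c3 ⊢
      exact c3.trans c2
  have e1 : ∀ k, star (∑ A, v p A * atom S A.1 k) * y * (r * ψ k) =
      ∑ A, star (atom S A.1 k) * (W A * r * ψ k) := by
    intro k
    simp only [hW, star_sum, star_mul, Finset.sum_mul, mul_assoc]
  have hconv : AEq (fun k => star (∑ A, v p A * atom S A.1 k) * y * (r * ψ k))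
      (fun k => ∑ A ∈ P, star (atom S A.1 k) * (W A * r * ψ k)) := by
    simp only [e1]
    have := AEq.sum Finset.univ (fun A _ => q A)
    simpa only [Finset.sum_filter, hP] using! this
  have hb2 : ∀ᶠ k in atTop, ‖∑ A ∈ P, star (atom S A.1 k) * (W A * r * ψ k)‖ ^ 2 ≤ 2 * θi := by
    filter_upwards [hsum1.eventually one_pos] with k hk
    have hk2 : ∑ A : {A : Finset ι // A.card ≤ d + 1}, star (atom S A.1 k) * atom S A.1 k ≤
        sc 2 := by
      refine le_sc_of_norm_le (IsSelfAdjoint.of_nonneg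
        (Finset.sum_nonneg fun A _ => star_mul_self_nonneg _)) ?_
      have h1 : ‖(1 : B)‖ ≤ 1 := norm_le_one_of_le_one zero_le_one le_rfl
      linarith [norm_le_norm_add_norm_sub' (∑ A : {A : Finset ι // A.card ≤ d + 1},
        star (atom S A.1 k) * atom S A.1 k) 1]
    have hrow2 : ∑ A ∈ P, star (atom S A.1 k) * star (star (atom S A.1 k)) ≤ sc (2 : ℝ) := by
      simp only [star_star]
      exact (sum_le_sum_of_subset' (Finset.subset_univ P)
        (fun A _ => star_mul_self_nonneg (atom S A.1 k))).trans hk2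
    refine (norm_row_sq_le P _ _ two_pos hrow2).trans ?_
    refine mul_le_mul_of_nonneg_left ?_ zero_le_two
    have e3 : ∑ A ∈ P, star (W A * r * ψ k) * (W A * r * ψ k) =
        star (ψ k) * (star r * (∑ A ∈ P, star (W A) * W A) * r) * ψ k := by
      simp only [Finset.mul_sum, Finset.sum_mul]
      refine Finset.sum_congr rfl fun A _ => ?_
      simp only [star_mul, mul_assoc]
    have hnn : 0 ≤ ∑ A ∈ P, star (W A) * W A :=
      Finset.sum_nonneg fun A _ => star_mul_self_nonneg _
    have h4 : ‖star r * (∑ A ∈ P, star (W A) * W A) * r‖ ≤ θi :=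
      norm_le_of_le_sc (star_left_conjugate_nonneg hnn _) hθi.le
        ((star_left_conjugate_le_conjugate hle _).trans hQ)
    rw [e3]
    refine (norm_mul_le _ _).trans ?_
    calc _ ≤ (1 * θi) * 1 := by
          refine mul_le_mul ((norm_mul_le _ _).trans (mul_le_mul ?_ h4 (norm_nonneg _)
            zero_le_one)) (S.norm_prodSeq_le hψg k) (norm_nonneg _) (by positivity)
          rw [norm_star]
          exact S.norm_prodSeq_le hψg k
      _ = θi := by ring
  obtain ⟨η, hη, hη'⟩ : ∃ η : ℝ, 0 < η ∧ (Real.sqrt (2 * θi) + η) ^ 2 ≤ 3 * θi := by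
    refine ⟨Real.sqrt (3 * θi) - Real.sqrt (2 * θi), sub_pos.mpr ?_, ?_⟩
    · exact Real.sqrt_lt_sqrt (by positivity) (by linarith)
    · rw [add_sub_cancel, Real.sq_sqrt (by positivity)]
  filter_upwards [hb2, hconv.eventually hη] with k hk1 hk2
  set X1 := ∑ A ∈ P, star (atom S A.1 k) * (W A * r * ψ k)
  set X0 := star (∑ A, v p A * atom S A.1 k) * y * (r * ψ k)
  have h1 : ‖X1‖ ≤ Real.sqrt (2 * θi) := Real.le_sqrt_of_sq_le hk1
  have h2 : ‖X0‖ ≤ Real.sqrt (2 * θi) + η := by
    linarith [norm_le_norm_add_norm_sub' X0 X1]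
  exact (pow_le_pow_left₀ (norm_nonneg _) h2 2).trans hη'

/-- The heart of the splitting lemma. -/
theorem split_core {A₀ : Set B} {n d : ℕ} (hA₀ : IsClosedIdeal A₀) (hP : AmpPI A₀ n) (hn : 1 ≤ n)
    (hD : StratCover A₀ d) (a ra : B) (haA : a ∈ A₀) (ha : 0 ≤ a) (ha1 : a ≤ 1)
    (hraA : ra ∈ A₀) (hra : IsSelfAdjoint ra) (hrara : ra * ra = a) (y : B) (hyA : y ∈ A₀)
    (hy : IsSelfAdjoint y) (hy1 : ‖y‖ ≤ 1) {ε : ℝ} (hε : 0 < ε) (hε1 : ε ≤ 1) {c₀ θ : ℝ}
    (hc₀ : 0 < c₀) (hc₀' : c₀ ≤ ε / 1024) (hθ : 0 < θ) :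
    ∃ (z' : Fin n → B) (ρ : B), (∀ p, z' p ∈ A₀) ∧ IsSelfAdjoint ρ ∧ ‖ρ‖ ≤ 1 ∧
      ‖(∑ p, star (ra * z' p) * (ra * z' p)) - a‖ ≤ ε ∧
      (∀ p, ‖star (ra * z' p) * y * ρ‖ ^ 2 ≤ θ) ∧
      Dom (genIdeal (cut c₀ (star (y * ρ) * (y * ρ)))) ε (y * y) := by
  classical
  have hn' : (0 : ℝ) < n := by exact_mod_cast hn
  set c := ε / 32 with hc_def
  have hc : 0 < c := by positivity
  set θi := θ * c₀ / (3 * n) with hθi_def
  have hθi : 0 < θi := by positivity
  obtain ⟨R, hR⟩ : ∃ R : ℕ, 16 * n * (d + 1) / (θi * ε) < (R : ℝ) := exists_nat_gt _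
  have hR0 : (0 : ℝ) < R := lt_of_le_of_lt (by positivity) hR
  have : Nonempty (Fin R) := Fin.pos_iff_nonempty.mp (by exact_mod_cast hR0)
  -- the copies
  let α := {A : Finset (Fin R) // A.card ≤ d + 1}
  set N : ℝ := (Fintype.card α : ℝ) with hN
  set δ := ε / (8 * (N ^ 2 + 1)) with hδ_def
  have hδ : 0 < δ := by positivity
  obtain ⟨r, hrA, hr⟩ := hP.copies hA₀ hn α haA ha hδ
  set v : Fin n → α → B := fun p A => ra * r p A with hv_def
  have hvA : ∀ p A, v p A ∈ A₀ := fun p A => hA₀.mul_left _ _ (hrA p A)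
  have hgram : ∀ A A', ‖(∑ p, star (v p A) * v p A') - (if A = A' then a else 0)‖ ≤ δ := by
    intro A A'
    refine le_trans (le_of_eq ?_) (hr A A')
    congr 2
    refine Finset.sum_congr rfl fun p _ => ?_
    rw [← hrara]
    simp only [v, star_mul, hra.star_eq, mul_assoc]
  have hδN : δ * N ^ 2 ≤ ε / 8 := by
    rw [hδ_def, div_mul_eq_mul_div, div_le_div_iff₀ (by positivity) (by norm_num)]
    nlinarith
  have hδ1 : δ ≤ ε / 8 := by
    rw [hδ_def, div_le_div_iff₀ (by positivity) (by norm_num)]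
    nlinarith [sq_nonneg N]
  have hrow : ∀ p, ‖∑ A, v p A * star (v p A)‖ ≤ 2 := fun p =>
    norm_sum_mul_star_le v a ha ha1 hδ.le (hδN.trans (by linarith)) (hδ1.trans (by linarith))
      hgram p
  -- the cover
  set W : Fin n → α → B := fun p A => star (v p A) * y with hW_def
  set Qi : Fin R → B := fun i =>
    ∑ p, ∑ A ∈ (Finset.univ.filter fun A : α => i ∈ A.1), star (W p A) * W p A with hQi_def
  have hQi : ∀ i, 0 ≤ Qi i := fun i =>
    Finset.sum_nonneg fun p _ => Finset.sum_nonneg fun A _ => star_mul_self_nonneg _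
  have hQsum : ‖∑ i, Qi i‖ ≤ 2 * n * (d + 1) := by
    have h1 : ∑ i, Qi i ≤ (d + 1 : ℝ) • ∑ p, ∑ A, star (W p A) * W p A := by
      rw [Finset.smul_sum]
      simp only [hQi_def]
      rw [Finset.sum_comm]
      refine Finset.sum_le_sum fun p _ => ?_
      rw [Finset.smul_sum]
      simp only [Finset.sum_filter]
      rw [Finset.sum_comm]
      refine Finset.sum_le_sum fun A _ => ?_
      rw [← Finset.sum_filter, Finset.filter_mem_eq_inter, Finset.univ_inter, Finset.sum_const,
        ← Nat.cast_smul_eq_nsmul ℝ]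
      exact smul_le_smul_of_nonneg_right (by exact_mod_cast A.2) (star_mul_self_nonneg _)
    refine (CStarAlgebra.norm_le_norm_of_nonneg_of_le
      (Finset.sum_nonneg fun i _ => hQi i) h1).trans ?_
    rw [norm_smul, Real.norm_eq_abs, abs_of_pos (by positivity : (0 : ℝ) < d + 1)]
    have h2 : ‖∑ p, ∑ A, star (W p A) * W p A‖ ≤ 2 * n := by
      refine (norm_sum_le _ _).trans ?_
      calc ∑ p : Fin n, ‖∑ A, star (W p A) * W p A‖ ≤ ∑ _p : Fin n, (2 : ℝ) := by
            refine Finset.sum_le_sum fun p _ => ?_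
            have : ∑ A, star (W p A) * W p A = star y * (∑ A, v p A * star (v p A)) * y := by
              rw [Finset.mul_sum, Finset.sum_mul]
              refine Finset.sum_congr rfl fun A _ => ?_
              simp only [W, star_mul, star_star, mul_assoc]
            rw [this]
            calc _ ≤ ‖star y‖ * ‖∑ A, v p A * star (v p A)‖ * ‖y‖ :=
                  (norm_mul_le _ _).trans
                    (mul_le_mul_of_nonneg_right (norm_mul_le _ _) (norm_nonneg _))
              _ ≤ 1 * 2 * 1 := by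
                  rw [norm_star]
                  exact mul_le_mul (mul_le_mul hy1 (hrow p) (norm_nonneg _) zero_le_one) hy1
                    (norm_nonneg _) (by norm_num)
              _ = 2 := by norm_num
        _ = 2 * n := by simp; ring
    nlinarith
  set ρi : Fin R → B := fun i => cutDown θi (Qi i) with hρi_def
  have hρi1 : ∀ i, ‖ρi i‖ ≤ 1 := fun i => norm_cutDown_le hθi (hQi i)
  set g : Fin R → B := fun i => star (y * ρi i) * (y * ρi i) with hg_def
  have hg0 : ∀ i, 0 ≤ g i := fun i => star_mul_self_nonneg _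
  set I : Fin R → Set B := fun i => genIdeal (cut c (g i)) with hI_def
  have hI : ∀ i, IsClosedIdeal (I i) ∧ I i ⊆ A₀ := fun i =>
    ⟨isClosedIdeal_genIdeal _, genIdeal_subset hA₀
      (cut_mem hA₀ hc.le (hg0 i) (hA₀.mul_left _ _ (hA₀.mul_right _ _ hyA)))⟩
  have hcov : Dom (closedSum I) (ε / 2) (y * y) := by
    refine (cover_step y hy hy1 Qi hQi (by positivity) hQsum hc hθi).mono le_rfl ?_
    rw [Fintype.card_fin, hc_def]
    have : 2 * (2 * n * (d + 1) : ℝ) / (θi * R) ≤ ε / 4 := by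
      rw [div_le_div_iff₀ (by positivity) (by norm_num)]
      rw [div_lt_iff₀ (by positivity)] at hR
      nlinarith
    linarith
  obtain ⟨g₀, hg₀, hg₀0, hy_le⟩ := hcov
  obtain ⟨D⟩ := hD (Fin R) I hI g₀ hg₀ (ε / 16) (by positivity)
  -- approximants
  set e := D.δ / (8 * R) with he_def
  have he : 0 < e := div_pos D.δ_pos (by positivity)
  have happ : ∀ (x : Fin (D.S + 1) × Fin R), ∃ (m : ℕ) (l r' : Fin m → B),
      ‖D.j x.1 x.2 - ∑ q, l q * cut c (g x.2) * r' q‖ ≤ e := fun x =>
    genIdeal_approx ((D.J_ideal _ _).2 (D.j_mem _ _)) he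
  choose m l r' hlr using happ
  set H : Fin R → B :=
    fun i => cfc (fun t : ℝ => min 1 (max (2 * t / c - 1) 0)) (g i) with hH_def
  -- the asymptotically central system
  set F : Set B := ({a} ∪ Set.range (fun x : Fin n × α => W x.1 x.2)) ∪
    (Set.range ρi ∪ Set.range H ∪ Set.range (fun x : Fin (D.S + 1) × Fin R => D.j x.1 x.2) ∪
      Set.range (fun x : Σ x, Fin (m x) => r' x.1 x.2)) with hF_def
  have hF : F.Finite :=
    ((Set.finite_singleton a).union (Set.finite_range _)).union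
      ((((Set.finite_range _).union (Set.finite_range _)).union (Set.finite_range _)).union
        (Set.finite_range _))
  have haF : a ∈ F := Or.inl (Or.inl rfl)
  have hWF : ∀ p A, W p A ∈ F := fun p A => Or.inl (Or.inr ⟨(p, A), rfl⟩)
  have hρF : ∀ i, ρi i ∈ F := fun i => Or.inr (Or.inl (Or.inl (Or.inl ⟨i, rfl⟩)))
  have hHF : ∀ i, H i ∈ F := fun i => Or.inr (Or.inl (Or.inl (Or.inr ⟨i, rfl⟩)))
  have hjF : ∀ x : Fin (D.S + 1) × Fin R, D.j x.1 x.2 ∈ F := fun x =>
    Or.inr (Or.inl (Or.inr ⟨x, rfl⟩))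
  have hrF : ∀ x q, r' x q ∈ F := fun x q => Or.inr (Or.inr ⟨⟨x, q⟩, rfl⟩)
  obtain ⟨S, hM, hunit⟩ := exists_stratSystem (fun i => (hI i).1) D hF
  -- the atoms
  have hsum1 := sum_atom_sq S hM
  set z : Fin n → ℕ → B := fun p k => ∑ A : α, v p A * atom S A.1 k with hz
  have hzz : ∀ᶠ k in atTop, ‖(∑ p, star (z p k) * z p k) - a‖ ≤ ε / 2 :=
    eventually_gram S v a haF hsum1 hδ.le hgram hε (hδN.trans (le_of_eq rfl))
  set ρ : ℕ → B :=
    fun k => cutDown θ (∑ p, star (star (z p k) * y) * (star (z p k) * y)) with hρ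
  set Ik : ℕ → Set B := fun k => genIdeal (cut c₀ (star (y * ρ k) * (y * ρ k))) with hIk
  have hIkI : ∀ k, IsClosedIdeal (Ik k) := fun k => isClosedIdeal_genIdeal _
  have hdom : ∀ i, ∀ᶠ k in atTop, Dom (Ik k) (c / 8)
      (star (S.prodSeq (single' (ramp (1 / 4) (1 / 4)) i) k) * g i *
        S.prodSeq (single' (ramp (1 / 4) (1 / 4)) i) k) := by
    intro i
    filter_upwards [eventually_all.mpr fun p => key_estimate S v y hsum1 i p (hρF i) (fun A => hWF p A)
      (cutDown_conj_le hθi (hQi i))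
      (Finset.single_le_sum (f := fun p => ∑ A ∈ (Finset.univ.filter fun A : α => i ∈ A.1),
          star (W p A) * W p A)
        (fun q _ => Finset.sum_nonneg fun A _ => star_mul_self_nonneg (W q A))
        (Finset.mem_univ p)) hθi] with k hk
    set ψk := S.prodSeq (single' (ramp (1 / 4) (1 / 4)) i) k with hψk
    have hX1 : ‖ρi i * ψk‖ ≤ 1 := (norm_mul_le _ _).trans (mul_le_one₀ (hρi1 i) (norm_nonneg _)
      (S.norm_prodSeq_le (fun i' => good_single' (good_ramp _ _) i i') k))
    have := dom_step (hIkI k) hy1 hX1 (fun p => z p k) hθ hc₀.le hθi_def hn' rfl hk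
      ⟨_, mem_genIdeal_self _, cut_nonneg, le_cut_add (IsSelfAdjoint.star_mul_self _)⟩
    refine this.mono (le_of_eq ?_) ?_
    · simp only [hg_def, star_mul, mul_assoc]
    · rw [hc_def]; linarith
  have hstep : ∀ t, t ≤ D.S → (∀ᶠ k in atTop, D.K t ⊆ Ik k) →
      ∀ᶠ k in atTop, Near (Ik k) (D.δ / 2) (∑ i, D.j t i) := by
    intro t ht hK
    set x : Fin R → Fin (D.S + 1) × Fin R := fun i => (⟨t, by omega⟩, i) with hx
    have hu : ∀ i, ∀ η : ℝ, 0 < η → ∀ᶠ k in atTop,
        Near (Ik k) η (D.j t i - D.j t i * S.w i k) := by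
      intro i η hη
      filter_upwards [hunit t ht i η hη, hK] with k hk1 hk2
      obtain ⟨Y, hY, hn⟩ := hk1
      exact ⟨Y, hk2 hY, hn⟩
    have hji : ∀ i, ∀ᶠ k in atTop, Near (Ik k) (4 * e) (D.j t i) := by
      intro i
      have hψg := fun i' => good_single' (good_ramp (1 / 4) (1 / 4)) i i'
      have hκg := fun i' => good_single' (good_ramp (1 / 2) (1 / 2)) i i'
      have hk' := kill_genIdeal hIkI (hg0 i) hc (S.abdd_prodSeq hψg) (S.abdd_prodSeq hκg)
        (S.prodSeq_comm hψg (hHF i)) (single_mul_single S i) (hdom i) (hlr (x i))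
        (fun q => S.prodSeq_comm hκg (hrF (x i) q)) (S.norm_prodSeq_le hκg) he
      filter_upwards [hk', near_mul_single S hIkI (hjF (x i)) i (hu i) he] with k hk1 hk2
      obtain ⟨Y, hY, hYn⟩ := hk1
      obtain ⟨Z, hZ, hZn⟩ := hk2
      refine ⟨Y - Z, (hIkI k).sub_mem hY hZ, ?_⟩
      have e0 : D.j t i - (Y - Z) =
          (D.j t i * S.prodSeq (single' (ramp (1 / 2) (1 / 2)) i) k - Y) -
            ((D.j t i * S.prodSeq (single' (ramp (1 / 2) (1 / 2)) i) k - D.j t i) - Z) := by abel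
      rw [e0]
      refine (norm_sub_le _ _).trans ?_
      simp only [hx] at hYn hZn
      linarith
    filter_upwards [eventually_all.mpr hji] with k hk
    choose Y hY hYn using hk
    refine ⟨∑ i, Y i, (hIkI k).sum_mem _ _ fun i _ => hY i, ?_⟩
    rw [← Finset.sum_sub_distrib]
    refine (norm_sum_le _ _).trans ((Finset.sum_le_sum fun i _ => hYn i).trans (le_of_eq ?_))
    rw [he_def]
    simp
    field_simp
    ring
  have hfinal : ∀ᶠ k in atTop, Dom (Ik k) ε (y * y) := by
    filter_upwards [D.near_of_step hIkI hstep] with k hk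
    have d1 := Near.dom (hIkI k) (show (0 : ℝ) < ε / 8 by positivity)
      (IsSelfAdjoint.of_nonneg hg₀0) hk
    refine (d1.add (hIkI k) (dom_of_le_sc (hIkI k) (le_refl (sc (ε / 2))))).mono hy_le ?_
    linarith [D.δ_le]
  obtain ⟨k, hk1, hk2⟩ := (hzz.and hfinal).exists
  have hQ0 : 0 ≤ ∑ p, star (star (z p k) * y) * (star (z p k) * y) :=
    Finset.sum_nonneg fun p _ => star_mul_self_nonneg _
  have hzra : ∀ p, z p k = ra * ∑ A : α, r p A * atom S A.1 k := by
    intro p
    simp only [hz, hv_def, Finset.mul_sum, mul_assoc]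
  refine ⟨fun p => ∑ A : α, r p A * atom S A.1 k, ρ k,
    fun p => hA₀.sum_mem _ _ fun A _ => hA₀.mul_right _ _ (hrA p A),
    isSelfAdjoint_cutDown _ _, norm_cutDown_le hθ hQ0, ?_, fun p => ?_, hk2⟩
  · simp only [← hzra]
    linarith
  · rw [← hzra, ← norm_star_mul_self_eq_sq, star_mul_mul_star]
    have hle : star (star (z p k) * y) * (star (z p k) * y) ≤
        ∑ p, star (star (z p k) * y) * (star (z p k) * y) :=
      Finset.single_le_sum (f := fun p => star (star (z p k) * y) * (star (z p k) * y))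
        (fun q _ => star_mul_self_nonneg _) (Finset.mem_univ p)
    exact norm_le_of_le_sc (star_left_conjugate_nonneg (star_mul_self_nonneg _) _) hθ.le
      ((star_left_conjugate_le_conjugate hle _).trans (cutDown_conj_le hθ hQ0))

theorem split {A₀ : Set B} {n d : ℕ} (hA₀ : IsClosedIdeal A₀) (hP : AmpPI A₀ n) (hn : 1 ≤ n)
    (hD : StratCover A₀ d) {ε : ℝ} (hε : 0 < ε) :
    ∃ C : ℝ, 0 < C ∧ ∀ θ : ℝ, 0 < θ → ∀ x ∈ A₀, ∀ y ∈ A₀, 0 ≤ x → x ≤ 1 → 0 ≤ y → y ≤ 1 →
      ∃ s t : Fin n → B, (∀ p, s p ∈ A₀ ∧ ‖s p‖ ≤ C) ∧ (∀ p, t p ∈ A₀ ∧ ‖t p‖ ≤ C) ∧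
        ‖(∑ p, star (s p) * (x * x) * s p) - x * x‖ ≤ ε ∧
        ‖(∑ p, star (t p) * (y * y) * t p) - y * y‖ ≤ ε ∧
        ∀ p q, ‖star (x * s p) * (y * t q)‖ ≤ θ := by
  set e := min ε 1 / 8 with he_def
  have he : 0 < e := by positivity
  have he8 : 8 * e ≤ 1 ∧ 8 * e ≤ ε := by
    constructor <;> [linarith [min_le_right ε 1]; linarith [min_le_left ε 1]]
  set c₀ := e / 1024 with hc₀_def
  have hc₀ : 0 < c₀ := by positivity
  set Cu := Real.sqrt (2 / c₀) with hCu
  have hCu0 : 0 ≤ Cu := Real.sqrt_nonneg _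
  refine ⟨max (2 / e) Cu, lt_max_of_lt_left (by positivity),
    fun θ hθ x hxA y hyA hx0 hx1 hy0 hy1 => ?_⟩
  have hxs := IsSelfAdjoint.of_nonneg hx0
  have hys := IsSelfAdjoint.of_nonneg hy0
  have hxn := norm_le_one_of_le_one hx0 hx1
  have hyn := norm_le_one_of_le_one hy0 hy1
  have hspec : ∀ t ∈ spectrum ℝ x, t ∈ Set.Icc (0 : ℝ) 1 := fun t ht =>
    ⟨spectrum_nonneg_of_nonneg hx0 ht,
      (le_abs_self t).trans ((spectrum.norm_le_norm_mul_of_mem ht).trans (by
        have h1 : ‖(1 : B)‖ ≤ 1 := norm_le_one_of_le_one zero_le_one le_rfl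
        nlinarith [norm_nonneg x, norm_nonneg (1 : B)]))⟩
  set af : ℝ → ℝ := fun t => max (t * t - e) 0 with haf
  have hafc : Continuous af := by unfold af; fun_prop
  set ra := cfc (fun t => Real.sqrt (af t)) x with hra_def
  set a := cfc af x with ha_def
  have hrara : ra * ra = a := by
    rw [hra_def, ← cfc_mul _ _ x (hafc.sqrt.continuousOn) (hafc.sqrt.continuousOn)]
    exact cfc_congr fun t _ => Real.mul_self_sqrt (le_max_right _ _)
  have hxx : x * x = cfc (fun t : ℝ => t * t) x := by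
    rw [cfc_mul (fun t : ℝ => t) (fun t => t) x, cfc_id' ℝ x]
  have hax : ‖a - x * x‖ ≤ e := by
    rw [ha_def, hxx, ← cfc_sub _ _ x hafc.continuousOn (by fun_prop)]
    refine norm_cfc_le he.le fun t _ => ?_
    rw [Real.norm_eq_abs, abs_le]
    simp only [haf]
    constructor
    · linarith [le_max_left (t * t - e) 0]
    · rcases le_total (t * t - e) 0 with h | h
      · rw [max_eq_right h]; nlinarith [mul_self_nonneg t]
      · rw [max_eq_left h]; linarith
  have ha0 : 0 ≤ a := cfc_nonneg fun t _ => le_max_right _ _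
  have ha1 : a ≤ 1 := cfc_le_one _ _ fun t ht => by
    obtain ⟨h1, h2⟩ := hspec t ht
    exact max_le (by nlinarith) zero_le_one
  have hraA : ra ∈ A₀ := cfc_mem_of_zero hA₀ hxs hxA hafc.sqrt (by simp [haf, he.le])
  have haA : a ∈ A₀ := cfc_mem_of_zero hA₀ hxs hxA hafc (by simp [haf, he.le])
  obtain ⟨z', ρ, hz'A, hρs, hρ1, hzz, hcross, hdom⟩ :=
    split_core hA₀ hP hn hD a ra haA ha0 ha1 hraA (cfc_predicate _ _) hrara y hyA hys hyn he
      (by linarith) hc₀ le_rfl (show (0 : ℝ) < (θ / (Cu + 1)) ^ 2 by positivity)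
  set G := star (y * ρ) * (y * ρ) with hG
  obtain ⟨u, huA, hu, hun⟩ := hP.compare hA₀ hn (hA₀.mul_left _ _ hyA)
    (hys.mul_self_nonneg) (hA₀.mul_left _ _ (hA₀.mul_right _ _ hyA)) (star_mul_self_nonneg _)
    hc₀ he hdom
  have hub : ∀ q, ‖u q‖ ≤ Cu := fun q => by
    refine Real.le_sqrt_of_sq_le ?_
    rw [le_div_iff₀ hc₀]
    have : ‖y * y‖ ≤ 1 := (norm_mul_le _ _).trans (mul_le_one₀ hyn (norm_nonneg _) hyn)
    nlinarith [hun q]
  set χ := cfc (fun t => max t 0 / max (t * t) e) x with hχ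
  have hχc : Continuous (fun t : ℝ => max t 0 / max (t * t) e) :=
    Continuous.div (by fun_prop) (by fun_prop) fun t => (he.trans_le (le_max_right _ _)).ne'
  have hxχ : x * (χ * ra) = ra := by
    conv_lhs => arg 1; rw [← cfc_id' ℝ x]
    rw [hχ, hra_def, ← cfc_mul _ _ x hχc.continuousOn hafc.sqrt.continuousOn,
      ← cfc_mul _ _ x (by fun_prop) (hχc.continuousOn.fun_mul hafc.sqrt.continuousOn)]
    refine cfc_congr fun t ht => ?_
    have ht0 := (hspec t ht).1
    rcases le_or_gt (t * t) e with h | h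
    · simp [haf, max_eq_right (show t * t - e ≤ 0 by linarith)]
    · rw [max_eq_left ht0, max_eq_left h.le]
      have : t ≠ 0 := by rintro rfl; linarith
      field_simp
  have hχn : ‖χ‖ ≤ 1 / e := by
    refine norm_cfc_le (by positivity) fun t ht => ?_
    obtain ⟨h1, h2⟩ := hspec t ht
    rw [Real.norm_eq_abs, abs_of_nonneg (div_nonneg (le_max_right _ _)
      (he.le.trans (le_max_right _ _)))]
    exact div_le_div₀ zero_le_one (max_le h2 zero_le_one) he (le_max_right _ _)
  have hzn : ∀ p, ‖ra * z' p‖ ≤ 2 := fun p => by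
    have h1 : star (ra * z' p) * (ra * z' p) ≤ ∑ q, star (ra * z' q) * (ra * z' q) :=
      Finset.single_le_sum (f := fun q => star (ra * z' q) * (ra * z' q))
        (fun q _ => star_mul_self_nonneg _) (Finset.mem_univ p)
    have h2 := CStarAlgebra.norm_le_norm_of_nonneg_of_le (star_mul_self_nonneg _) h1
    rw [norm_star_mul_self_eq_sq] at h2
    have h3 := norm_le_norm_add_norm_sub' (∑ q, star (ra * z' q) * (ra * z' q)) a
    nlinarith [norm_le_one_of_le_one ha0 ha1, norm_nonneg (ra * z' p)]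
  have hxs' : ∀ p, x * (χ * (ra * z' p)) = ra * z' p := fun p => by
    rw [← mul_assoc χ, ← mul_assoc x, hxχ]
  refine ⟨fun p => χ * (ra * z' p), fun q => ρ * u q, fun p =>
    ⟨hA₀.mul_left _ _ (hA₀.mul_left _ _ (hz'A p)), ?_⟩,
    fun q => ⟨hA₀.mul_left _ _ (huA q), ?_⟩, ?_, ?_, fun p q => ?_⟩
  · refine le_max_of_le_left ((norm_mul_le _ _).trans ?_)
    calc ‖χ‖ * ‖ra * z' p‖ ≤ 1 / e * 2 :=
          mul_le_mul hχn (hzn p) (norm_nonneg _) (by positivity)
      _ = 2 / e := by ring
  · refine le_max_of_le_right ((norm_mul_le _ _).trans ?_)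
    calc ‖ρ‖ * ‖u q‖ ≤ 1 * Cu := mul_le_mul hρ1 (hub q) (norm_nonneg _) zero_le_one
      _ = Cu := one_mul _
  · have e1 : ∀ p, star (χ * (ra * z' p)) * (x * x) * (χ * (ra * z' p)) =
        star (ra * z' p) * (ra * z' p) := fun p => by
      conv_rhs => rw [← hxs' p, star_mul_mul_star, hxs.star_eq]
    simp only [e1]
    calc _ ≤ ‖(∑ p, star (ra * z' p) * (ra * z' p)) - a‖ + ‖a - x * x‖ :=
          norm_sub_le_norm_sub_add_norm_sub ..
      _ ≤ e + e := add_le_add hzz hax
      _ ≤ ε := by linarith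
  · have e2 : ∀ q, star (ρ * u q) * (y * y) * (ρ * u q) = star (u q) * G * u q := fun q => by
      simp only [hG, star_mul, hys.star_eq, mul_assoc]
    simp only [e2]
    linarith
  · rw [hxs' p]
    have e3 : star (ra * z' p) * (y * (ρ * u q)) = star (ra * z' p) * y * ρ * u q := by
      simp only [mul_assoc]
    rw [e3]
    have h1 : ‖star (ra * z' p) * y * ρ‖ ≤ θ / (Cu + 1) := by
      have := hcross p
      exact (sq_le_sq₀ (norm_nonneg _) (by positivity)).mp this
    calc _ ≤ ‖star (ra * z' p) * y * ρ‖ * ‖u q‖ := norm_mul_le _ _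
      _ ≤ θ / (Cu + 1) * (Cu + 1) :=
          mul_le_mul h1 ((hub q).trans (by linarith)) (norm_nonneg _) (by positivity)
      _ = θ := div_mul_cancel₀ θ (by positivity)

end

end Vale.Agent.P133.FinDim
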