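import Vale.Agent.P133.FinDim.Comparison

namespace Vale.Agent.P133.FinDim

open Filter Topology
open scoped ComplexOrder

noncomputable section

variable {B : Type*} [CStarAlgebra B] [PartialOrder B] [StarOrderedRing B]

/-- The cut down of `Q` at height `θ`. -/
def cutDown (θ : ℝ) (Q : B) : B := cfc (fun t : ℝ => max (1 - t / θ) 0) Q

theorem cutDown_nonneg (θ : ℝ) (Q : B) : 0 ≤ cutDown θ Q :=
  cfc_nonneg (fun _ _ => le_max_right _ _)

omit [PartialOrder B] [StarOrderedRing B] in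
theorem isSelfAdjoint_cutDown (θ : ℝ) (Q : B) : IsSelfAdjoint (cutDown θ Q) := cfc_predicate _ _

theorem cutDown_le_one {θ : ℝ} (hθ : 0 < θ) {Q : B} (hQ : 0 ≤ Q) : cutDown θ Q ≤ 1 := by
  refine cfc_le_one _ Q (fun t ht => ?_)
  have : 0 ≤ t := spectrum_nonneg_of_nonneg hQ ht
  have : 0 ≤ t / θ := div_nonneg this hθ.le
  exact max_le (by linarith) zero_le_one

theorem norm_cutDown_le {θ : ℝ} (hθ : 0 < θ) {Q : B} (hQ : 0 ≤ Q) : ‖cutDown θ Q‖ ≤ 1 := by
  refine norm_cfc_le zero_le_one (fun t ht => ?_)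
  have h0 : 0 ≤ t := spectrum_nonneg_of_nonneg hQ ht
  have : 0 ≤ t / θ := div_nonneg h0 hθ.le
  rw [Real.norm_eq_abs, abs_of_nonneg (le_max_right _ _)]
  exact max_le (by linarith) zero_le_one

theorem cutDown_conj_le {θ : ℝ} (hθ : 0 < θ) {Q : B} (hQ : 0 ≤ Q) :
    star (cutDown θ Q) * Q * cutDown θ Q ≤ sc θ := by
  rw [(isSelfAdjoint_cutDown θ Q).star_eq]
  unfold cutDown
  conv_lhs => arg 1; arg 2; rw [← cfc_id' ℝ Q]
  rw [← cfc_mul _ _ Q, ← cfc_mul _ _ Q]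
  refine cfc_le_algebraMap _ _ Q (fun t ht => ?_)
  have h0 : 0 ≤ t := spectrum_nonneg_of_nonneg hQ ht
  rcases le_total t θ with h | h
  · have h1 : 0 ≤ t / θ := div_nonneg h0 hθ.le
    have h2 : max (1 - t / θ) 0 ≤ 1 := max_le (by linarith) zero_le_one
    have h3 : 0 ≤ max (1 - t / θ) 0 := le_max_right _ _
    nlinarith [mul_le_mul h2 h2 h3 zero_le_one]
  · have : 1 ≤ t / θ := by rw [le_div_iff₀ hθ]; linarith
    rw [max_eq_right (by linarith)]
    simp [hθ.le]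

theorem one_sub_cutDown_sq_le {θ : ℝ} (hθ : 0 < θ) {Q : B} (hQ : 0 ≤ Q) :
    star (1 - cutDown θ Q) * (1 - cutDown θ Q) ≤ θ⁻¹ • Q := by
  rw [star_sub, star_one, (isSelfAdjoint_cutDown θ Q).star_eq]
  unfold cutDown
  conv_lhs => rw [← cfc_one ℝ Q]
  rw [← cfc_sub _ _ Q, ← cfc_mul _ _ Q]
  conv_rhs => rw [← cfc_const_mul_id θ⁻¹ Q]
  refine cfc_mono (fun t ht => ?_)
  have h0 : 0 ≤ t := spectrum_nonneg_of_nonneg hQ ht
  have h1 : θ⁻¹ * t = t / θ := by rw [div_eq_inv_mul]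
  rw [h1]
  have h2 : 0 ≤ t / θ := div_nonneg h0 hθ.le
  simp only [Pi.one_apply]
  rcases le_total (t / θ) 1 with h | h
  · rw [max_eq_left (by linarith)]
    nlinarith
  · rw [max_eq_right (by linarith)]
    linarith

/-- The piecewise linear ramp from `a` to `a + w`. -/
def ramp (a w : ℝ) (t : ℝ) : ℝ := min 1 (max ((t - a) / w) 0)

theorem continuous_ramp (a w : ℝ) : Continuous (ramp a w) := by
  unfold ramp; fun_prop

theorem ramp_mem (a w t : ℝ) : ramp a w t ∈ Set.Icc (0 : ℝ) 1 :=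
  ⟨le_min zero_le_one (le_max_right _ _), min_le_left _ _⟩

theorem ramp_of_le {a w t : ℝ} (hw : 0 < w) (h : t ≤ a) : ramp a w t = 0 := by
  have : (t - a) / w ≤ 0 := div_nonpos_of_nonpos_of_nonneg (by linarith) hw.le
  simp [ramp, max_eq_right this]

theorem ramp_of_ge {a w t : ℝ} (hw : 0 < w) (h : a + w ≤ t) : ramp a w t = 1 := by
  have : 1 ≤ (t - a) / w := by rw [le_div_iff₀ hw]; linarith
  simp [ramp, max_eq_left (zero_le_one.trans this), this]

theorem good_ramp (a w : ℝ) : Good (ramp a w) :=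
  ⟨continuous_ramp a w, fun t _ => ramp_mem a w t⟩

theorem good_sqrt_ramp (a w : ℝ) : Good (fun t => Real.sqrt (ramp a w t)) :=
  ⟨(continuous_ramp a w).sqrt, fun t _ =>
    ⟨Real.sqrt_nonneg _, Real.sqrt_le_one.mpr (ramp_mem a w t).2⟩⟩

theorem good_sqrt_one_sub_ramp (a w : ℝ) : Good (fun t => Real.sqrt (1 - ramp a w t)) :=
  ⟨(continuous_const.sub (continuous_ramp a w)).sqrt, fun t _ =>
    ⟨Real.sqrt_nonneg _, Real.sqrt_le_one.mpr (by have := (ramp_mem a w t).1; linarith)⟩⟩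

theorem good_one : Good (fun _ => (1 : ℝ)) :=
  ⟨continuous_const, fun _ _ => ⟨zero_le_one, le_rfl⟩⟩

theorem Good.mul {f g : ℝ → ℝ} (hf : Good f) (hg : Good g) : Good (fun t => f t * g t) :=
  ⟨hf.1.mul hg.1, fun t ht =>
    ⟨mul_nonneg (hf.2 t ht).1 (hg.2 t ht).1,
      mul_le_one₀ (hf.2 t ht).2 (hg.2 t ht).1 (hg.2 t ht).2⟩⟩

theorem Good.one_sub {f : ℝ → ℝ} (hf : Good f) : Good (fun t => 1 - f t) :=
  ⟨continuous_const.sub hf.1, fun t ht =>
    ⟨by linarith [(hf.2 t ht).2], by linarith [(hf.2 t ht).1]⟩⟩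

theorem good_ite {p : Prop} [Decidable p] {f g : ℝ → ℝ} (hf : Good f) (hg : Good g) :
    Good (if p then f else g) := by
  split_ifs <;> assumption

omit [StarOrderedRing B] in
theorem sum_le_sum_of_subset' [IsOrderedAddMonoid B] {ι : Type*} {s t : Finset ι} {f : ι → B}
    (h : s ⊆ t) (hf : ∀ i ∈ t, 0 ≤ f i) : ∑ i ∈ s, f i ≤ ∑ i ∈ t, f i :=
  Finset.sum_le_sum_of_subset_of_nonneg h (fun i hi _ => hf i hi)

theorem norm_le_one_of_le_one {x : B} (h0 : 0 ≤ x) (h1 : x ≤ 1) : ‖x‖ ≤ 1 :=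
  (CStarAlgebra.norm_le_one_iff_of_nonneg x h0).mpr h1

theorem le_one_of_norm_le_one {x : B} (h0 : 0 ≤ x) (h1 : ‖x‖ ≤ 1) : x ≤ 1 :=
  (CStarAlgebra.norm_le_one_iff_of_nonneg x h0).mp h1

theorem norm_star_mul_self_eq_sq (x : B) : ‖star x * x‖ = ‖x‖ ^ 2 := by
  rw [CStarRing.norm_star_mul_self, sq]

omit [PartialOrder B] [StarOrderedRing B] in
/-- Splitting the multiplier of a sandwich. -/
theorem star_mul_mul_star (a b : B) : star (a * b) * (a * b) = star b * (star a * a) * b := by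
  rw [star_mul]; noncomm_ring

end

end Vale.Agent.P133.FinDim
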